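import Vale.Agent.P159.H733.TorgF

/-!
P159 / TORG (helper733), part G: from the entrywise comparison (E) to the Hilbert-Schmidt forms,
with the constants (`Near.plus`) and for increments (`Near.incr`), arbitrary factors.
-/

set_option linter.unusedSectionVars false

namespace Vale.Agent.P159.H733.Torg

open Finset Matrix MeasureTheory
open Vale.Agent.P159.TM.H764 (cN sN dt EE)
open Vale.Agent.P159.TM.Spec (V)
open Vale.Agent.P159.H864 (TI sym mlt fc hsq)
open Vale.Agent.P159.H462 (Dom)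
open Vale.Agent.P159.TM.H459 (sn)
open Vale.Agent.P159.H37 (gau qf)

noncomputable section

variable {N N2 : ℕ} [NeZero N] [NeZero N2]

/-! ### evaluation and increments as matrices -/

section win

variable {J L : Type*}

/-- evaluation at window points -/
def ev (x : J → V N) : Matrix J (V N) ℝ := Matrix.of fun j y => if y = x j then 1 else 0

lemma ev_mul (x : J → V N) (M : Matrix (V N) L ℝ) (i : J) (y : L) : (ev x * M) i y = M (x i) y := by
  rw [Matrix.mul_apply]
  unfold ev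
  simp only [Matrix.of_apply, ite_mul, one_mul, zero_mul, Finset.sum_ite_eq', mem_univ, if_true]

lemma mul_evT (x : J → V N) (M : Matrix L (V N) ℝ) (i : L) (j : J) :
    (M * (ev x)ᵀ) i j = M i (x j) := by
  rw [Matrix.mul_apply]
  unfold ev
  simp only [Matrix.transpose_apply, Matrix.of_apply, mul_ite, mul_one, mul_zero,
    Finset.sum_ite_eq', mem_univ, if_true]

lemma ev_cov (x : J → V N) (K : Matrix (V N) (V N) ℝ) (i j : J) :
    (ev x * K * (ev x)ᵀ) i j = K (x i) (x j) := by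
  rw [mul_evT, ev_mul]

variable [Fintype J]

lemma qf_eq_dot (K : Matrix (V N) (V N) ℝ) (u : V N → ℝ) : qf K u = u ⬝ᵥ (K *ᵥ u) := by
  unfold qf dotProduct Matrix.mulVec dotProduct
  refine Finset.sum_congr rfl fun x _ => ?_
  rw [Finset.mul_sum]
  exact Finset.sum_congr rfl fun y _ => by ring

lemma qf_win (W : Matrix J (V N) ℝ) (K : Matrix (V N) (V N) ℝ) (u : J → ℝ) :
    u ⬝ᵥ ((W * K * Wᵀ) *ᵥ u) = qf K (Wᵀ *ᵥ u) := by
  rw [qf_eq_dot, ← Matrix.mulVec_mulVec, ← Matrix.mulVec_mulVec, Matrix.dotProduct_mulVec u,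
    ← Matrix.mulVec_transpose]

end win

lemma hsq_zero (U : V N → ℝ) : hsq U 0 = (∑ x, U x) ^ 2 := by
  unfold H864.hsq TM.H764.hatu
  have h1 : ∑ x : V N, (U x : ℂ) * TM.H764.ch (dt 0 x) = ((∑ x, U x : ℝ) : ℂ) := by
    rw [Complex.ofReal_sum]
    refine Finset.sum_congr rfl fun x _ => ?_
    rw [H864.dt_zero_left, TM.H764.ch_zero, mul_one]
  rw [h1, Complex.normSq_ofReal]
  ring

/-- lower bound of the covariance -/
lemma Cv.low {β ν c : ℝ} {A K : Matrix (V N) (V N) ℝ} (hK : Cv β A K) (h : Dom A ν c)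
    (hβ : 0 ≤ β) (hK0 : 0 ≤ sym K 0) (U : V N → ℝ) :
    (ν + β)⁻¹ * (∑ x, U x ^ 2 - ((N : ℝ) ^ 2)⁻¹ * (∑ x, U x) ^ 2) ≤ qf K U := by
  have hν := h.hν
  have hN := H864.N_pos (N := N)
  rw [H864.qf_eq_sum hK.ti, ← H864.sum_hsq, ← hsq_zero, ← mul_sub, ← mul_assoc,
    mul_comm (ν + β)⁻¹, mul_assoc]
  refine mul_le_mul_of_nonneg_left ?_ (by positivity)
  have h1 : ∀ k : V N, (ν + β)⁻¹ * hsq U k - (if k = 0 then (ν + β)⁻¹ * hsq U 0 else 0) ≤
      sym K k * hsq U k := by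
    intro k
    have h2 := H864.hsq_nonneg U k
    split_ifs with hk
    · rw [hk, sub_self]
      rw [hk] at h2
      exact mul_nonneg hK0 h2
    · rw [hK.sy k hk, sub_zero]
      refine mul_le_mul_of_nonneg_right ?_ h2
      have h3 := sym_pos h hk
      have h4 := h.le k
      exact inv_anti₀ (by linarith) (by linarith)
  have h2 := Finset.sum_le_sum fun k (_ : k ∈ univ) => h1 k
  rw [Finset.sum_sub_distrib, Finset.sum_ite_eq', ← Finset.mul_sum] at h2
  simp only [mem_univ, if_true] at h2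
  rw [mul_sub]
  exact h2

lemma val_ip {D : ℕ} (hD : 2 * D < N) {a : ℤ} (ha : a.natAbs ≤ D) : (a : ZMod N).valMinAbs = a := by
  rw [ZMod.valMinAbs_spec]
  refine ⟨rfl, ?_⟩
  rw [Set.mem_Ioc]
  omega

lemma ip_inj {D : ℕ} (hD : 2 * D < N) {ζ ζ' : ℤ × ℤ} (h1 : ζ.1.natAbs ≤ D) (h2 : ζ.2.natAbs ≤ D)
    (h1' : ζ'.1.natAbs ≤ D) (h2' : ζ'.2.natAbs ≤ D) (h : ip N ζ = ip N ζ') : ζ = ζ' := by
  have e1 := congrArg (fun x : V N => x.1.valMinAbs) h
  have e2 := congrArg (fun x : V N => x.2.valMinAbs) h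
  simp only [ip] at e1 e2
  rw [val_ip hD h1, val_ip hD h1'] at e1
  rw [val_ip hD h2, val_ip hD h2'] at e2
  exact Prod.ext e1 e2

/-! ### the two Hilbert-Schmidt forms -/

section main

variable {h : N ∣ N2} {A : Matrix (V N) (V N) ℝ} {A2 : Matrix (V N2) (V N2) ℝ}
  {ν c κ C1 η s : ℝ} {I J : Type*} [Fintype I] [Fintype J] [DecidableEq I] [DecidableEq J]

lemma eE_nonneg (hN : Near h A A2 ν c κ C1 η s) {β : ℝ} (hβ : 0 ≤ β) (m D : ℕ) :
    0 ≤ eE ν c κ C1 η s β N m D := by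
  have hν := hN.dom.hν
  have hc := hN.dom.hc
  have h1 := tau_nonneg κ C1 N (2 * m + 1)
  have h2 : 0 ≤ η * s := (abs_nonneg _).trans (hN.stb.sup 0)
  unfold eE
  positivity

/-- **TORG with constants** -/
theorem Near.plus (hN : Near h A A2 ν c κ C1 η s) {β : ℝ} (hβ : 0 ≤ β) {m D : ℕ} (hm : 1 ≤ m)
    (hDN : 4 * D < N) {z : J → ℤ × ℤ} (hz : ∀ j, (z j).1.natAbs ≤ D ∧ (z j).2.natAbs ≤ D)
    (hzi : Function.Injective z) (hcard : 2 * (Fintype.card J : ℝ) ≤ (N : ℝ) ^ 2)
    {K : Matrix (V N) (V N) ℝ} {K2 : Matrix (V N2) (V N2) ℝ} (hK : Cv β A K) (hK0 : 0 ≤ sym K 0)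
    (hK2 : Cv β A2 K2) (b : V N) (b2 : V N2) {B1 : Matrix J I ℝ}
    (hB1 : B1 * B1ᵀ = ev (fun j => b + ip N (z j)) * K * (ev fun j => b + ip N (z j))ᵀ) :
    ∃ H : Matrix I I ℝ, Hᵀ = H ∧
      ev (fun j => b2 + ip N2 (z j)) * K2 * (ev fun j => b2 + ip N2 (z j))ᵀ =
        B1 * (1 + H) * B1ᵀ + Matrix.of (fun _ _ => K2 0 0 - K 0 0) ∧
      ∑ x, ∑ y, H x y ^ 2 ≤
        (2 * (ν + β) * Fintype.card J * eE ν c κ C1 η s β N m (2 * D)) ^ 2 := by
  have hν := hN.dom.hν
  have hx : Function.Injective fun j => b + ip N (z j) := by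
    intro i j hij
    have h1 := add_left_cancel hij
    exact hzi (ip_inj (D := D) (by omega) (hz i).1 (hz i).2 (hz j).1 (hz j).2 h1)
  set G2 : Matrix J J ℝ :=
    ev (fun j => b2 + ip N2 (z j)) * K2 * (ev fun j => b2 + ip N2 (z j))ᵀ -
      Matrix.of (fun _ _ => K2 0 0 - K 0 0) with hG2
  have hG2t : G2ᵀ = G2 := by
    ext i j
    rw [Matrix.transpose_apply, hG2, Matrix.sub_apply, Matrix.sub_apply, ev_cov, ev_cov,
      hK2.ti.sy]
    rfl
  have hlow : ∀ u : J → ℝ, (2 * (ν + β))⁻¹ * ∑ j, u j ^ 2 ≤ ∑ i, (B1ᵀ *ᵥ u) i ^ 2 := by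
    intro u
    rw [qf_gram, hB1, qf_win]
    refine le_trans ?_ (hK.low hN.dom hβ hK0 _)
    have e1 : ∑ y, ((ev fun j => b + ip N (z j))ᵀ *ᵥ u) y ^ 2 = ∑ j, u j ^ 2 := by
      rw [qf_gram]
      have : (ev fun j => b + ip N (z j)) * (ev fun j => b + ip N (z j))ᵀ =
          (1 : Matrix J J ℝ) := by
        ext i j
        rw [mul_evT]
        unfold ev
        simp only [Matrix.of_apply]
        rw [Matrix.one_apply]
        by_cases hij : i = j
        · rw [if_pos hij, if_pos (by rw [hij])]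
        · rw [if_neg hij, if_neg fun he => hij (hx he).symm]
      rw [this, Matrix.one_mulVec]
      unfold dotProduct
      exact Finset.sum_congr rfl fun j _ => by ring
    have e2 : ∑ y, ((ev fun j => b + ip N (z j))ᵀ *ᵥ u) y = ∑ j, u j := by
      unfold Matrix.mulVec dotProduct ev
      simp only [Matrix.transpose_apply, Matrix.of_apply]
      rw [Finset.sum_comm]
      refine Finset.sum_congr rfl fun j _ => ?_
      simp only [ite_mul, one_mul, zero_mul, Finset.sum_ite_eq', mem_univ, if_true]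
    rw [e1, e2]
    have e3 : (∑ j, u j) ^ 2 ≤ Fintype.card J * ∑ j, u j ^ 2 := by
      have := sq_sum_le_card_mul_sum_sq (s := (univ : Finset J)) (f := u)
      rwa [Finset.card_univ] at this
    have hS : 0 ≤ ∑ j, u j ^ 2 := Finset.sum_nonneg fun j _ => sq_nonneg _
    have hN2 := H864.N_pos (N := N)
    have e4 : ((N : ℝ) ^ 2)⁻¹ * (∑ j, u j) ^ 2 ≤ 1 / 2 * ∑ j, u j ^ 2 := by
      rw [inv_mul_le_iff₀ hN2]
      have := mul_le_mul_of_nonneg_right hcard hS
      linarith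
    have e5 : (2 * (ν + β))⁻¹ * ∑ j, u j ^ 2 = (ν + β)⁻¹ * (1 / 2 * ∑ j, u j ^ 2) := by
      rw [mul_inv]
      ring
    rw [e5]
    refine mul_le_mul_of_nonneg_left ?_ (by positivity)
    linarith
  obtain ⟨H, hH, hHG, hHS⟩ := hs_of_ent hG2t (by positivity) hlow
  refine ⟨H, hH, ?_, ?_⟩
  · rw [hHG, hG2]
    abel
  · refine hHS.trans ?_
    have he0 := eE_nonneg hN hβ m (2 * D)
    set e := eE ν c κ C1 η s β N m (2 * D) with he
    have hent : ∀ i j, (G2 - B1 * B1ᵀ) i j ^ 2 ≤ e ^ 2 := by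
      intro i j
      rw [Matrix.sub_apply, hB1, hG2, Matrix.sub_apply, ev_cov, ev_cov,
        hK2.ti.eq (b2 + ip N2 (z i)), hK.ti.eq (b + ip N (z i))]
      simp only [Matrix.of_apply]
      rw [show b2 + ip N2 (z j) - (b2 + ip N2 (z i)) = ip N2 (z j - z i) by
        rw [ip_sub]; abel, show b + ip N (z j) - (b + ip N (z i)) = ip N (z j - z i) by
        rw [ip_sub]; abel]
      have h1 := (hz i).1
      have h2 := (hz i).2
      have h3 := (hz j).1
      have h4 := (hz j).2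
      have := hN.ent hβ hm hK hK2 (D := 2 * D) (by omega) (ζ := z j - z i)
        (by rw [Prod.fst_sub]; omega) (by rw [Prod.snd_sub]; omega)
      rw [← he] at this
      rw [← sq_abs]
      refine pow_le_pow_left₀ (abs_nonneg _) ?_ 2
      refine le_trans (le_of_eq ?_) this
      congr 1
      ring
    have h5 : ∑ i, ∑ j, (G2 - B1 * B1ᵀ) i j ^ 2 ≤ ∑ _i : J, ∑ _j : J, e ^ 2 :=
      Finset.sum_le_sum fun i _ => Finset.sum_le_sum fun j _ => hent i j
    simp only [Finset.sum_const, Finset.card_univ, nsmul_eq_mul] at h5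
    rw [inv_inv]
    refine (mul_le_mul_of_nonneg_left h5 (by positivity)).trans (le_of_eq ?_)
    ring

/-- increments form, all window points different from the base point -/
theorem Near.incr' (hN : Near h A A2 ν c κ C1 η s) {β : ℝ} (hβ : 0 ≤ β) {m D : ℕ} (hm : 1 ≤ m)
    (hDN : 4 * D < N) {z : J → ℤ × ℤ} (hz : ∀ j, (z j).1.natAbs ≤ D ∧ (z j).2.natAbs ≤ D)
    (hzi : Function.Injective z) (hz0 : ∀ j, z j ≠ 0)
    {K : Matrix (V N) (V N) ℝ} {K2 : Matrix (V N2) (V N2) ℝ} (hK : Cv β A K) (hK0 : 0 ≤ sym K 0)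
    (hK2 : Cv β A2 K2) (b : V N) (b2 : V N2) {B1 : Matrix J I ℝ}
    (hB1 : B1 * B1ᵀ = win b z * K * (win b z)ᵀ) :
    ∃ H : Matrix I I ℝ, Hᵀ = H ∧ win b2 z * K2 * (win b2 z)ᵀ = B1 * (1 + H) * B1ᵀ ∧
      ∑ x, ∑ y, H x y ^ 2 ≤
        (3 * (ν + β) * Fintype.card J * eE ν c κ C1 η s β N m (2 * D)) ^ 2 := by
  have hν := hN.dom.hν
  have hx : Function.Injective fun j => b + ip N (z j) := by
    intro i j hij
    have h1 := add_left_cancel hij
    exact hzi (ip_inj (D := D) (by omega) (hz i).1 (hz i).2 (hz j).1 (hz j).2 h1)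
  have hxb : ∀ j, b + ip N (z j) ≠ b := by
    intro j hj
    have h1 : ip N (z j) = ip N 0 := by
      rw [ip_zero]
      exact add_eq_left.1 hj
    exact hz0 j (ip_inj (D := D) (by omega) (hz j).1 (hz j).2 (by simp) (by simp) h1)
  set G2 : Matrix J J ℝ := win b2 z * K2 * (win b2 z)ᵀ with hG2
  have hG2t : G2ᵀ = G2 := by
    rw [hG2, Matrix.transpose_mul, Matrix.transpose_mul, Matrix.transpose_transpose,
      hK2.ti.transpose, Matrix.mul_assoc]
  have hlow : ∀ u : J → ℝ, (ν + β)⁻¹ * ∑ j, u j ^ 2 ≤ ∑ i, (B1ᵀ *ᵥ u) i ^ 2 := by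
    intro u
    rw [qf_gram, hB1, qf_win]
    refine le_trans ?_ (hK.low hN.dom hβ hK0 _)
    have e1 : ∑ j, u j ^ 2 ≤ ∑ y, ((win b z)ᵀ *ᵥ u) y ^ 2 := by
      rw [qf_gram]
      have : win b z * (win b z)ᵀ = (1 : Matrix J J ℝ) + Matrix.of fun _ _ => 1 := by
        ext i j
        unfold win
        rw [mul_incT, Matrix.add_apply, Matrix.one_apply]
        unfold inc
        simp only [Matrix.of_apply]
        rw [if_neg (hxb j), if_neg (Ne.symm (hxb i))]
        simp only [if_true]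
        by_cases hij : i = j
        · rw [if_pos hij, if_pos (by rw [hij])]
          ring
        · rw [if_neg hij, if_neg fun he => hij (hx he).symm]
          ring
      rw [this, Matrix.add_mulVec, Matrix.one_mulVec, dotProduct_add]
      have e2 : u ⬝ᵥ u = ∑ j, u j ^ 2 := by
        unfold dotProduct
        exact Finset.sum_congr rfl fun j _ => by ring
      have e3 : u ⬝ᵥ ((Matrix.of fun _ _ => (1 : ℝ)) *ᵥ u) = (∑ j, u j) ^ 2 := by
        unfold Matrix.mulVec dotProduct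
        simp only [Matrix.of_apply, one_mul]
        rw [← Finset.sum_mul, sq]
      rw [e2, e3]
      have := sq_nonneg (∑ j, u j)
      linarith
    have e2 : ∑ y, ((win b z)ᵀ *ᵥ u) y = 0 := by
      unfold Matrix.mulVec dotProduct
      rw [Finset.sum_comm]
      refine Finset.sum_eq_zero fun j _ => ?_
      rw [← Finset.sum_mul]
      have : ∑ y, (win b z)ᵀ y j = 0 := by
        unfold win inc
        simp only [Matrix.transpose_apply, Matrix.of_apply, Finset.sum_sub_distrib,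
          Finset.sum_ite_eq', mem_univ, if_true]
        ring
      rw [this, zero_mul]
    rw [e2]
    refine mul_le_mul_of_nonneg_left ?_ (by positivity)
    rw [zero_pow two_ne_zero, mul_zero, sub_zero]
    exact e1
  obtain ⟨H, hH, hHG, hHS⟩ := hs_of_ent hG2t (show 0 < (ν + β)⁻¹ by positivity) hlow
  refine ⟨H, hH, hHG.symm, ?_⟩
  refine hHS.trans ?_
  have he0 := eE_nonneg hN hβ m (2 * D)
  set e := eE ν c κ C1 η s β N m (2 * D) with he
  have hent : ∀ i j, (G2 - B1 * B1ᵀ) i j ^ 2 ≤ (3 * e) ^ 2 := by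
    intro i j
    rw [Matrix.sub_apply, hB1, hG2]
    unfold win
    rw [inc_TI hK2.ti, inc_TI hK.ti]
    simp only [add_sub_cancel_left]
    rw [dk_ip, dk_ip]
    have h1 := (hz i).1
    have h2 := (hz i).2
    have h3 := (hz j).1
    have h4 := (hz j).2
    have a1 := abs_le.1 (hN.ent hβ hm hK hK2 (D := 2 * D) (by omega) (ζ := z j - z i)
      (by rw [Prod.fst_sub]; omega) (by rw [Prod.snd_sub]; omega))
    have a2 := abs_le.1 (hN.ent hβ hm hK hK2 (D := 2 * D) (by omega) (ζ := -z i)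
      (by rw [Prod.fst_neg]; omega) (by rw [Prod.snd_neg]; omega))
    have a3 := abs_le.1 (hN.ent hβ hm hK hK2 (D := 2 * D) (by omega) (ζ := z j)
      (by omega) (by omega))
    rw [← he] at a1 a2 a3
    rw [ip_zero, ip_zero]
    obtain ⟨a11, a12⟩ := a1
    obtain ⟨a21, a22⟩ := a2
    obtain ⟨a31, a32⟩ := a3
    rw [← sq_abs]
    refine pow_le_pow_left₀ (abs_nonneg _) ?_ 2
    rw [abs_le]
    constructor <;> linarith
  have h5 : ∑ i, ∑ j, (G2 - B1 * B1ᵀ) i j ^ 2 ≤ ∑ _i : J, ∑ _j : J, (3 * e) ^ 2 :=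
    Finset.sum_le_sum fun i _ => Finset.sum_le_sum fun j _ => hent i j
  simp only [Finset.sum_const, Finset.card_univ, nsmul_eq_mul] at h5
  rw [inv_inv]
  refine (mul_le_mul_of_nonneg_left h5 (by positivity)).trans (le_of_eq ?_)
  ring

/-- **TORG for increments**, any window (the base point may belong to it) -/
theorem Near.incr (hN : Near h A A2 ν c κ C1 η s) {β : ℝ} (hβ : 0 ≤ β) {m D : ℕ} (hm : 1 ≤ m)
    (hDN : 4 * D < N) {z : J → ℤ × ℤ} (hz : ∀ j, (z j).1.natAbs ≤ D ∧ (z j).2.natAbs ≤ D)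
    (hzi : Function.Injective z)
    {K : Matrix (V N) (V N) ℝ} {K2 : Matrix (V N2) (V N2) ℝ} (hK : Cv β A K) (hK0 : 0 ≤ sym K 0)
    (hK2 : Cv β A2 K2) (b : V N) (b2 : V N2) {B1 : Matrix J I ℝ}
    (hB1 : B1 * B1ᵀ = win b z * K * (win b z)ᵀ) :
    ∃ H : Matrix I I ℝ, Hᵀ = H ∧ win b2 z * K2 * (win b2 z)ᵀ = B1 * (1 + H) * B1ᵀ ∧
      ∑ x, ∑ y, H x y ^ 2 ≤
        (3 * (ν + β) * Fintype.card J * eE ν c κ C1 η s β N m (2 * D)) ^ 2 := by
  have hν := hN.dom.hν
  set J' : Type _ := {j : J // z j ≠ 0} with hJ'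
  set B1' : Matrix J' I ℝ := B1.submatrix Subtype.val id with hB1'
  have sub1 : ∀ {M : ℕ} [NeZero M] (a : V M) (K : Matrix (V M) (V M) ℝ) (i j : J'),
      (win a (fun j : J' => z j.1) * K * (win a fun j : J' => z j.1)ᵀ) i j =
        (win a z * K * (win a z)ᵀ) i.1 j.1 := by
    intro M _ a K i j
    unfold win
    rw [mul_incT, inc_mul, inc_mul, mul_incT, inc_mul, inc_mul]
  have h1 : B1' * B1'ᵀ = win b (fun j : J' => z j.1) * K * (win b fun j : J' => z j.1)ᵀ := by
    ext i j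
    rw [sub1 b K i j, ← hB1]
    rfl
  obtain ⟨H, hH, hHG, hHS⟩ := hN.incr' hβ hm hDN (z := fun j : J' => z j.1) (fun j => hz j.1)
    (fun i j hij => Subtype.ext (hzi hij)) (fun j => j.2) hK hK0 hK2 b b2 h1
  refine ⟨H, hH, ?_, ?_⟩
  · -- rows with `z j = 0` vanish
    have hrow : ∀ j, z j = 0 → ∀ i, B1 j i = 0 := by
      intro j hj
      have h2 : (B1 * B1ᵀ) j j = 0 := by
        rw [hB1]
        unfold win
        rw [mul_incT, inc_mul, inc_mul, hj, ip_zero, add_zero]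
        ring
      rw [Matrix.mul_apply] at h2
      have h3 : ∀ i ∈ (univ : Finset I), B1 j i * B1ᵀ i j = 0 :=
        (Finset.sum_eq_zero_iff_of_nonneg fun i _ => mul_self_nonneg _).1 h2
      intro i
      exact mul_self_eq_zero.1 (h3 i (mem_univ i))
    ext i j
    by_cases hi : z i = 0
    · have e1 : (B1 * (1 + H) * B1ᵀ : Matrix J J ℝ) i j = 0 := by
        rw [Matrix.mul_apply]
        refine Finset.sum_eq_zero fun l _ => ?_
        have : (B1 * (1 + H) : Matrix J I ℝ) i l = 0 := by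
          rw [Matrix.mul_apply]
          exact Finset.sum_eq_zero fun l' _ => by rw [hrow i hi, zero_mul]
        rw [this, zero_mul]
      rw [e1]
      unfold win
      rw [mul_incT, inc_mul, inc_mul, hi, ip_zero, add_zero]
      ring
    · by_cases hj : z j = 0
      · have e1 : (B1 * (1 + H) * B1ᵀ : Matrix J J ℝ) i j = 0 := by
          rw [Matrix.mul_apply]
          refine Finset.sum_eq_zero fun l _ => ?_
          rw [Matrix.transpose_apply, hrow j hj, mul_zero]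
        rw [e1]
        unfold win
        rw [mul_incT, inc_mul, inc_mul, hj, ip_zero, add_zero]
        ring
      · have e1 := congrFun (congrFun hHG ⟨i, hi⟩) ⟨j, hj⟩
        rw [sub1 b2 K2 ⟨i, hi⟩ ⟨j, hj⟩] at e1
        rw [e1]
        rfl
  · refine hHS.trans (pow_le_pow_left₀ ?_ ?_ 2)
    · have := eE_nonneg hN hβ m (2 * D)
      positivity
    · have he0 := eE_nonneg hN hβ m (2 * D)
      have hc : (Fintype.card J' : ℝ) ≤ Fintype.card J := by
        exact_mod_cast Fintype.card_subtype_le _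
      refine mul_le_mul_of_nonneg_right ?_ he0
      exact mul_le_mul_of_nonneg_left hc (by positivity)

end main

end

end Vale.Agent.P159.H733.Torg
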