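import Vale.Agent.P159.H889.Vlaw
import Vale.Agent.P159.H733.TorgG
import Vale.Agent.P159.H358.Vtor2

/-!
P159 / VTOR instance (helper733), part 1: integer windows on two cell tori, transport of fields and
of local functionals from one torus to the other, change of the torus in the typical law.
-/

set_option linter.unusedSectionVars false

namespace Vale.Agent.P159.H733.Vt

open MeasureTheory ProbabilityTheory Finset Matrix
open Vale.Agent.P159.TM.Spec (V)
open Vale.Agent.P159.H37 (gau qf)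
open Vale.Agent.P159.H363
open Vale.Agent.P159.H864 (TI sym fc mlt)
open Vale.Agent.P159.H462 (Dom)
open Vale.Agent.P159.H889
open Vale.Agent.P159.H733.Torg (ip ip_sub ip_neg ip_zero win inc inc_mul mul_incT inc_TI dk dk_ip ev
  ev_mul ev_cov mul_evT Cv hs_of_ent qf_gram qf_win ip_inj)
open scoped Real

noncomputable section

variable {N N1 N2 : ℕ} [NeZero N] [NeZero N1] [NeZero N2]

/-! ### integer windows -/

/-- the integer window -/
def zb (D : ℕ) : Finset (ℤ × ℤ) := Finset.Icc (-(D : ℤ)) D ×ˢ Finset.Icc (-(D : ℤ)) D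

lemma mem_zb {D : ℕ} {ζ : ℤ × ℤ} : ζ ∈ zb D ↔ ζ.1.natAbs ≤ D ∧ ζ.2.natAbs ≤ D := by
  unfold zb
  rw [Finset.mem_product, Finset.mem_Icc, Finset.mem_Icc]
  omega

lemma card_zb (D : ℕ) : ((zb D).card : ℝ) = (2 * (D : ℝ) + 1) ^ 2 := by
  unfold zb
  rw [Finset.card_product, Int.card_Icc]
  have : ((D : ℤ) + 1 - -(D : ℤ)).toNat = 2 * D + 1 := by omega
  rw [this]
  push_cast
  ring

lemma zero_mem_zb (D : ℕ) : (0 : ℤ × ℤ) ∈ zb D := mem_zb.2 (by simp)

lemma add_mem_zb {D D' : ℕ} {ζ ξ : ℤ × ℤ} (h : ζ ∈ zb D) (h' : ξ ∈ zb D') : ζ + ξ ∈ zb (D + D') := by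
  rw [mem_zb] at h h' ⊢
  rw [Prod.fst_add, Prod.snd_add]
  omega

lemma sub_mem_zb {D D' : ℕ} {ζ ξ : ℤ × ℤ} (h : ζ ∈ zb D) (h' : ξ ∈ zb D') : ζ - ξ ∈ zb (D + D') := by
  rw [mem_zb] at h h' ⊢
  rw [Prod.fst_sub, Prod.snd_sub]
  omega

lemma zb_mono {D D' : ℕ} (h : D ≤ D') {ζ : ℤ × ℤ} (hz : ζ ∈ zb D) : ζ ∈ zb D' := by
  rw [mem_zb] at hz ⊢
  omega

lemma ip_add (N : ℕ) (ζ ζ' : ℤ × ℤ) : ip N (ζ + ζ') = ip N ζ + ip N ζ' := by
  unfold Torg.ip
  simp

lemma ip_val (x : V N) : ip N (x.1.valMinAbs, x.2.valMinAbs) = x := by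
  unfold Torg.ip
  simp

lemma ip_mem_box {D : ℕ} {ζ : ℤ × ℤ} (h : ζ ∈ zb D) (x : V N) : x + ip N ζ ∈ H462.box x D := by
  rw [mem_zb] at h
  rw [H462.mem_box, add_sub_cancel_left]
  have key : ∀ a : ℤ, ((a : ZMod N)).valMinAbs.natAbs ≤ a.natAbs := fun a => by
    have h1 := ZMod.natAbs_min_of_le_div_two N ((a : ZMod N).valMinAbs) a (by simp)
      (ZMod.natAbs_valMinAbs_le _)
    exact h1
  exact ⟨(key _).trans h.1, (key _).trans h.2⟩

/-- sums over boxes -/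
lemma sum_box {D : ℕ} (hD : 2 * D < N) (x : V N) {E : Type*} [AddCommMonoid E] (g : V N → E) :
    ∑ v ∈ H462.box x D, g v = ∑ ζ ∈ zb D, g (x + ip N ζ) := by
  symm
  refine Finset.sum_bij (fun ζ _ => x + ip N ζ) (fun ζ hζ => ip_mem_box hζ x) ?_ ?_
    (fun _ _ => rfl)
  · intro a ha b hb hab
    have ha' := mem_zb.1 ha
    have hb' := mem_zb.1 hb
    exact ip_inj hD ha'.1 ha'.2 hb'.1 hb'.2 (add_left_cancel hab)
  · intro v hv
    refine ⟨((v - x).1.valMinAbs, (v - x).2.valMinAbs), mem_zb.2 (H462.mem_box.1 hv), ?_⟩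
    rw [ip_val]
    abel

/-! ### coordinates and transport of fields -/

/-- coordinates in the box around `b` (zero outside the box) -/
def zz (D : ℕ) (b v : V N) : ℤ × ℤ :=
  if v ∈ H462.box b D then ((v - b).1.valMinAbs, (v - b).2.valMinAbs) else 0

lemma zz_mem (D : ℕ) (b v : V N) : zz D b v ∈ zb D := by
  unfold zz
  split_ifs with h
  · exact mem_zb.2 (H462.mem_box.1 h)
  · exact zero_mem_zb D

lemma add_ip_zz {D : ℕ} {b v : V N} (h : v ∈ H462.box b D) : b + ip N (zz D b v) = v := by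
  unfold zz
  rw [if_pos h, ip_val]
  abel

lemma zz_of_not {D : ℕ} {b v : V N} (h : v ∉ H462.box b D) : zz D b v = 0 := by
  unfold zz
  rw [if_neg h]

lemma zz_add (D : ℕ) (a b v : V N) : zz D (b + a) (v + a) = zz D b v := by
  unfold zz
  by_cases h : v ∈ H462.box b D
  · rw [if_pos h, if_pos (mem_box_add.2 h), add_sub_add_right_eq_sub]
  · rw [if_neg h, if_neg fun h' => h (mem_box_add.1 h')]

lemma zz_ip {D : ℕ} (hD : 2 * D < N) {ζ : ℤ × ℤ} (h : ζ ∈ zb D) (b : V N) :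
    zz D b (b + ip N ζ) = ζ := by
  unfold zz
  rw [if_pos (ip_mem_box h b), add_sub_cancel_left]
  have h' := mem_zb.1 h
  unfold Torg.ip
  exact Prod.ext (Torg.val_ip hD h'.1) (Torg.val_ip hD h'.2)

lemma cutx_eq (D : ℕ) (b : V N) (F : V N → ℝ) (v : V N) :
    cutx D b F v = F (b + ip N (zz D b v)) := by
  unfold cutx H552.cutB
  by_cases h : v ∈ H462.box b D
  · rw [if_pos h, add_ip_zz h]
  · rw [if_neg h, zz_of_not h, ip_zero, add_zero]

/-- the field around `b2` on the torus `N2` read around `b1` on the torus `N1` -/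
def trp (D : ℕ) (b1 : V N1) (b2 : V N2) (F : V N2 → ℝ) : V N1 → ℝ :=
  fun v => F (b2 + ip N2 (zz D b1 v))

lemma trp_self (D : ℕ) (b : V N) (F : V N → ℝ) : trp D b b F = cutx D b F :=
  funext fun v => (cutx_eq D b F v).symm

lemma trp_add (D : ℕ) (b1 : V N1) (b2 : V N2) (F : V N2 → ℝ) (t : ℝ) :
    trp D b1 b2 (fun y => F y + t) = fun v => trp D b1 b2 F v + t := rfl

lemma measurable_trp (D : ℕ) (b1 : V N1) (b2 : V N2) : Measurable (trp D b1 b2) :=
  measurable_pi_iff.2 fun v => measurable_pi_apply (b2 + ip N2 (zz D b1 v))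

/-- the transported field is a cut field -/
lemma cutx_trp (D : ℕ) (b1 : V N1) (b2 : V N2) (F : V N2 → ℝ) :
    cutx D b1 (trp D b1 b2 F) = trp D b1 b2 F := by
  funext v
  rw [cutx_eq]
  unfold trp
  by_cases h : v ∈ H462.box b1 D
  · rw [add_ip_zz h]
  · rw [zz_of_not h, ip_zero, add_zero]
    by_cases hb : b1 ∈ H462.box b1 D
    · congr 2
      unfold zz
      rw [if_pos hb, sub_self]
      simp only [Prod.fst_zero, Prod.snd_zero, ZMod.valMinAbs_zero]
      rfl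
    · exact absurd (self_mem_box b1 D) hb

lemma sh_trp (D : ℕ) (a b1 : V N1) (b2 : V N2) (F : V N2 → ℝ) :
    sh a (trp D (b1 + a) b2 F) = trp D b1 b2 F := by
  funext v
  unfold sh trp
  rw [zz_add]

lemma trp_sh (D : ℕ) (b1 : V N1) (a b2 : V N2) (F : V N2 → ℝ) :
    trp D b1 b2 (sh a F) = trp D b1 (b2 + a) F := by
  funext v
  unfold sh trp
  rw [add_right_comm]

/-! ### functionals of one torus read on another torus -/

/-- the local functional `mu` of the torus `N1` read on the torus `N2` -/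
def lft (D : ℕ) (mu : V N1 → (V N1 → ℝ) → ℂ) (x : V N2) (F : V N2 → ℝ) : ℂ := mu 0 (trp D 0 x F)

section lft

variable {D : ℕ} {mu : V N1 → (V N1 → ℝ) → ℂ}

lemma measurable_lft (h : ∀ x, Measurable (mu x)) (x : V N2) : Measurable (lft D mu x) :=
  (h 0).comp (measurable_trp D 0 x)

lemma norm_lft {K : ℝ} (h : ∀ x F, ‖mu x F‖ ≤ K) (x : V N2) (F : V N2 → ℝ) :
    ‖lft D mu x F‖ ≤ K := h _ _

lemma ch_lft (h : ∀ x, Ch (mu x)) (x : V N2) : Ch (lft D mu x) := by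
  intro F t
  unfold lft
  rw [trp_add]
  exact h 0 _ t

lemma cov_lft (D : ℕ) (mu : V N1 → (V N1 → ℝ) → ℂ) :
    Cov (lft D mu : V N2 → (V N2 → ℝ) → ℂ) := by
  intro a x F
  unfold lft
  rw [trp_sh]

lemma loc_lft (D : ℕ) (mu : V N1 → (V N1 → ℝ) → ℂ) (x : V N2) :
    Loc (H462.box x D) (lft D mu x) := by
  intro F F' h
  unfold lft
  have : trp D (0 : V N1) x F = trp D 0 x F' := by
    funext v
    unfold trp
    exact h _ (ip_mem_box (zz_mem D 0 v) x)
  rw [this]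

lemma lip_lft {Lp : ℝ} (h : ∀ (x : V N1) (F F' : V N1 → ℝ) (r : ℝ),
      (∀ y ∈ H462.box x D, |F y - F' y| ≤ r) → ‖mu x F - mu x F'‖ ≤ Lp * r)
    (x : V N2) (F F' : V N2 → ℝ) (r : ℝ) (hr : ∀ y ∈ H462.box x D, |F y - F' y| ≤ r) :
    ‖lft D mu x F - lft D mu x F'‖ ≤ Lp * r := by
  unfold lft
  refine h 0 _ _ r fun y _ => ?_
  unfold trp
  exact hr _ (ip_mem_box (zz_mem D 0 y) x)

/-- the base point on the first torus does not matter -/
lemma lft_base (hc : Cov mu) (y : V N1) (x : V N2) (F : V N2 → ℝ) :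
    mu y (trp D y x F) = lft D mu x F := by
  unfold lft
  have h := hc y 0 (trp D y x F)
  rw [zero_add] at h
  rw [h]
  have h2 := sh_trp D y 0 x F
  rw [zero_add] at h2
  rw [h2]

/-- only the closeness is not automatic -/
theorem lcl_lft {A1 : Matrix (V N1) (V N1) ℝ} {A2 : Matrix (V N2) (V N2) ℝ} {η Lp r : ℝ}
    {u1 : V N1 → (V N1 → ℝ) → ℂ} {u2 : V N2 → (V N2 → ℝ) → ℂ} (h : Lcl A1 D η Lp u1 mu)
    (hn : ∀ x, tn2 A2 (fun F => u2 x F - lft D mu x F) ≤ r) : Lcl A2 D r Lp u2 (lft D mu) := by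
  obtain ⟨K, hK⟩ := h.bd
  exact ⟨measurable_lft h.m, ⟨K, norm_lft hK⟩, ch_lft h.ch, cov_lft D mu, loc_lft D mu,
    lip_lft h.lip, hn⟩

end lft

/-! ### window matrices -/

/-- the window as a type -/
abbrev Jz (D : ℕ) := {ζ : ℤ × ℤ // ζ ∈ zb D}

lemma card_Jz (D : ℕ) : (Fintype.card (Jz D) : ℝ) = (2 * (D : ℝ) + 1) ^ 2 := by
  rw [← card_zb D, Fintype.card_coe]

/-- evaluation -/
def ew (D : ℕ) (b : V N) : Matrix (Jz D) (V N) ℝ := ev fun ζ : Jz D => b + ip N ζ.1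

/-- increments -/
def iw (D : ℕ) (b : V N) : Matrix (Jz D) (V N) ℝ := win b fun ζ : Jz D => ζ.1

lemma ew_mulVec (D : ℕ) (b : V N) (F : V N → ℝ) (ζ : Jz D) :
    (ew D b *ᵥ F) ζ = F (b + ip N ζ.1) := by
  unfold ew Torg.ev Matrix.mulVec dotProduct
  simp only [Matrix.of_apply, ite_mul, one_mul, zero_mul, Finset.sum_ite_eq', mem_univ, if_true]

lemma iw_mulVec (D : ℕ) (b : V N) (F : V N → ℝ) (ζ : Jz D) :
    (iw D b *ᵥ F) ζ = F (b + ip N ζ.1) - F b := by
  unfold iw Torg.win Torg.inc Matrix.mulVec dotProduct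
  simp only [Matrix.of_apply, sub_mul, ite_mul, one_mul, zero_mul, Finset.sum_sub_distrib,
    Finset.sum_ite_eq', mem_univ, if_true]

/-- a window field read on the torus -/
def rz (D : ℕ) (b1 : V N1) (φ : Jz D → ℝ) : V N1 → ℝ := fun v => φ ⟨zz D b1 v, zz_mem D b1 v⟩

lemma measurable_rz (D : ℕ) (b1 : V N1) : Measurable (rz D b1) :=
  measurable_pi_iff.2 fun _ => measurable_pi_apply _

lemma trp_ew (D : ℕ) (b1 : V N1) (b2 : V N2) (F : V N2 → ℝ) :
    trp D b1 b2 F = rz D b1 (ew D b2 *ᵥ F) := by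
  funext v
  unfold trp rz
  rw [ew_mulVec]

lemma trp_iw (D : ℕ) (b1 : V N1) (b2 : V N2) (F : V N2 → ℝ) :
    rz D b1 (iw D b2 *ᵥ F) = trp D b1 b2 F + fun _ => -F b2 := by
  funext v
  unfold trp rz
  rw [iw_mulVec, Pi.add_apply]
  ring

/-! ### Hilbert-Schmidt small changes from entrywise closeness -/

section hs

variable {I J : Type*} [Fintype I] [DecidableEq I] [Fintype J] [DecidableEq J]

/-- increments, all window points different from the base point -/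
theorem incr_of_ent' {A K : Matrix (V N1) (V N1) ℝ} {K2 : Matrix (V N2) (V N2) ℝ} {β ν c e : ℝ}
    (hK : Cv β A K) (h : Dom A ν c) (hβ : 0 ≤ β) (hK0 : 0 ≤ sym K 0) (hK2 : TI K2) {D : ℕ}
    (hDN : 2 * D < N1) {z : J → ℤ × ℤ} (hz : ∀ j, z j ∈ zb D) (hzi : Function.Injective z)
    (hz0 : ∀ j, z j ≠ 0)
    (hent : ∀ ζ ∈ zb (2 * D), |(K2 0 (ip N2 ζ) - K2 0 0) - (K 0 (ip N1 ζ) - K 0 0)| ≤ e)
    (b : V N1) (b2 : V N2) {B1 : Matrix J I ℝ} (hB1 : B1 * B1ᵀ = win b z * K * (win b z)ᵀ) :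
    ∃ H : Matrix I I ℝ, Hᵀ = H ∧ win b2 z * K2 * (win b2 z)ᵀ = B1 * (1 + H) * B1ᵀ ∧
      ∑ x, ∑ y, H x y ^ 2 ≤ (3 * (ν + β) * Fintype.card J * e) ^ 2 := by
  have hν := h.hν
  have he0 : 0 ≤ e := (abs_nonneg _).trans (hent 0 (zero_mem_zb _))
  have hx : Function.Injective fun j => b + ip N1 (z j) := by
    intro i j hij
    have h1 := add_left_cancel hij
    have hi := mem_zb.1 (hz i)
    have hj := mem_zb.1 (hz j)
    exact hzi (ip_inj (D := D) hDN hi.1 hi.2 hj.1 hj.2 h1)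
  have hxb : ∀ j, b + ip N1 (z j) ≠ b := by
    intro j hj
    have h1 : ip N1 (z j) = ip N1 0 := by
      rw [ip_zero]
      exact add_eq_left.1 hj
    have hj' := mem_zb.1 (hz j)
    exact hz0 j (ip_inj (D := D) hDN hj'.1 hj'.2 (by simp) (by simp) h1)
  set G2 : Matrix J J ℝ := win b2 z * K2 * (win b2 z)ᵀ with hG2
  have hG2t : G2ᵀ = G2 := by
    rw [hG2, Matrix.transpose_mul, Matrix.transpose_mul, Matrix.transpose_transpose,
      hK2.transpose, Matrix.mul_assoc]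
  have hlow : ∀ u : J → ℝ, (ν + β)⁻¹ * ∑ j, u j ^ 2 ≤ ∑ i, (B1ᵀ *ᵥ u) i ^ 2 := by
    intro u
    rw [qf_gram, hB1, qf_win]
    refine le_trans ?_ (hK.low h hβ hK0 _)
    have e1 : ∑ j, u j ^ 2 ≤ ∑ y, ((win b z)ᵀ *ᵥ u) y ^ 2 := by
      rw [qf_gram]
      have : win b z * (win b z)ᵀ = (1 : Matrix J J ℝ) + Matrix.of fun _ _ => 1 := by
        ext i j
        unfold Torg.win
        rw [mul_incT, Matrix.add_apply, Matrix.one_apply]
        unfold Torg.inc
        simp only [Matrix.of_apply]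
        rw [if_neg (hxb j), if_neg (Ne.symm (hxb i))]
        simp only [if_true]
        by_cases hij : i = j
        · rw [if_pos hij, if_pos (by rw [hij])]
          ring
        · rw [if_neg hij, if_neg fun he => hij (hx he).symm]
          ring
      rw [this, Matrix.add_mulVec, Matrix.one_mulVec, dotProduct_add]
      have e2 : u ⬝ᵥ u = ∑ j, u j ^ 2 := by
        unfold dotProduct
        exact Finset.sum_congr rfl fun j _ => by ring
      have e3 : u ⬝ᵥ ((Matrix.of fun _ _ => (1 : ℝ)) *ᵥ u) = (∑ j, u j) ^ 2 := by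
        unfold Matrix.mulVec dotProduct
        simp only [Matrix.of_apply, one_mul]
        rw [← Finset.sum_mul, pow_two]
      rw [e2, e3]
      have := sq_nonneg (∑ j, u j)
      linarith
    have e2 : ∑ y, ((win b z)ᵀ *ᵥ u) y = 0 := by
      unfold Matrix.mulVec dotProduct
      rw [Finset.sum_comm]
      refine Finset.sum_eq_zero fun j _ => ?_
      rw [← Finset.sum_mul]
      have : ∑ y, (win b z)ᵀ y j = 0 := by
        unfold Torg.win Torg.inc
        simp only [Matrix.transpose_apply, Matrix.of_apply, Finset.sum_sub_distrib,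
          Finset.sum_ite_eq', mem_univ, if_true]
        ring
      rw [this, zero_mul]
    rw [e2]
    refine mul_le_mul_of_nonneg_left ?_ (by positivity)
    rw [zero_pow two_ne_zero, mul_zero, sub_zero]
    exact e1
  obtain ⟨H, hH, hHG, hHS⟩ := hs_of_ent hG2t (show 0 < (ν + β)⁻¹ by positivity) hlow
  refine ⟨H, hH, hHG.symm, ?_⟩
  refine hHS.trans ?_
  have hent : ∀ i j, (G2 - B1 * B1ᵀ) i j ^ 2 ≤ (3 * e) ^ 2 := by
    intro i j
    rw [Matrix.sub_apply, hB1, hG2]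
    unfold Torg.win
    rw [inc_TI hK2, inc_TI hK.ti]
    simp only [add_sub_cancel_left]
    rw [dk_ip, dk_ip]
    have a1 := abs_le.1 (hent (z j - z i) (by
      rw [two_mul]
      exact sub_mem_zb (hz j) (hz i)))
    have a2 := abs_le.1 (hent (-z i) (by
      rw [← zero_sub, two_mul]
      exact sub_mem_zb (zero_mem_zb _) (hz i)))
    have a3 := abs_le.1 (hent (z j) (zb_mono (by omega) (hz j)))
    rw [ip_zero, ip_zero]
    obtain ⟨a11, a12⟩ := a1
    obtain ⟨a21, a22⟩ := a2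
    obtain ⟨a31, a32⟩ := a3
    rw [← sq_abs]
    refine pow_le_pow_left₀ (abs_nonneg _) ?_ 2
    rw [abs_le]
    constructor <;> linarith
  have h5 : ∑ i, ∑ j, (G2 - B1 * B1ᵀ) i j ^ 2 ≤ ∑ _i : J, ∑ _j : J, (3 * e) ^ 2 :=
    Finset.sum_le_sum fun i _ => Finset.sum_le_sum fun j _ => hent i j
  simp only [Finset.sum_const, Finset.card_univ, nsmul_eq_mul] at h5
  rw [inv_inv]
  refine (mul_le_mul_of_nonneg_left h5 (by positivity)).trans (le_of_eq ?_)
  ring

/-- increments on the full window -/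
theorem incr_of_ent {A K : Matrix (V N1) (V N1) ℝ} {K2 : Matrix (V N2) (V N2) ℝ} {β ν c e : ℝ}
    (hK : Cv β A K) (h : Dom A ν c) (hβ : 0 ≤ β) (hK0 : 0 ≤ sym K 0) (hK2 : TI K2) {D : ℕ}
    (hDN : 2 * D < N1)
    (hent : ∀ ζ ∈ zb (2 * D), |(K2 0 (ip N2 ζ) - K2 0 0) - (K 0 (ip N1 ζ) - K 0 0)| ≤ e)
    (b : V N1) (b2 : V N2) {B1 : Matrix (Jz D) I ℝ} (hB1 : B1 * B1ᵀ = iw D b * K * (iw D b)ᵀ) :
    ∃ H : Matrix I I ℝ, Hᵀ = H ∧ iw D b2 * K2 * (iw D b2)ᵀ = B1 * (1 + H) * B1ᵀ ∧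
      ∑ x, ∑ y, H x y ^ 2 ≤ (3 * (ν + β) * (2 * D + 1) ^ 2 * e) ^ 2 := by
  have hν := h.hν
  have he0 : 0 ≤ e := (abs_nonneg _).trans (hent 0 (zero_mem_zb _))
  set J' : Type _ := {j : Jz D // j.1 ≠ 0} with hJ'
  set B1' : Matrix J' I ℝ := B1.submatrix Subtype.val id with hB1'
  have sub1 : ∀ {M : ℕ} [NeZero M] (a : V M) (K : Matrix (V M) (V M) ℝ) (i j : J'),
      (win a (fun j : J' => j.1.1) * K * (win a fun j : J' => j.1.1)ᵀ) i j =
        (iw D a * K * (iw D a)ᵀ) i.1 j.1 := by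
    intro M _ a K i j
    unfold iw Torg.win
    rw [mul_incT, inc_mul, inc_mul, mul_incT, inc_mul, inc_mul]
  have h1 : B1' * B1'ᵀ = win b (fun j : J' => j.1.1) * K * (win b fun j : J' => j.1.1)ᵀ := by
    ext i j
    rw [sub1 b K i j, ← hB1]
    rfl
  obtain ⟨H, hH, hHG, hHS⟩ := incr_of_ent' hK h hβ hK0 hK2 hDN (z := fun j : J' => j.1.1)
    (fun j => j.1.2) (fun i j hij => Subtype.ext (Subtype.ext hij)) (fun j => j.2) hent b b2 h1
  refine ⟨H, hH, ?_, ?_⟩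
  · have hrow : ∀ j : Jz D, j.1 = 0 → ∀ i, B1 j i = 0 := by
      intro j hj
      have h2 : (B1 * B1ᵀ) j j = 0 := by
        rw [hB1]
        unfold iw Torg.win
        rw [mul_incT, inc_mul, inc_mul]
        simp only [hj, ip_zero, add_zero]
        ring
      rw [Matrix.mul_apply] at h2
      have h3 : ∀ i ∈ (univ : Finset I), B1 j i * B1ᵀ i j = 0 :=
        (Finset.sum_eq_zero_iff_of_nonneg fun i _ => mul_self_nonneg _).1 h2
      intro i
      exact mul_self_eq_zero.1 (h3 i (mem_univ i))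
    ext i j
    by_cases hi : i.1 = 0
    · have e1 : (B1 * (1 + H) * B1ᵀ : Matrix (Jz D) (Jz D) ℝ) i j = 0 := by
        rw [Matrix.mul_apply]
        refine Finset.sum_eq_zero fun l _ => ?_
        have : (B1 * (1 + H) : Matrix (Jz D) I ℝ) i l = 0 := by
          rw [Matrix.mul_apply]
          exact Finset.sum_eq_zero fun l' _ => by rw [hrow i hi, zero_mul]
        rw [this, zero_mul]
      rw [e1]
      unfold iw Torg.win
      rw [mul_incT, inc_mul, inc_mul]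
      simp only [hi, ip_zero, add_zero]
      ring
    · by_cases hj : j.1 = 0
      · have e1 : (B1 * (1 + H) * B1ᵀ : Matrix (Jz D) (Jz D) ℝ) i j = 0 := by
          rw [Matrix.mul_apply]
          refine Finset.sum_eq_zero fun l _ => ?_
          rw [Matrix.transpose_apply, hrow j hj, mul_zero]
        rw [e1]
        unfold iw Torg.win
        rw [mul_incT, inc_mul, inc_mul]
        simp only [hj, ip_zero, add_zero]
        ring
      · have e1 := congrFun (congrFun hHG ⟨i, hi⟩) ⟨j, hj⟩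
        rw [sub1 b2 K2 ⟨i, hi⟩ ⟨j, hj⟩] at e1
        rw [e1]
        rfl
  · refine hHS.trans (pow_le_pow_left₀ (by positivity) ?_ 2)
    have hc : (Fintype.card J' : ℝ) ≤ (2 * (D : ℝ) + 1) ^ 2 := by
      rw [← card_Jz D]
      exact_mod_cast Fintype.card_subtype_le _
    refine mul_le_mul_of_nonneg_right ?_ he0
    exact mul_le_mul_of_nonneg_left hc (by positivity)

/-- the full field on the window, covariance bounded below -/
theorem full_of_ent {G1 : Matrix (V N1) (V N1) ℝ} {G2 : Matrix (V N2) (V N2) ℝ} {g e : ℝ}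
    (hg : 0 < g) (hG1 : TI G1) (hG2 : TI G2) (hlow : ∀ U : V N1 → ℝ, g * ∑ x, U x ^ 2 ≤ qf G1 U)
    {D : ℕ} (hDN : 2 * D < N1)
    (hent : ∀ ζ ∈ zb (2 * D), |G2 0 (ip N2 ζ) - G1 0 (ip N1 ζ)| ≤ e)
    (b : V N1) (b2 : V N2) {B1 : Matrix (Jz D) I ℝ} (hB1 : B1 * B1ᵀ = ew D b * G1 * (ew D b)ᵀ) :
    ∃ H : Matrix I I ℝ, Hᵀ = H ∧ ew D b2 * G2 * (ew D b2)ᵀ = B1 * (1 + H) * B1ᵀ ∧
      ∑ x, ∑ y, H x y ^ 2 ≤ (g⁻¹ * (2 * D + 1) ^ 2 * e) ^ 2 := by
  have he0 : 0 ≤ e := (abs_nonneg _).trans (hent 0 (zero_mem_zb _))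
  have hx : Function.Injective fun j : Jz D => b + ip N1 j.1 := by
    intro i j hij
    have h1 := add_left_cancel hij
    have hi := mem_zb.1 i.2
    have hj := mem_zb.1 j.2
    exact Subtype.ext (ip_inj (D := D) hDN hi.1 hi.2 hj.1 hj.2 h1)
  set G : Matrix (Jz D) (Jz D) ℝ := ew D b2 * G2 * (ew D b2)ᵀ with hG
  have hGt : Gᵀ = G := by
    rw [hG, Matrix.transpose_mul, Matrix.transpose_mul, Matrix.transpose_transpose,
      hG2.transpose, Matrix.mul_assoc]
  have hl : ∀ u : Jz D → ℝ, g * ∑ j, u j ^ 2 ≤ ∑ i, (B1ᵀ *ᵥ u) i ^ 2 := by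
    intro u
    rw [qf_gram, hB1, qf_win]
    refine le_trans (le_of_eq ?_) (hlow _)
    congr 1
    rw [qf_gram]
    have : ew D b * (ew D b)ᵀ = (1 : Matrix (Jz D) (Jz D) ℝ) := by
      ext i j
      unfold ew
      rw [mul_evT]
      unfold Torg.ev
      simp only [Matrix.of_apply]
      rw [Matrix.one_apply]
      by_cases hij : i = j
      · rw [if_pos hij, if_pos (by rw [hij])]
      · rw [if_neg hij, if_neg fun he => hij (hx he).symm]
    rw [this, Matrix.one_mulVec]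
    unfold dotProduct
    exact Finset.sum_congr rfl fun j _ => by ring
  obtain ⟨H, hH, hHG, hHS⟩ := hs_of_ent hGt hg hl
  refine ⟨H, hH, hHG.symm, hHS.trans ?_⟩
  have hij : ∀ i j, (G - B1 * B1ᵀ) i j ^ 2 ≤ e ^ 2 := by
    intro i j
    rw [Matrix.sub_apply, hB1, hG]
    unfold ew
    rw [ev_cov, ev_cov, hG2.eq (b2 + ip N2 i.1), hG1.eq (b + ip N1 i.1)]
    rw [show b2 + ip N2 j.1 - (b2 + ip N2 i.1) = ip N2 (j.1 - i.1) by
      rw [ip_sub]; abel, show b + ip N1 j.1 - (b + ip N1 i.1) = ip N1 (j.1 - i.1) by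
      rw [ip_sub]; abel]
    rw [← sq_abs]
    refine pow_le_pow_left₀ (abs_nonneg _) (hent _ ?_) 2
    rw [two_mul]
    exact sub_mem_zb j.2 i.2
  have h5 : ∑ i, ∑ j, (G - B1 * B1ᵀ) i j ^ 2 ≤ ∑ _i : Jz D, ∑ _j : Jz D, e ^ 2 :=
    Finset.sum_le_sum fun i _ => Finset.sum_le_sum fun j _ => hij i j
  simp only [Finset.sum_const, Finset.card_univ, nsmul_eq_mul] at h5
  rw [card_Jz] at h5
  refine (mul_le_mul_of_nonneg_left h5 (by positivity)).trans (le_of_eq ?_)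
  ring

end hs

end

end Vale.Agent.P159.H733.Vt
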