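import Vale.Agent.P159.H733.TorgD

/-!
P159 / TORG (helper733), part E: consequences of `torg` in the form of H552.hs_le, hs_ge, hs_l2;
entrywise comparison of `(A + β)⁻¹`, `β > 0`; functional calculus and `Per`.
-/

set_option linter.unusedSectionVars false

namespace Vale.Agent.P159.H733.Torg

open Finset Matrix MeasureTheory
open Vale.Agent.P159.TM.H764 (cN sN dt EE)
open Vale.Agent.P159.TM.Spec (V)
open Vale.Agent.P159.H864 (TI sym mlt fc hsq)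
open Vale.Agent.P159.H462 (Dom)
open Vale.Agent.P159.TM.H459 (sn)
open Vale.Agent.P159.H37 (gau qf)

noncomputable section

variable {N N2 : ℕ} [NeZero N] [NeZero N2]

section two

variable {h : N ∣ N2} {A : Matrix (V N) (V N) ℝ} {A2 : Matrix (V N2) (V N2) ℝ} {ν c κ C1 : ℝ}
  {J I1 I2 : Type*} [Fintype J] [Fintype I1] [Fintype I2]

/-- the window of integer points `z` around `b` -/
def win (b : V N) (z : J → ℤ × ℤ) : Matrix J (V N) ℝ := inc b (fun j => b + ip N (z j))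

/-- `torg` with arbitrary factors: the two window laws -/
structure Fac (z : J → ℤ × ℤ) (β : ℝ) (A : Matrix (V N) (V N) ℝ) (b : V N)
    (B : Matrix J I1 ℝ) : Prop where
  eq : B * Bᵀ = win b z * cov β A * (win b z)ᵀ

/-- any translation invariant `C` with symbol `(α + β)⁻¹` off the constant mode has the same
increments -/
lemma win_cov {C : Matrix (V N) (V N) ℝ} (hC : TI C) {β : ℝ}
    (hs : ∀ k, k ≠ 0 → sym C k = (sym A k + β)⁻¹) (b : V N) (z : J → ℤ × ℤ) :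
    win b z * C * (win b z)ᵀ = win b z * cov β A * (win b z)ᵀ := by
  ext i j
  unfold win
  rw [inc_TI hC, inc_TI (ti_cov β A), ← H864.mlt_sym hC]
  unfold cov
  rw [dk_mlt, dk_mlt]
  congr 1
  refine Finset.sum_congr rfl fun k _ => ?_
  by_cases hk : k = 0
  · rw [hk, pp_zero, mul_zero, mul_zero]
  · unfold phi
    rw [if_neg hk, hs k hk]

/-- **TORG, upper form** -/
theorem torg_le (hT : Two h A A2 ν c κ C1) {β : ℝ} (hβ : 0 ≤ β) {m D : ℕ} (hm : 1 ≤ m)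
    (hD : 1 ≤ D) (hDN : 8 * D ≤ N) {z : J → ℤ × ℤ}
    (hz : ∀ j, (z j).1.natAbs ≤ D ∧ (z j).2.natAbs ≤ D) {b : V N} {b2 : V N2}
    {B1 : Matrix J I1 ℝ} {B2 : Matrix J I2 ℝ} (h1 : Fac z β A b B1) (h2 : Fac z β A2 b2 B2)
    {η : ℝ} (hη : 0 < η) (hη2 : η ≤ 1 / 2) (he : eta ν c κ C1 β N m D ≤ η) {kp M : ℝ}
    (hkp : 1 ≤ kp) {f : (J → ℝ) → ℝ} (hf : Measurable f) (hf0 : ∀ g, 0 ≤ f g)
    (hfM : ∀ g, f g ≤ M) :
    ∫ g, f (B2 *ᵥ g) ∂(gau I2) ≤ kp * ∫ g, f (B1 *ᵥ g) ∂(gau I1) +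
      2 * M * kp ^ (-(1 / (2 * η))) := by
  obtain ⟨B, H, hH, hHS, e1, e2⟩ := torg hT hβ hm hD hDN z hz b b2
  have e1' : B1 * B1ᵀ = B * Bᵀ := h1.eq.trans e1
  have e2' : B2 * B2ᵀ = B * (1 + H) * Bᵀ := h2.eq.trans e2
  rw [H552.gau_int_eq e1' hf]
  refine H552.hs_le hH e2' hη hη2 hkp (hHS.trans ?_) hf hf0 hfM
  have h0 : 0 ≤ eta ν c κ C1 β N m D := by
    unfold eta etS
    have := hT.C1_nonneg
    have := hT.kp
    have := hT.dom.hc
    have := hT.dom.hν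
    have := tau_nonneg κ C1 N (2 * m + 1)
    positivity
  exact pow_le_pow_left₀ h0 he 2

/-- **TORG, lower form** -/
theorem torg_ge (hT : Two h A A2 ν c κ C1) {β : ℝ} (hβ : 0 ≤ β) {m D : ℕ} (hm : 1 ≤ m)
    (hD : 1 ≤ D) (hDN : 8 * D ≤ N) {z : J → ℤ × ℤ}
    (hz : ∀ j, (z j).1.natAbs ≤ D ∧ (z j).2.natAbs ≤ D) {b : V N} {b2 : V N2}
    {B1 : Matrix J I1 ℝ} {B2 : Matrix J I2 ℝ} (h1 : Fac z β A b B1) (h2 : Fac z β A2 b2 B2)
    {η : ℝ} (hη : 0 < η) (hη2 : η ≤ 1 / 4) (he : eta ν c κ C1 β N m D ≤ η) {kp M : ℝ}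
    (hkp : 1 ≤ kp) {f : (J → ℝ) → ℝ} (hf : Measurable f) (hf0 : ∀ g, 0 ≤ f g)
    (hfM : ∀ g, f g ≤ M) :
    ∫ g, f (B1 *ᵥ g) ∂(gau I1) ≤ kp * ∫ g, f (B2 *ᵥ g) ∂(gau I2) +
      2 * M * kp ^ (-(1 / (4 * η))) := by
  obtain ⟨B, H, hH, hHS, e1, e2⟩ := torg hT hβ hm hD hDN z hz b b2
  have e1' : B1 * B1ᵀ = B * Bᵀ := h1.eq.trans e1
  have e2' : B2 * B2ᵀ = B * (1 + H) * Bᵀ := h2.eq.trans e2
  rw [H552.gau_int_eq e1' hf]
  refine H552.hs_ge hH e2' hη hη2 hkp (hHS.trans ?_) hf hf0 hfM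
  have h0 : 0 ≤ eta ν c κ C1 β N m D := by
    unfold eta etS
    have := hT.C1_nonneg
    have := hT.kp
    have := hT.dom.hc
    have := hT.dom.hν
    have := tau_nonneg κ C1 N (2 * m + 1)
    positivity
  exact pow_le_pow_left₀ h0 he 2

/-- **TORG, `L²` form** -/
theorem torg_l2 (hT : Two h A A2 ν c κ C1) {β : ℝ} (hβ : 0 ≤ β) {m D : ℕ} (hm : 1 ≤ m)
    (hD : 1 ≤ D) (hDN : 8 * D ≤ N) {z : J → ℤ × ℤ}
    (hz : ∀ j, (z j).1.natAbs ≤ D ∧ (z j).2.natAbs ≤ D) {b : V N} {b2 : V N2}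
    {B1 : Matrix J I1 ℝ} {B2 : Matrix J I2 ℝ} (h1 : Fac z β A b B1) (h2 : Fac z β A2 b2 B2)
    {η : ℝ} (hη2 : η ≤ 1 / 2) (he : eta ν c κ C1 β N m D ≤ η)
    {f : (J → ℝ) → ℝ} (hf : Measurable f)
    (hf2 : Integrable (fun g => f (B1 *ᵥ g) ^ 2) (gau I1)) :
    Integrable (fun g => f (B2 *ᵥ g)) (gau I2) ∧
    (∫ g, f (B2 *ᵥ g) ∂(gau I2) - ∫ g, f (B1 *ᵥ g) ∂(gau I1)) ^ 2
      ≤ 4 * η ^ 2 * ∫ g, f (B1 *ᵥ g) ^ 2 ∂(gau I1) := by
  obtain ⟨B, H, hH, hHS, e1, e2⟩ := torg hT hβ hm hD hDN z hz b b2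
  have e1' : B1 * B1ᵀ = B * Bᵀ := h1.eq.trans e1
  have e2' : B2 * B2ᵀ = B * (1 + H) * Bᵀ := h2.eq.trans e2
  have h0 : 0 ≤ eta ν c κ C1 β N m D := by
    unfold eta etS
    have := hT.C1_nonneg
    have := hT.kp
    have := hT.dom.hc
    have := hT.dom.hν
    have := tau_nonneg κ C1 N (2 * m + 1)
    positivity
  have hfm : Measurable fun v => f v ^ 2 := hf.pow_const 2
  rw [H552.gau_int_eq e1' hf, H552.gau_int_eq e1' (f := fun v => f v ^ 2) hfm]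
  rw [H552.gau_integrable_iff e1' (f := fun v => f v ^ 2) hfm] at hf2
  exact H552.hs_l2 hH e2' (h0.trans he) hη2 (hHS.trans (pow_le_pow_left₀ h0 he 2)) hf hf2

end two

/-! ### the kernel of `(A + β)⁻¹`, `β > 0`, on the two tori -/

/-- `(A + β)⁻¹` -/
def gm (β : ℝ) (A : Matrix (V N) (V N) ℝ) : Matrix (V N) (V N) ℝ := fc (fun a => (a + β)⁻¹) A

lemma ti_gm (β : ℝ) (A : Matrix (V N) (V N) ℝ) : TI (gm β A) := H864.ti_fc _ _

lemma sym_gm (β : ℝ) (A : Matrix (V N) (V N) ℝ) (k : V N) : sym (gm β A) k = (sym A k + β)⁻¹ :=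
  H864.sym_fc _ _ _

lemma TI_abs_le {K : Matrix (V N) (V N) ℝ} (hK : TI K) {r : ℝ} (hr : ∀ k, |sym K k| ≤ r)
    (x y : V N) : |K x y| ≤ r := by
  rw [← H864.mlt_sym hK]
  unfold mlt
  simp only [Matrix.of_apply]
  have hN := H864.N_pos (N := N)
  have hr0 : 0 ≤ r := (abs_nonneg _).trans (hr 0)
  rw [abs_mul, abs_of_pos (inv_pos.2 hN)]
  have h1 : |∑ k, sym K k * cN (dt k (y - x))| ≤ ∑ _k : V N, r := by
    refine (Finset.abs_sum_le_sum_abs _ _).trans (Finset.sum_le_sum fun k _ => ?_)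
    rw [abs_mul]
    have h2 : |cN (dt k (y - x))| ≤ 1 :=
      abs_le.2 ⟨TM.H764.neg_one_le_cN _, TM.H764.cN_le_one _⟩
    calc |sym K k| * |cN (dt k (y - x))| ≤ r * 1 :=
          mul_le_mul (hr k) h2 (abs_nonneg _) hr0
      _ = r := mul_one r
  rw [Finset.sum_const, Finset.card_univ, nsmul_eq_mul, TM.H764.card_V] at h1
  have h2 := mul_le_mul_of_nonneg_left h1 (inv_nonneg.2 hN.le)
  have h3 : ((N : ℝ) ^ 2)⁻¹ * ((N : ℝ) ^ 2 * r) = r := inv_mul_cancel_left₀ hN.ne' r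
  linarith

lemma gm_sm {A : Matrix (V N) (V N) ℝ} {ν c β : ℝ} (h : Dom A ν c) (hβ : 0 < β) (T : ℕ)
    (x y : V N) : |gm β A x y - sm β ν A T x y| ≤ (ν / (ν + β)) ^ T / β := by
  have hν := h.hν
  have h1 : TI (gm β A - sm β ν A T) := (ti_gm β A).sub (ti_sm h.ti β ν T)
  refine TI_abs_le h1 (fun k => ?_) x y
  rw [H864.sym_sub, sym_gm, sym_sm h.ti]
  have hα := h.nn k
  have hs := h.s_nonneg k
  set r : ℝ := ν / (ν + β) * (1 - sym A k / ν) with hr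
  have hl0 : 0 ≤ ν / (ν + β) := by positivity
  have hr0 : 0 ≤ r := mul_nonneg hl0 hs
  have hr1 : r ≤ ν / (ν + β) := by
    rw [hr]
    refine mul_le_of_le_one_right hl0 ?_
    have : 0 ≤ sym A k / ν := by positivity
    linarith
  have h2 : 1 - r = (sym A k + β) / (ν + β) := by
    rw [hr]
    field_simp
    ring
  have h3 := mul_neg_geom_sum r T
  rw [h2] at h3
  have h5 : 0 < sym A k + β := by linarith
  have h6 : 0 < ν + β := by linarith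
  have h4 : (sym A k + β)⁻¹ - (ν + β)⁻¹ * ∑ m ∈ range T, r ^ m = r ^ T / (sym A k + β) := by
    have h7 : ∑ m ∈ range T, r ^ m = (1 - r ^ T) * ((ν + β) / (sym A k + β)) := by
      rw [← h3]
      field_simp
    rw [h7]
    field_simp
    ring
  rw [h4, abs_of_nonneg (by positivity)]
  exact div_le_div₀ (pow_nonneg hl0 T) (pow_le_pow_left₀ hr0 hr1 T) hβ (by linarith)

/-- entrywise comparison on windows -/
theorem Two.gm_diff {h : N ∣ N2} {A : Matrix (V N) (V N) ℝ} {A2 : Matrix (V N2) (V N2) ℝ}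
    {ν c κ C1 : ℝ} (hT : Two h A A2 ν c κ C1) {β : ℝ} (hβ : 0 < β) {T : ℕ} (hT1 : 1 ≤ T)
    (x : V N) (x2 : V N2) {ζ : ℤ × ℤ} (h1 : 2 * ζ.1.natAbs ≤ N) (h2 : 2 * ζ.2.natAbs ≤ N) :
    |gm β A x (x + ip N ζ) - gm β A2 x2 (x2 + ip N2 ζ)| ≤
      2 * ((ν / (ν + β)) ^ T / β) + T * tau κ C1 N T / (ν + β) := by
  rw [(ti_gm β A).eq x, (ti_gm β A2).eq x2, add_sub_cancel_left, add_sub_cancel_left]
  have g1 := abs_le.1 (gm_sm hT.dom hβ T 0 (ip N ζ))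
  have g2 := abs_le.1 (gm_sm hT.dom2 hβ T 0 (ip N2 ζ))
  have g3 := hT.sm_diff hβ.le hT1 h1 h2
  rw [abs_le]
  constructor <;> linarith [g1.1, g1.2, g2.1, g2.2, g3.1, g3.2]

/-! ### functional calculus commutes with the periodization -/

/-- modes of the small torus inside the large one -/
def em (N2 : ℕ) {N : ℕ} (k : V N) : V N2 := ip N2 ((N2 / N : ℕ) * k.1.val, (N2 / N : ℕ) * k.2.val)

lemma cs_em (h : N ∣ N2) (a b : ℤ) :
    cN ((((N2 / N : ℕ) * a : ℤ) : ZMod N2) * (b : ZMod N2)) = cN ((a : ZMod N) * (b : ZMod N)) ∧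
    sN ((((N2 / N : ℕ) * a : ℤ) : ZMod N2) * (b : ZMod N2)) = sN ((a : ZMod N) * (b : ZMod N)) := by
  obtain ⟨q, rfl⟩ := h
  have hN : 0 < N := NeZero.pos N
  have hq : 0 < q := Nat.pos_of_ne_zero fun h0 => by
    have := NeZero.ne (N * q)
    rw [h0, mul_zero] at this
    exact this rfl
  have e1 : N * q / N = q := Nat.mul_div_cancel_left q hN
  have hN' : (N : ℝ) ≠ 0 := by positivity
  have hq' : (q : ℝ) ≠ 0 := by positivity
  rw [e1, ← Int.cast_mul, ← Int.cast_mul, TM.H764.cN_int, TM.H764.sN_int, TM.H764.cN_int,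
    TM.H764.sN_int]
  have e2 : 2 * Real.pi * ((((q : ℕ) * a : ℤ) * b : ℤ) : ℝ) / ((N * q : ℕ) : ℝ) =
      2 * Real.pi * ((a * b : ℤ) : ℝ) / (N : ℝ) := by
    push_cast
    field_simp
  rw [e2]
  exact ⟨rfl, rfl⟩

lemma dt_em (h : N ∣ N2) (k : V N) (x : V N2) :
    cN (dt (em N2 k) x) = cN (dt k (prj h x)) ∧ sN (dt (em N2 k) x) = sN (dt k (prj h x)) := by
  have hx1 : x.1 = ((x.1.valMinAbs : ℤ) : ZMod N2) := (ZMod.coe_valMinAbs _).symm
  have hx2 : x.2 = ((x.2.valMinAbs : ℤ) : ZMod N2) := (ZMod.coe_valMinAbs _).symm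
  have p1 : (prj h x).1 = ((x.1.valMinAbs : ℤ) : ZMod N) := by
    rw [prj_apply]
    simp only
    conv_lhs => rw [hx1]
    exact map_intCast (ZMod.castHom h (ZMod N)) _
  have p2 : (prj h x).2 = ((x.2.valMinAbs : ℤ) : ZMod N) := by
    rw [prj_apply]
    simp only
    conv_lhs => rw [hx2]
    exact map_intCast (ZMod.castHom h (ZMod N)) _
  have k1 : k.1 = (((k.1.val : ℕ) : ℤ) : ZMod N) := by simp
  have k2 : k.2 = (((k.2.val : ℕ) : ℤ) : ZMod N) := by simp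
  have c1 := cs_em h ((k.1.val : ℕ) : ℤ) x.1.valMinAbs
  have c2 := cs_em h ((k.2.val : ℕ) : ℤ) x.2.valMinAbs
  rw [← hx1, ← p1, ← k1] at c1
  rw [← hx2, ← p2, ← k2] at c2
  unfold dt em ip
  simp only
  rw [TM.H764.cN_add, TM.H764.sN_add, TM.H764.cN_add, TM.H764.sN_add]
  rw [c1.1, c1.2, c2.1, c2.2]
  exact ⟨rfl, rfl⟩

lemma Per.sym {h : N ∣ N2} {A : Matrix (V N) (V N) ℝ} {A2 : Matrix (V N2) (V N2) ℝ}
    (hP : Per h A A2) (k : V N) : sym A2 (em N2 k) = sym A k := by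
  rw [H864.sym_def, H864.sym_def, ← hP.sum]
  exact Finset.sum_congr rfl fun z _ => by rw [(dt_em h k z).1]

/-- the converse: `Per` from the symbols -/
lemma Per.of_sym {h : N ∣ N2} {A : Matrix (V N) (V N) ℝ} {A2 : Matrix (V N2) (V N2) ℝ}
    (hA : TI A) (hA2 : TI A2) (hs : ∀ k : V N, H864.sym A2 (em N2 k) = H864.sym A k) :
    Per h A A2 := by
  -- the periodization `K` of `A2`
  set K : V N → ℝ := fun z => ∑ z2 ∈ univ.filter (fun z2 : V N2 => prj h z2 = z), A2 0 z2 with hK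
  have hKe : ∀ z, K (-z) = K z := by
    intro z
    rw [hK]
    simp only
    rw [Finset.sum_filter, Finset.sum_filter, ← Equiv.sum_comp (Equiv.neg (V N2))]
    refine Finset.sum_congr rfl fun x _ => ?_
    simp only [Equiv.neg_apply, map_neg, neg_inj]
    rw [hA2.ev]
  have hKt : TI (Matrix.of fun x y => K (y - x) : Matrix (V N) (V N) ℝ) := TI.of_ker hKe
  have h0 : ∀ z, (Matrix.of fun x y => K (y - x) : Matrix (V N) (V N) ℝ) 0 z = K z := by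
    intro z
    simp only [Matrix.of_apply, sub_zero]
  have hP : Per h (Matrix.of fun x y => K (y - x) : Matrix (V N) (V N) ℝ) A2 :=
    Per.of_ker hKt hA2 fun z => by rw [h0]
  have e : (Matrix.of fun x y => K (y - x) : Matrix (V N) (V N) ℝ) = A :=
    H864.sym_inj hKt hA fun k => by rw [← hP.sym k, hs]
  rwa [e] at hP

lemma Per.fc {h : N ∣ N2} {A : Matrix (V N) (V N) ℝ} {A2 : Matrix (V N2) (V N2) ℝ}
    (hP : Per h A A2) (f : ℝ → ℝ) : Per h (H864.fc f A) (H864.fc f A2) := by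
  refine Per.of_sym (H864.ti_fc _ _) (H864.ti_fc _ _) fun k => ?_
  rw [H864.sym_fc, H864.sym_fc, hP.sym]

/-! ### stability of the symbol under small kernel changes -/

/-- kernels with zero sum: `|α(k) - α'(k)| ≤ ½ EE k ∑ |A - A'| sn²` ... -/
lemma sym_stab {A A' : Matrix (V N) (V N) ℝ} (h0 : sym A 0 = 0) (h0' : sym A' 0 = 0) (k : V N) :
    |sym A k - sym A' k| ≤ (∑ z, |A 0 z - A' 0 z| * (sn z : ℝ) ^ 2) * EE k := by
  have e1 : sym A k - sym A' k = -∑ z, (A 0 z - A' 0 z) * (1 - cN (dt k z)) := by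
    have h1 := h0
    have h2 := h0'
    rw [H864.sym_def] at h1 h2
    simp only [H864.dt_zero_left, TM.H764.cN_zero, mul_one] at h1 h2
    rw [H864.sym_def, H864.sym_def]
    simp_rw [sub_mul, mul_sub, mul_one]
    rw [Finset.sum_sub_distrib, Finset.sum_sub_distrib, Finset.sum_sub_distrib, h1, h2]
    ring
  rw [e1, abs_neg]
  refine (Finset.abs_sum_le_sum_abs _ _).trans ?_
  rw [Finset.sum_mul]
  refine Finset.sum_le_sum fun z _ => ?_
  have h1 := one_sub_cN k z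
  have h2 : 0 ≤ 1 - cN (dt k z) := by
    have := TM.H764.cN_le_one (dt k z)
    linarith
  rw [abs_mul, abs_of_nonneg h2, mul_assoc]
  exact mul_le_mul_of_nonneg_left (by linarith) (abs_nonneg _)

end

end Vale.Agent.P159.H733.Torg
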