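import Vale.Agent.P159.H733.Vt1

/-!
P159 / VTOR instance (helper733), part 2: the typical law on another torus, and one window for the
same local functional on two tori.
-/

set_option linter.unusedSectionVars false

namespace Vale.Agent.P159.H733.Vt

open MeasureTheory ProbabilityTheory Finset Matrix
open Vale.Agent.P159.TM.Spec (V)
open Vale.Agent.P159.H37 (gau qf)
open Vale.Agent.P159.H363
open Vale.Agent.P159.H864 (TI sym fc mlt)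
open Vale.Agent.P159.H462 (Dom ahat Gam ti_ahat ti_Gam sym_ahat)
open Vale.Agent.P159.H889
open Vale.Agent.P159.H733.Torg (ip ip_sub ip_neg ip_zero Cv)
open scoped Real

noncomputable section

variable {N N1 N2 : ℕ} [NeZero N] [NeZero N1] [NeZero N2]

/-! ### the typical law on the other torus -/

/-- `pin A` has the symbol `1 / sqrt (sym A)` -/
lemma cv_pin {A : Matrix (V N) (V N) ℝ} (hA : TI A) (h0 : ∀ k, 0 ≤ sym A k) :
    Cv 0 A (pin A * (pin A)ᵀ) := by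
  rw [pin_mul hA h0]
  refine ⟨H864.ti_fc _ _, fun k _ => ?_⟩
  rw [H864.sym_fc, add_zero]

lemma sym_pin_zero {A : Matrix (V N) (V N) ℝ} (hA : TI A) (h0 : ∀ k, 0 ≤ sym A k) :
    0 ≤ sym (pin A * (pin A)ᵀ) 0 := by
  rw [pin_mul hA h0, H864.sym_fc]
  exact inv_nonneg.2 (h0 0)

lemma norm_rz_iw {I : Type*} [Fintype I] {g : (V N1 → ℝ) → ℂ} (hch : Ch g) (D : ℕ) (b1 : V N1)
    (b2 : V N2) (C : Matrix (V N2) I ℝ) (a : I → ℝ) :
    ‖g (rz D b1 ((iw D b2 * C) *ᵥ a))‖ = ‖g (trp D b1 b2 (C *ᵥ a))‖ := by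
  rw [← Matrix.mulVec_mulVec, trp_iw]
  exact hch.norm_add _ _

lemma rz_ew {I : Type*} [Fintype I] (D : ℕ) (b1 : V N1) (b2 : V N2) (C : Matrix (V N2) I ℝ)
    (a : I → ℝ) : rz D b1 ((ew D b2 * C) *ᵥ a) = trp D b1 b2 (C *ᵥ a) := by
  rw [← Matrix.mulVec_mulVec, ← trp_ew]

lemma memLp_trp {I : Type*} [Fintype I] {g : (V N1 → ℝ) → ℂ} (hg : Measurable g) {B : ℝ}
    (hB : ∀ F, ‖g F‖ ≤ B) (D : ℕ) (b1 : V N1) (b2 : V N2) (C : Matrix (V N2) I ℝ) :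
    MemLp (fun a : I → ℝ => g (trp D b1 b2 (C *ᵥ a))) 2 (gau I) :=
  memLp_bdd ((hg.comp (measurable_trp D b1 b2)).comp
    (measurable_mulVec C)).aestronglyMeasurable fun _ => hB _

/-- **(VT1), any factors**: a charge one functional of the field transported from the torus `N2`,
under the law of `C2`, against the same functional under the law of `C1` on the torus `N1` -/
theorem n2_trp {I1 I2 : Type*} [Fintype I1] [DecidableEq I1] [Fintype I2]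
    {A : Matrix (V N1) (V N1) ℝ} {β ν c e : ℝ} {C1 : Matrix (V N1) I1 ℝ} {C2 : Matrix (V N2) I2 ℝ}
    (hK : Cv β A (C1 * C1ᵀ)) (h : Dom A ν c) (hβ : 0 ≤ β) (hK0 : 0 ≤ sym (C1 * C1ᵀ) 0)
    (hK2 : TI (C2 * C2ᵀ)) {D : ℕ} (hDN : 2 * D < N1)
    (hent : ∀ ζ ∈ zb (2 * D), |((C2 * C2ᵀ) 0 (ip N2 ζ) - (C2 * C2ᵀ) 0 0)
      - ((C1 * C1ᵀ) 0 (ip N1 ζ) - (C1 * C1ᵀ) 0 0)| ≤ e)
    {η κ B : ℝ} (hη : 0 < η) (hη2 : η ≤ 1 / 2) (hκ : 1 ≤ κ)
    (he : 3 * (ν + β) * (2 * D + 1) ^ 2 * e ≤ η) {g : (V N1 → ℝ) → ℂ} (hg : Measurable g)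
    (hch : Ch g) (hB : ∀ F, ‖g F‖ ≤ B) (b1 : V N1) (b2 : V N2) :
    n2 (gau I2) (fun a => g (trp D b1 b2 (C2 *ᵥ a)))
      ≤ √κ * n2 (gau I1) (fun a => g (cutx D b1 (C1 *ᵥ a))) + B * tk κ η := by
  have hν := h.hν
  have hB0 : 0 ≤ B := (norm_nonneg _).trans (hB 0)
  have hκ0 : 0 ≤ κ := by linarith
  have he0 : 0 ≤ e := (abs_nonneg _).trans (hent 0 (zero_mem_zb _))
  obtain ⟨H, hH, hHG, hHS⟩ := incr_of_ent (B1 := iw D b1 * C1) hK h hβ hK0 hK2 hDN hent b1 b2 (by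
    rw [Matrix.transpose_mul]
    simp only [Matrix.mul_assoc])
  have hcov : (iw D b2 * C2) * (iw D b2 * C2)ᵀ = (iw D b1 * C1) * (1 + H) * (iw D b1 * C1)ᵀ := by
    rw [← hHG, Matrix.transpose_mul]
    simp only [Matrix.mul_assoc]
  have hHS' : ∑ x, ∑ y, H x y ^ 2 ≤ η ^ 2 :=
    hHS.trans (pow_le_pow_left₀ (by positivity) he 2)
  have h1 := H552.hs_le hH hcov hη hη2 hκ hHS' (f := fun φ => ‖g (rz D b1 φ)‖ ^ 2)
    ((hg.comp (measurable_rz D b1)).norm.pow_const 2) (fun φ => by positivity) (B := B ^ 2)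
    fun φ => pow_le_pow_left₀ (norm_nonneg _) (hB _) 2
  simp only [norm_rz_iw hch] at h1
  rw [← n2_sq (memLp_trp hg hB D b1 b2 C2), ← n2_sq (memLp_trp hg hB D b1 b1 C1)] at h1
  have e2 : n2 (gau I1) (fun a => g (trp D b1 b1 (C1 *ᵥ a)))
      = n2 (gau I1) (fun a => g (cutx D b1 (C1 *ᵥ a))) :=
    n2_congr fun a => by rw [trp_self]
  rw [e2] at h1
  set X := n2 (gau I1) (fun a => g (cutx D b1 (C1 *ᵥ a))) with hX
  have hX0 : 0 ≤ X := n2_nonneg _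
  have hp : 0 ≤ κ ^ (-(1 / (2 * η))) := Real.rpow_nonneg hκ0 _
  have h0 : 0 ≤ √κ * X + B * tk κ η :=
    add_nonneg (mul_nonneg (Real.sqrt_nonneg _) hX0) (mul_nonneg hB0 (tk_nonneg _ _))
  refine le_of_sq_le_sq (h1.trans ?_) h0
  have q1 : (√κ * X) ^ 2 = κ * X ^ 2 := by rw [mul_pow, Real.sq_sqrt hκ0]
  have q2 : (B * tk κ η) ^ 2 = 2 * B ^ 2 * κ ^ (-(1 / (2 * η))) := by
    unfold tk
    rw [mul_pow, mul_pow, Real.sq_sqrt (by norm_num : (0 : ℝ) ≤ 2), Real.sq_sqrt hp]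
    ring
  have q3 : 0 ≤ (√κ * X) * (B * tk κ η) :=
    mul_nonneg (mul_nonneg (Real.sqrt_nonneg _) hX0) (mul_nonneg hB0 (tk_nonneg _ _))
  nlinarith

/-- **(VT1)** in the letters of the states -/
theorem tn2_lft {A1 : Matrix (V N1) (V N1) ℝ} {A2 : Matrix (V N2) (V N2) ℝ} {ν c ν2 c2 e : ℝ}
    (h1 : Dom A1 ν c) (h2 : Dom A2 ν2 c2) {D : ℕ} (hDN : 2 * D < N1)
    (hent : ∀ ζ ∈ zb (2 * D), |((pin A2 * (pin A2)ᵀ) 0 (ip N2 ζ) - (pin A2 * (pin A2)ᵀ) 0 0)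
      - ((pin A1 * (pin A1)ᵀ) 0 (ip N1 ζ) - (pin A1 * (pin A1)ᵀ) 0 0)| ≤ e)
    {η κ B : ℝ} (hη : 0 < η) (hη2 : η ≤ 1 / 2) (hκ : 1 ≤ κ)
    (he : 3 * ν * (2 * D + 1) ^ 2 * e ≤ η) {G : V N1 → (V N1 → ℝ) → ℂ}
    (hg : ∀ x, Measurable (G x)) (hch : ∀ x, Ch (G x)) (hB : ∀ x F, ‖G x F‖ ≤ B) (x : V N2) :
    tn2 A2 (lft D G x) ≤ √κ * tn2 A1 (fun F => G 0 (cutx D 0 F)) + B * tk κ η := by
  unfold tn2 lft
  exact n2_trp (β := 0) (cv_pin h1.ti h1.nn) h1 le_rfl (sym_pin_zero h1.ti h1.nn)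
    (cv_pin h2.ti h2.nn).ti hDN hent hη hη2 hκ (by rwa [add_zero]) (hg 0) (hch 0) (hB 0) 0 x

/-! ### smoothing of window fields -/

/-- a row stochastic kernel on a transported field -/
lemma mul_trp {M : Matrix (V N1) (V N1) ℝ} (hM : TI M) (h1 : ∀ x, ∑ y, M x y = 1) {D : ℕ}
    (hD : 2 * D < N1) (b1 : V N1) (b2 : V N2) (F : V N2 → ℝ) (ω : ℤ × ℤ) :
    (M *ᵥ trp D b1 b2 F) (b1 + ip N1 ω)
      = F b2 + ∑ ζ ∈ zb D, M 0 (ip N1 (ζ - ω)) * (F (b2 + ip N2 ζ) - F b2) := by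
  have e1 : (M *ᵥ trp D b1 b2 F) (b1 + ip N1 ω)
      = F b2 * ∑ v, M (b1 + ip N1 ω) v
        + ∑ v, M (b1 + ip N1 ω) v * (trp D b1 b2 F v - F b2) := by
    simp only [mulVec, dotProduct]
    rw [Finset.mul_sum, ← Finset.sum_add_distrib]
    exact Finset.sum_congr rfl fun v _ => by ring
  rw [e1, h1, mul_one, ← Finset.sum_add_sum_compl (H462.box b1 D)]
  have hz : ∑ v ∈ (H462.box b1 D)ᶜ, M (b1 + ip N1 ω) v * (trp D b1 b2 F v - F b2) = 0 := by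
    refine Finset.sum_eq_zero fun v hv => ?_
    unfold trp
    rw [zz_of_not (Finset.mem_compl.1 hv), ip_zero, add_zero, sub_self, mul_zero]
  rw [hz, add_zero, sum_box hD b1]
  congr 1
  refine Finset.sum_congr rfl fun ζ hζ => ?_
  unfold trp
  rw [zz_ip hD hζ, hM.eq (b1 + ip N1 ω), ip_sub]
  congr 2
  abel

/-- oscillation of the window field -/
def osc (D : ℕ) (x : V N2) (F : V N2 → ℝ) : ℝ := ∑ ζ ∈ zb D, |F (x + ip N2 ζ) - F x|

lemma osc_nonneg (D : ℕ) (x : V N2) (F : V N2 → ℝ) : 0 ≤ osc D x F :=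
  Finset.sum_nonneg fun _ _ => abs_nonneg _

/-- smoothed window fields on two tori -/
lemma mul_trp_diff {M1 : Matrix (V N1) (V N1) ℝ} {M2 : Matrix (V N2) (V N2) ℝ} (t1 : TI M1)
    (t2 : TI M2) (r1 : ∀ x, ∑ y, M1 x y = 1) (r2 : ∀ x, ∑ y, M2 x y = 1) {D : ℕ}
    (hD1 : 2 * D < N1) (hD2 : 2 * D < N2) {e : ℝ}
    (he : ∀ ζ ∈ zb (2 * D), |M2 0 (ip N2 ζ) - M1 0 (ip N1 ζ)| ≤ e) (b1 : V N1) (x : V N2)
    (F : V N2 → ℝ) {ω : ℤ × ℤ} (hω : ω ∈ zb D) :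
    |(M2 *ᵥ cutx D x F) (x + ip N2 ω) - (M1 *ᵥ trp D b1 x F) (b1 + ip N1 ω)| ≤ e * osc D x F := by
  rw [← trp_self, mul_trp t2 r2 hD2, mul_trp t1 r1 hD1, add_sub_add_left_eq_sub,
    ← Finset.sum_sub_distrib]
  refine (Finset.abs_sum_le_sum_abs _ _).trans ?_
  unfold osc
  rw [Finset.mul_sum]
  refine Finset.sum_le_sum fun ζ hζ => ?_
  rw [← sub_mul, abs_mul]
  refine mul_le_mul_of_nonneg_right (he _ ?_) (abs_nonneg _)
  rw [two_mul]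
  exact sub_mem_zb hζ hω

/-! ### one window for the same functional on two tori -/

lemma sum_box_ker {M : Matrix (V N) (V N) ℝ} (hM : TI M) {R : ℕ} (hR : 2 * R < N) (x : V N)
    (g : V N → ℂ) : ∑ y ∈ H462.box x R, (M y x : ℂ) * g y
      = ∑ ζ ∈ zb R, (M 0 (ip N ζ) : ℂ) * g (x + ip N ζ) := by
  rw [sum_box hR x]
  refine Finset.sum_congr rfl fun ζ _ => ?_
  rw [hM.sy, hM.eq x, add_sub_cancel_left]

lemma sum_ker_le {M : Matrix (V N) (V N) ℝ} (h0 : ∀ x y, 0 ≤ M x y) (h1 : ∀ x, ∑ y, M x y = 1)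
    {R : ℕ} (hR : 2 * R < N) : ∑ ζ ∈ zb R, M 0 (ip N ζ) ≤ 1 := by
  have h := sum_box hR (0 : V N) (fun v => M 0 v)
  simp only [zero_add] at h
  rw [← h, ← h1 0]
  exact Finset.sum_le_sum_of_subset_of_nonneg (Finset.subset_univ _) fun y _ _ => h0 0 y

/-- lower bound of `Γ` -/
lemma gam_low {A : Matrix (V N) (V N) ℝ} {ν c s : ℝ} (h : Dom A ν c) (hs : 0 < s)
    (U : V N → ℝ) : s / (1 + s * ν) * ∑ x, U x ^ 2 ≤ qf (Gam s A) U := by
  have h3 := (H864.qf_le_iff (TI.one.smul (s / (1 + s * ν))) (ti_Gam s A)).2 (fun k => by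
    rw [H864.sym_smul, H864.sym_one, mul_one, H462.sym_Gam, div_eq_mul_inv]
    have h0 := h.nn k
    have h1 := h.le k
    refine mul_le_mul_of_nonneg_left ?_ hs.le
    refine inv_anti₀ (by positivity) ?_
    have := mul_le_mul_of_nonneg_left h1 hs.le
    linarith) U
  refine le_trans (le_of_eq ?_) h3
  rw [H37.qf_eq, smul_mulVec, one_mulVec, dotProduct_smul, smul_eq_mul]
  congr 1
  exact Finset.sum_congr rfl fun i _ => pow_two _

/-- `Γ = s ahat` -/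
lemma gam_eq (s : ℝ) (A : Matrix (V N) (V N) ℝ) (x y : V N) :
    Gam s A x y = s * ahat s A x y := by
  have : Gam s A = s • ahat s A := by
    refine H864.sym_inj (ti_Gam s A) ((ti_ahat s A).smul _) fun k => ?_
    rw [H864.sym_smul, H462.sym_Gam, sym_ahat]
  rw [this, Matrix.smul_apply, smul_eq_mul]

section window

variable {A1 : Matrix (V N1) (V N1) ℝ} {A2 : Matrix (V N2) (V N2) ℝ} {ν c1 c2 s : ℝ}

/-- the noise of one window on two tori -/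
lemma noise_two (h1 : Dom A1 ν c1) (h2 : Dom A2 ν c2) (hs : 0 < s) {D : ℕ} (hD : 2 * D < N1)
    {e η : ℝ} (he : ∀ ζ ∈ zb (2 * D), |ahat s A2 0 (ip N2 ζ) - ahat s A1 0 (ip N1 ζ)| ≤ e)
    (hη2 : η ≤ 1 / 2) (hηe : (1 + s * ν) * (2 * D + 1) ^ 2 * e ≤ η)
    {g : (V N1 → ℝ) → ℂ} (hg : Measurable g) {K : ℝ} (hK : ∀ F, ‖g F‖ ≤ K) (f0 : V N1 → ℝ)
    (b b1 : V N1) (b2 : V N2) :
    ‖(∫ a, g (f0 + trp D b b2 (gm s A2 *ᵥ a)) ∂(gau (V N2)))
      - ∫ a, g (f0 + trp D b b1 (gm s A1 *ᵥ a)) ∂(gau (V N1))‖ ≤ 4 * η * K := by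
  have hν := h1.hν
  have he0 : 0 ≤ e := (abs_nonneg _).trans (he 0 (zero_mem_zb _))
  have hη0 : 0 ≤ η := le_trans (by positivity) hηe
  obtain ⟨H, hH, hHG, hHS⟩ := full_of_ent (B1 := ew D b1 * gm s A1) (g := s / (1 + s * ν))
    (e := s * e) (by positivity) (ti_Gam s A1) (ti_Gam s A2) (gam_low h1 hs) hD (fun ζ hζ => by
      rw [gam_eq, gam_eq, ← mul_sub, abs_mul, abs_of_pos hs]
      exact mul_le_mul_of_nonneg_left (he ζ hζ) hs.le) b1 b2 (by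
      rw [Matrix.transpose_mul, ← gm_mul h1 hs]
      simp only [Matrix.mul_assoc])
  have hcov : (ew D b2 * gm s A2) * (ew D b2 * gm s A2)ᵀ
      = (ew D b1 * gm s A1) * (1 + H) * (ew D b1 * gm s A1)ᵀ := by
    rw [← hHG, Matrix.transpose_mul, ← gm_mul h2 hs]
    simp only [Matrix.mul_assoc]
  have hHS' : ∑ x, ∑ y, H x y ^ 2 ≤ η ^ 2 := by
    refine hHS.trans (pow_le_pow_left₀ (by positivity) (le_trans (le_of_eq ?_) hηe) 2)
    field_simp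
  have h := H358.hs_cplx hH hcov hη0 hη2 hHS' (f := fun φ => g (f0 + rz D b φ))
    (hg.comp ((measurable_rz D b).const_add f0)) fun φ => hK _
  simp only [rz_ew] at h
  exact h

/-- **(VT2), pointwise**: the window of the functional on the torus `N2` is the functional of the
window on the torus `N1` -/
theorem lamw_lft_le (h1 : Dom A1 ν c1) (h2 : Dom A2 ν c2) (hs : 0 < s)
    (o1 : ∀ x y, x ≠ y → A1 x y ≤ 0) {R0 D0 D1 : ℕ}
    (hD : R0 + D0 ≤ D1) (hN1 : 2 * D1 < N1) (hN2 : 2 * D1 < N2) {e η K Lp : ℝ}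
    (he : ∀ ζ ∈ zb (2 * D1), |ahat s A2 0 (ip N2 ζ) - ahat s A1 0 (ip N1 ζ)| ≤ e)
    (hη2 : η ≤ 1 / 2) (hηe : (1 + s * ν) * (2 * D0 + 1) ^ 2 * e ≤ η)
    {mu : V N1 → (V N1 → ℝ) → ℂ} (hm : ∀ x, Measurable (mu x)) (hK : ∀ x F, ‖mu x F‖ ≤ K)
    (hc : Cov mu) (hLp : 0 ≤ Lp) (hl : ∀ (x : V N1) (F F' : V N1 → ℝ) (r : ℝ),
      (∀ y ∈ H462.box x D0, |F y - F' y| ≤ r) → ‖mu x F - mu x F'‖ ≤ Lp * r)
    (x : V N2) (f : V N2 → ℝ) :
    ‖lamw s A2 R0 D1 (lft D0 mu) x f - lft D1 (lamw s A1 R0 D1 mu) x f‖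
      ≤ K * ((2 * R0 + 1) ^ 2 * e) + 4 * η * K + Lp * (e * osc D1 x f) := by
  have hK0 : 0 ≤ K := (norm_nonneg _).trans (hK 0 0)
  have he0 : 0 ≤ e := (abs_nonneg _).trans (he 0 (zero_mem_zb _))
  have hν := h1.hν
  have hη0 : 0 ≤ η := le_trans (by positivity) hηe
  have n1 : ∀ x y, 0 ≤ ahat s A1 x y := ahat_nonneg h1 hs o1
  have r1 : ∀ x, ∑ y, ahat s A1 x y = 1 := ahat_row A1 h1.zero
  have r2 : ∀ x, ∑ y, ahat s A2 x y = 1 := ahat_row A2 h2.zero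
  have t1 := ti_ahat s A1
  have t2 := ti_ahat s A2
  set P2 : ℤ × ℤ → ℂ := fun ζ =>
    Pg (ahat s A2) (gm s A2) (lft D0 mu (x + ip N2 ζ)) (cutx D1 x f) with hP2
  set P1 : ℤ × ℤ → ℂ := fun ζ =>
    Pg (ahat s A1) (gm s A1) (mu (0 + ip N1 ζ)) (trp D1 0 x f) with hP1
  have e2 : lamw s A2 R0 D1 (lft D0 mu) x f = ∑ ζ ∈ zb R0, (ahat s A2 0 (ip N2 ζ) : ℂ) * P2 ζ := by
    unfold lamw
    exact sum_box_ker t2 (by omega) x fun y =>
      Pg (ahat s A2) (gm s A2) (lft D0 mu y) (cutx D1 x f)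
  have e1 : lft D1 (lamw s A1 R0 D1 mu) x f = ∑ ζ ∈ zb R0, (ahat s A1 0 (ip N1 ζ) : ℂ) * P1 ζ := by
    unfold lft lamw
    rw [cutx_trp]
    exact sum_box_ker t1 (by omega) 0 fun y => Pg (ahat s A1) (gm s A1) (mu y) (trp D1 0 x f)
  have b2 : ∀ ζ, ‖P2 ζ‖ ≤ K := fun ζ => norm_Pg_le (norm_lft hK _) _
  -- one cell
  have cell : ∀ ζ ∈ zb R0, ‖P2 ζ - P1 ζ‖ ≤ 4 * η * K + Lp * (e * osc D1 x f) := by
    intro ζ hζ
    set y2 : V N2 := x + ip N2 ζ with hy2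
    set y1 : V N1 := 0 + ip N1 ζ with hy1
    set f2 : V N2 → ℝ := ahat s A2 *ᵥ cutx D1 x f with hf2
    set f1 : V N1 → ℝ := ahat s A1 *ᵥ trp D1 0 x f with hf1
    set Q : ℂ := ∫ a, mu y1 (trp D0 y1 y2 f2 + trp D0 y1 y1 (gm s A1 *ᵥ a)) ∂(gau (V N1)) with hQ
    have s1 : ‖P2 ζ - Q‖ ≤ 4 * η * K := by
      have h := noise_two h1 h2 hs (D := D0) (by omega) (e := e) (η := η)
        (fun ζ' hζ' => he ζ' (zb_mono (by omega) hζ')) hη2 hηe (hm y1) (hK y1)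
        (trp D0 y1 y2 f2) y1 y1 y2
      have e3 : P2 ζ = ∫ a, mu y1 (trp D0 y1 y2 f2 + trp D0 y1 y2 (gm s A2 *ᵥ a))
          ∂(gau (V N2)) := by
        rw [hP2]
        unfold Pg
        refine integral_congr_ae (Filter.Eventually.of_forall fun a => ?_)
        simp only
        rw [← lft_base hc y1]
        rfl
      rw [e3]
      exact h
    have s2 : ‖Q - P1 ζ‖ ≤ Lp * (e * osc D1 x f) := by
      have m1 : Measurable fun a : V N1 → ℝ =>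
          mu y1 (trp D0 y1 y2 f2 + trp D0 y1 y1 (gm s A1 *ᵥ a)) :=
        (hm y1).comp (((measurable_trp D0 y1 y1).comp (measurable_mulVec _)).const_add _)
      have m2 : Measurable fun a : V N1 → ℝ => mu y1 (f1 + gm s A1 *ᵥ a) :=
        (hm y1).comp ((measurable_mulVec _).const_add _)
      have i1 : Integrable (fun a : V N1 → ℝ =>
          mu y1 (trp D0 y1 y2 f2 + trp D0 y1 y1 (gm s A1 *ᵥ a))) (gau (V N1)) :=
        Integrable.of_bound (C := K) m1.aestronglyMeasurable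
          (Filter.Eventually.of_forall fun a => hK _ _)
      have i2 : Integrable (fun a : V N1 → ℝ => mu y1 (f1 + gm s A1 *ᵥ a)) (gau (V N1)) :=
        Integrable.of_bound (C := K) m2.aestronglyMeasurable
          (Filter.Eventually.of_forall fun a => hK _ _)
      have e3 : P1 ζ = ∫ a, mu y1 (f1 + gm s A1 *ᵥ a) ∂(gau (V N1)) := rfl
      rw [hQ, e3, ← integral_sub i1 i2]
      refine (norm_integral_le_of_norm_le_const (C := Lp * (e * osc D1 x f))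
        (Filter.Eventually.of_forall fun a => ?_)).trans (by simp)
      refine hl y1 _ _ _ fun v hv => ?_
      have hz : v = y1 + ip N1 (zz D0 y1 v) := (add_ip_zz hv).symm
      have hzm := zz_mem D0 y1 v
      have e4 : (trp D0 y1 y2 f2 + trp D0 y1 y1 (gm s A1 *ᵥ a)) v - (f1 + gm s A1 *ᵥ a) v
          = (ahat s A2 *ᵥ cutx D1 x f) (x + ip N2 (ζ + zz D0 y1 v))
            - (ahat s A1 *ᵥ trp D1 0 x f) (0 + ip N1 (ζ + zz D0 y1 v)) := by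
        rw [Pi.add_apply, Pi.add_apply, trp_self, cutx_eq, add_ip_zz hv]
        have e5 : trp D0 y1 y2 f2 v = (ahat s A2 *ᵥ cutx D1 x f) (x + ip N2 (ζ + zz D0 y1 v)) := by
          unfold trp
          rw [hf2, hy2, ip_add, add_assoc]
        have e6 : f1 v = (ahat s A1 *ᵥ trp D1 0 x f) (0 + ip N1 (ζ + zz D0 y1 v)) := by
          rw [ip_add, ← add_assoc, ← hy1, ← hz]
        rw [e5, e6]
        ring
      rw [e4]
      exact mul_trp_diff t1 t2 r1 r2 hN1 hN2 he 0 x f (zb_mono hD (add_mem_zb hζ hzm))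
    have e3 : P2 ζ - P1 ζ = (P2 ζ - Q) + (Q - P1 ζ) := by ring
    rw [e3]
    exact (norm_add_le _ _).trans (add_le_add s1 s2)
  set q := 4 * η * K + Lp * (e * osc D1 x f) with hq
  have hq0 : 0 ≤ q := by
    have := osc_nonneg D1 x f
    positivity
  have es : lamw s A2 R0 D1 (lft D0 mu) x f - lft D1 (lamw s A1 R0 D1 mu) x f
      = (∑ ζ ∈ zb R0, ((ahat s A2 0 (ip N2 ζ) - ahat s A1 0 (ip N1 ζ) : ℝ) : ℂ) * P2 ζ)
        + ∑ ζ ∈ zb R0, (ahat s A1 0 (ip N1 ζ) : ℂ) * (P2 ζ - P1 ζ) := by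
    rw [e1, e2, ← Finset.sum_sub_distrib, ← Finset.sum_add_distrib]
    refine Finset.sum_congr rfl fun ζ _ => ?_
    push_cast
    ring
  rw [es]
  refine (norm_add_le _ _).trans ?_
  have a1 : ‖∑ ζ ∈ zb R0, ((ahat s A2 0 (ip N2 ζ) - ahat s A1 0 (ip N1 ζ) : ℝ) : ℂ) * P2 ζ‖
      ≤ K * ((2 * R0 + 1) ^ 2 * e) := by
    refine (norm_sum_le _ _).trans ?_
    calc ∑ ζ ∈ zb R0, ‖((ahat s A2 0 (ip N2 ζ) - ahat s A1 0 (ip N1 ζ) : ℝ) : ℂ) * P2 ζ‖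
        ≤ ∑ ζ ∈ zb R0, e * K := by
          refine Finset.sum_le_sum fun ζ hζ => ?_
          rw [norm_mul, Complex.norm_real, Real.norm_eq_abs]
          exact mul_le_mul (he ζ (zb_mono (by omega) hζ)) (b2 ζ) (norm_nonneg _) he0
      _ = _ := by
          rw [Finset.sum_const, nsmul_eq_mul, card_zb]
          ring
  have a2 : ‖∑ ζ ∈ zb R0, (ahat s A1 0 (ip N1 ζ) : ℂ) * (P2 ζ - P1 ζ)‖ ≤ q := by
    refine (norm_sum_le _ _).trans ?_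
    calc ∑ ζ ∈ zb R0, ‖(ahat s A1 0 (ip N1 ζ) : ℂ) * (P2 ζ - P1 ζ)‖
        ≤ ∑ ζ ∈ zb R0, ahat s A1 0 (ip N1 ζ) * q := by
          refine Finset.sum_le_sum fun ζ hζ => ?_
          rw [norm_mul, Complex.norm_real, Real.norm_eq_abs, abs_of_nonneg (n1 _ _)]
          exact mul_le_mul_of_nonneg_left (cell ζ hζ) (n1 _ _)
      _ = (∑ ζ ∈ zb R0, ahat s A1 0 (ip N1 ζ)) * q := by rw [Finset.sum_mul]
      _ ≤ 1 * q := mul_le_mul_of_nonneg_right (sum_ker_le n1 r1 (by omega)) hq0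
      _ = q := one_mul q
  rw [hq] at a2
  linarith

end window

end

end Vale.Agent.P159.H733.Vt
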