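import Vale.Agent.P159.H733.Drop
import Vale.Agent.P159.H177.Lim

/-!
P159: lower bound of the drop of the stiffness, form for arbitrary sides.
-/

set_option linter.all false

open MeasureTheory Filter Topology
open scoped BigOperators

namespace Vale.Agent.P159.UJ.H733

open Vale.Agent.P159 Vale.Agent.P159.UJ

theorem yy_pos' (b : ℝ) (s : ℕ) : 0 < yy b s := div_pos (WB_pos _ _ _ _) (WB_pos _ _ _ _)

theorem yy_le_one' {b : ℝ} (hb : 0 ≤ b) (s : ℕ) : yy b s ≤ 1 := rho_le_one hb s 0 _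

theorem log_yy {b : ℝ} (hb : 0 ≤ b) (s : ℕ) : 1 ≤ 1 - Real.log (yy b s) := by
  have := Real.log_nonpos (yy_pos' b s).le (yy_le_one' hb s)
  linarith only [this]

/-- **lower bound of the drop of the stiffness**: the stiffness drops by at least the square of the
vortex ratio up to powers of its logarithm, over a window which is polynomial in the inverse of the
vortex ratio. -/
theorem p_gen (B t0 : ℝ) (hB : 0 < B) (ht0 : 0 < t0) : ∃ (C : ℝ) (q : ℕ), 1 ≤ C ∧ ∀ b : ℝ, 0 < b →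
    b ≤ B → ∀ l m L : ℕ, 1 ≤ l → t0 ≤ stiff l b →
      C * (1 - Real.log (yy b (l * m))) ^ q ≤ m →
      C * (1 - Real.log (yy b (l * m))) ^ q * ((l * m : ℕ) : ℝ) ≤ L * yy b (l * m) ^ 2 →
      yy b (l * m) ^ 2 / (C * (1 - Real.log (yy b (l * m))) ^ q) ≤ stiff l b - stiff L b := by
  obtain ⟨K0, A, p, c, hK0, hA, hc, h⟩ := p_low B t0 hB ht0
  have hK0R : (1 : ℝ) ≤ K0 := by exact_mod_cast hK0
  have hAR : (1 : ℝ) ≤ A := by exact_mod_cast hA
  obtain ⟨C, hC⟩ : ∃ C : ℝ, C = A * 16 ^ 4 + 272 * K0 + 1088 * B * K0 * 16 ^ p / c +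
    2 * 16 ^ p / c := ⟨_, rfl⟩
  have p1 : 0 ≤ (A : ℝ) * 16 ^ 4 := by positivity
  have p2 : 0 ≤ 272 * (K0 : ℝ) := by positivity
  have p3 : 0 ≤ 1088 * B * K0 * 16 ^ p / c := by positivity
  have p4 : 0 ≤ 2 * 16 ^ p / c := by positivity
  refine ⟨C, p + 5, by linarith only [hC, p1, p2, p3, p4, hK0R], ?_⟩
  intro b hb hbB l m L hl ht hm hL
  obtain ⟨y, hy⟩ : ∃ y, y = yy b (l * m) := ⟨_, rfl⟩
  have hy0 : 0 < y := by rw [hy]; exact yy_pos' _ _
  have hy1 : y ≤ 1 := by rw [hy]; exact yy_le_one' hb.le _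
  obtain ⟨e, he⟩ : ∃ e, e = 1 - Real.log y := ⟨_, rfl⟩
  have he1 : 1 ≤ e := by rw [he, hy]; exact log_yy hb.le _
  rw [← hy, ← he] at hm hL ⊢
  -- choice of `κ`
  obtain ⟨n, hn1, hn2⟩ := exists_nat_pow_near (x := 8 * e) (y := 2) (by linarith only [he1])
    (by norm_num)
  obtain ⟨κ, hκ⟩ : ∃ κ, κ = n + 1 := ⟨_, rfl⟩
  rw [← hκ] at hn2
  have hκ2 : (2 : ℝ) ^ κ ≤ 16 * e := by
    rw [hκ, pow_succ]
    linarith only [hn1]
  have hκ1 : 1 ≤ (2 : ℝ) ^ κ := one_le_pow₀ (by norm_num)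
  have he0 : 0 < e := by linarith only [he1]
  have hepow : ∀ i : ℕ, i ≤ p + 5 → e ^ i ≤ e ^ (p + 5) := fun i hi => pow_le_pow_right₀ he1 hi
  have hCe : 0 < C * e ^ (p + 5) := by
    have : 0 < C := by linarith only [hC, p1, p2, p3, p4, hK0R]
    positivity
  -- condition on `m`
  have hm' : A * (2 ^ κ) ^ 4 ≤ m := by
    have h1 : (A : ℝ) * ((2 : ℝ) ^ κ) ^ 4 ≤ m := by
      calc (A : ℝ) * ((2 : ℝ) ^ κ) ^ 4 ≤ A * (16 * e) ^ 4 := by gcongr
        _ = A * 16 ^ 4 * e ^ 4 := by ring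
        _ ≤ A * 16 ^ 4 * e ^ (p + 5) := mul_le_mul_of_nonneg_left (hepow 4 (by omega)) p1
        _ ≤ C * e ^ (p + 5) := mul_le_mul_of_nonneg_right (by linarith only [hC, p2, p3, p4])
            (by positivity)
        _ ≤ m := hm
    exact_mod_cast h1
  have hlog : -Real.log (yy b (l * m)) ≤ ((2 : ℝ) ^ κ) ^ 2 / 8 := by
    rw [← hy]
    have h1 : -Real.log y ≤ e := by rw [he]; linarith only
    have h2 : (8 * e) ^ 2 ≤ ((2 : ℝ) ^ κ) ^ 2 := pow_le_pow_left₀ (by positivity) hn2.le 2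
    nlinarith only [h1, h2, he1]
  have hdrop := h b hb hbB l κ m hl hm' ht hlog
  rw [← hy] at hdrop
  -- from `l m N` to `L`
  obtain ⟨N, hN⟩ : ∃ N : ℕ, N = NN (K0 * 2 ^ κ) 2 := ⟨_, rfl⟩
  rw [← hN] at hdrop
  have hN1 : 1 ≤ N := by rw [hN]; unfold NN; omega
  have hNR : (N : ℝ) ≤ 272 * K0 * e := by
    have h1 : (N : ℝ) = 16 * (K0 * (2 : ℝ) ^ κ) + 1 := by
      rw [hN, NN_cast]; push_cast; ring
    rw [h1]
    have h2 : 1 ≤ K0 * (2 : ℝ) ^ κ := one_le_mul_of_one_le_of_one_le hK0R hκ1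
    have h3 : K0 * (2 : ℝ) ^ κ ≤ K0 * (16 * e) := by gcongr
    linarith only [h2, h3]
  have hlm : 0 < ((l * m : ℕ) : ℝ) := by
    have hm0 : 0 < (m : ℝ) := lt_of_lt_of_le hCe hm
    have hl0 : 0 < (l : ℝ) := by exact_mod_cast hl
    push_cast
    positivity
  have hLR : C * e ^ (p + 5) * ((l * m : ℕ) : ℝ) ≤ L := by
    refine hL.trans ?_
    have h1 : y ^ 2 ≤ 1 := pow_le_one₀ hy0.le hy1
    have h2 : (0 : ℝ) ≤ L := Nat.cast_nonneg L
    nlinarith only [h1, h2]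
  have hL0 : (0 : ℝ) < L := lt_of_lt_of_le (by positivity) hLR
  have hNL : ((l * m * N : ℕ) : ℝ) ≤ 272 * K0 * e * ((l * m : ℕ) : ℝ) := by
    rw [Nat.cast_mul, mul_comm]
    exact mul_le_mul_of_nonneg_right hNR hlm.le
  have hle : l * m * N ≤ L := by
    have h1 : ((l * m * N : ℕ) : ℝ) ≤ L := by
      refine hNL.trans (le_trans ?_ hLR)
      refine mul_le_mul_of_nonneg_right ?_ hlm.le
      calc 272 * (K0 : ℝ) * e = 272 * K0 * e ^ 1 := by rw [pow_one]
        _ ≤ 272 * K0 * e ^ (p + 5) := mul_le_mul_of_nonneg_left (hepow 1 (by omega)) p2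
        _ ≤ C * e ^ (p + 5) := mul_le_mul_of_nonneg_right (by linarith only [hC, p1, p3, p4])
            (by positivity)
    exact_mod_cast h1
  have hm0 : 1 ≤ m := by
    have : (1 : ℝ) ≤ m := by
      refine le_trans ?_ hm
      have h1 : 1 ≤ e ^ (p + 5) := one_le_pow₀ he1
      have h2 : 1 ≤ C := by linarith only [hC, p1, p2, p3, p4, hK0R]
      nlinarith only [h1, h2]
    exact_mod_cast this
  have hrate := H177.stiff_le_rate hb.le (Nat.mul_pos (Nat.mul_pos hl hm0) hN1) hle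
  have herr : 2 * b * ((l * m * N : ℕ) : ℝ) / L ≤ c / 2 * y ^ 2 / (16 * e) ^ p := by
    have h1 : ((l * m : ℕ) : ℝ) / L ≤ y ^ 2 / (C * e ^ (p + 5)) := by
      rw [div_le_div_iff₀ hL0 hCe]
      linarith only [hL]
    have h2 : 2 * b * ((l * m * N : ℕ) : ℝ) / L ≤
        544 * B * K0 * e * (((l * m : ℕ) : ℝ) / L) := by
      rw [← mul_div_assoc]
      refine div_le_div_of_nonneg_right ?_ hL0.le
      calc 2 * b * ((l * m * N : ℕ) : ℝ) ≤ 2 * B * (272 * K0 * e * ((l * m : ℕ) : ℝ)) := by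
            gcongr
        _ = _ := by ring
    have h3 : 544 * B * K0 * e * (((l * m : ℕ) : ℝ) / L) ≤
        544 * B * K0 * e * (y ^ 2 / (C * e ^ (p + 5))) :=
      mul_le_mul_of_nonneg_left h1 (by positivity)
    refine h2.trans (h3.trans ?_)
    rw [mul_div_assoc', div_le_div_iff₀ hCe (by positivity)]
    have h4 : 1088 * B * K0 * 16 ^ p / c ≤ C := by linarith only [hC, p1, p2, p4]
    rw [div_le_iff₀ hc] at h4
    have h5 : e * e ^ p ≤ e ^ (p + 5) := by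
      rw [← pow_succ']
      exact hepow (p + 1) (by omega)
    have h6 : 544 * B * K0 * e * y ^ 2 * (16 * e) ^ p =
        (1088 * B * K0 * 16 ^ p) * (e * e ^ p) * (y ^ 2 / 2) := by
      rw [mul_pow]; ring
    have h7 : c / 2 * y ^ 2 * (C * e ^ (p + 5)) = (C * c) * e ^ (p + 5) * (y ^ 2 / 2) := by ring
    rw [h6, h7]
    refine mul_le_mul_of_nonneg_right ?_ (by positivity)
    exact mul_le_mul h4 h5 (by positivity) (by
      have : 0 < C := by linarith only [hC, p1, p2, p3, p4, hK0R]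
      positivity)
  have hmain : c * y ^ 2 / (16 * e) ^ p ≤ c * y ^ 2 / ((2 : ℝ) ^ κ) ^ p := by
    refine div_le_div_of_nonneg_left (by positivity) (by positivity) ?_
    exact pow_le_pow_left₀ (by positivity) hκ2 p
  have hfin : y ^ 2 / (C * e ^ (p + 5)) ≤ c / 2 * y ^ 2 / (16 * e) ^ p := by
    rw [div_le_div_iff₀ hCe (by positivity)]
    have h4 : 2 * 16 ^ p / c ≤ C := by linarith only [hC, p1, p2, p3]
    rw [div_le_iff₀ hc] at h4
    have h5 : e ^ p ≤ e ^ (p + 5) := hepow p (by omega)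
    have h6 : y ^ 2 * (16 * e) ^ p = (2 * 16 ^ p) * e ^ p * (y ^ 2 / 2) := by
      rw [mul_pow]; ring
    have h7 : c / 2 * y ^ 2 * (C * e ^ (p + 5)) = (C * c) * e ^ (p + 5) * (y ^ 2 / 2) := by ring
    rw [h6, h7]
    refine mul_le_mul_of_nonneg_right ?_ (by positivity)
    exact mul_le_mul h4 h5 (by positivity) (by
      have : 0 < C := by linarith only [hC, p1, p2, p3, p4, hK0R]
      positivity)
  have e2 : c * y ^ 2 / (16 * e) ^ p = c / 2 * y ^ 2 / (16 * e) ^ p +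
      c / 2 * y ^ 2 / (16 * e) ^ p := by ring
  linarith only [hdrop, hrate, herr, hmain, hfin, e2]

end Vale.Agent.P159.UJ.H733
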