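import Vale.Agent.P159.H733.Gen
import Vale.Agent.P159.H264.Ode

/-!
P159: growth of the sum of the stiffness excess over the dyadic scales from the lower bound of the
drops and a lower bound of the vortex ratio.
-/

set_option linter.all false

open Filter Topology
open scoped BigOperators

namespace Vale.Agent.P159.H733

open Vale.Agent.P159.H264 (TT TT_succ TT_zero TT_mono TT_nonneg)

/-- many windows -/
theorem windows {x : ℕ → ℝ} {γ : ℝ} {w N : ℕ} (hx0 : ∀ n, 0 ≤ x n)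
    (h : ∀ i, i + w ≤ N → γ ≤ x i - x (i + w)) (k : ℕ) : ∀ i, i + w * k ≤ N → k * γ ≤ x i := by
  induction k with
  | zero => intro i _; simpa using hx0 i
  | succ k ih =>
    intro i hi
    have h1 : i + w + w * k ≤ N := by rw [Nat.mul_succ] at hi; omega
    have h2 := ih (i + w) h1
    have h3 := h i (by omega)
    push_cast
    linarith only [h2, h3]

theorem TT_ge {x : ℕ → ℝ} {g : ℝ} (hx0 : ∀ n, 0 ≤ x n) {M N : ℕ} (hMN : M ≤ N)
    (h : ∀ i, i < M → g ≤ x i) : M * g ≤ TT x N := by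
  have h1 : TT x M ≤ TT x N := TT_mono hx0 hMN
  have h2 : (M : ℝ) * g ≤ TT x M := by
    unfold TT
    calc (M : ℝ) * g = ∑ _i ∈ Finset.range M, g := by
          rw [Finset.sum_const, Finset.card_range, nsmul_eq_mul]
      _ ≤ _ := Finset.sum_le_sum fun i hi => h i (Finset.mem_range.1 hi)
  exact h2.trans h1

/-- the eventual inequalities -/
theorem ev_ineq (A B η : ℝ) (hη : 0 < η) : ∀ᶠ N : ℕ in atTop, A * Real.log N + B ≤ (N : ℝ) ^ η := by
  have h1 : Tendsto (fun N : ℕ => (N : ℝ)) atTop atTop := tendsto_natCast_atTop_atTop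
  have h2 : ∀ᶠ X : ℝ in atTop, A * Real.log X + B ≤ X ^ η := by
    have h3 := (isLittleO_log_rpow_atTop hη).const_mul_left A
    have h4 : (fun _ : ℝ => B) =o[atTop] fun X : ℝ => X ^ η := by
      rw [Asymptotics.isLittleO_const_left]
      right
      exact tendsto_norm_atTop_atTop.comp (tendsto_rpow_atTop hη)
    have h5 := (h3.add h4).bound (c := 1) one_pos
    filter_upwards [h5, eventually_ge_atTop 0] with X hX hX0
    rw [one_mul, Real.norm_eq_abs, Real.norm_eq_abs, abs_of_nonneg (Real.rpow_nonneg hX0 η)] at hX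
    exact (le_abs_self _).trans hX
  exact h1.eventually h2

/-- **growth of `T`** -/
theorem T_growth {x y : ℕ → ℝ} (hx0 : ∀ n, 0 ≤ x n) (hy0 : ∀ n, 0 < y n) (hy1 : ∀ n, y n ≤ 1)
    {C : ℝ} {q : ℕ} (hC : 1 ≤ C)
    (hP : ∀ i n j : ℕ, i ≤ n → n ≤ j → C * (1 - Real.log (y n)) ^ q ≤ (2 : ℝ) ^ (n - i) →
      C * (1 - Real.log (y n)) ^ q ≤ (2 : ℝ) ^ (j - n) * y n ^ 2 →
      y n ^ 2 / (C * (1 - Real.log (y n)) ^ q) ≤ x i - x j)
    {C3 : ℝ} (hC3 : 0 < C3)
    (hV : ∀ δ : ℝ, 0 < δ → ∃ c : ℝ, 0 < c ∧ ∀ n : ℕ,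
      c * ((n : ℝ) + 1) ^ (-δ) * Real.exp (-(C3 * TT x n)) ≤ y n) :
    ∀ a : ℝ, 0 < a → a * C3 < 1 → ∀ᶠ N : ℕ in atTop, a * Real.log N ≤ TT x N := by
  intro a ha haC
  obtain ⟨δ, hδ⟩ : ∃ δ, δ = (1 - a * C3) / 4 := ⟨_, rfl⟩
  have hδ0 : 0 < δ := by rw [hδ]; linarith only [haC]
  have hδ1 : δ ≤ 1 / 4 := by
    rw [hδ]
    have : 0 < a * C3 := by positivity
    linarith only [this]
  obtain ⟨η, hη⟩ : ∃ η : ℝ, η = δ / (q + 4) := ⟨_, rfl⟩
  have hη0 : 0 < η := by rw [hη]; positivity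
  have hηq : (q + 4) * η = δ := by rw [hη]; field_simp
  obtain ⟨c, hc, hV⟩ := hV δ hδ0
  obtain ⟨e, he⟩ : ∃ e : ℝ, e = 1 + δ - Real.log c := ⟨_, rfl⟩
  -- eventual inequalities
  have E1 := ev_ineq (C3 * a + δ) e η hη0
  have E2 := ev_ineq 0 (max C (2 / c)) η hη0
  have E3 := ev_ineq 12 12 η hη0
  have E4 := ev_ineq (32 * a + 1) 0 (5 * δ) (by positivity)
  filter_upwards [E1, E2, E3, E4, eventually_ge_atTop 2] with N h1 h2 h3 h4 hN2
  by_contra hcon
  push Not at hcon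
  have hN2R : (2 : ℝ) ≤ N := by exact_mod_cast hN2
  have hN0 : (0 : ℝ) < N := by linarith only [hN2R]
  have hN1 : (1 : ℝ) ≤ N := by linarith only [hN2R]
  obtain ⟨Z, hZ⟩ : ∃ Z : ℝ, Z = (N : ℝ) ^ η := ⟨_, rfl⟩
  rw [← hZ] at h1 h2 h3
  have hZ12 : 12 ≤ Z := by
    have := Real.log_nonneg hN1
    linarith only [h3, this]
  have hZ1 : 1 ≤ Z := by linarith only [hZ12]
  have hZ0 : 0 < Z := by linarith only [hZ1]
  have hCZ : C ≤ Z := by
    have := le_max_left C (2 / c)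
    linarith only [h2, this]
  have hcZ : 2 / c ≤ Z := by
    have := le_max_right C (2 / c)
    linarith only [h2, this]
  have hcZ' : Z⁻¹ ≤ c / 2 := by
    rw [inv_le_comm₀ hZ0 (by positivity)]
    calc (c / 2)⁻¹ = 2 / c := by rw [inv_div]
      _ ≤ Z := hcZ
  -- the lower bound of the vortex ratio
  obtain ⟨g, hg⟩ : ∃ g : ℝ, g = (N : ℝ) ^ (-(C3 * a + δ)) * Z⁻¹ := ⟨_, rfl⟩
  have hg0 : 0 < g := by rw [hg]; positivity
  have hlog2 : 0 < Real.log 2 := Real.log_pos one_lt_two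
  have hyN : ∀ n, n ≤ N → c * ((N : ℝ) + 1) ^ (-δ) * (N : ℝ) ^ (-(C3 * a)) ≤ y n := by
    intro n hn
    refine le_trans ?_ (hV n)
    have a1 : ((N : ℝ) + 1) ^ (-δ) ≤ ((n : ℝ) + 1) ^ (-δ) := by
      apply Real.rpow_le_rpow_of_nonpos (by positivity)
      · have : (n : ℝ) ≤ N := by exact_mod_cast hn
        linarith only [this]
      · linarith only [hδ0]
    have a2 : (N : ℝ) ^ (-(C3 * a)) ≤ Real.exp (-(C3 * TT x n)) := by
      rw [Real.rpow_def_of_pos hN0, Real.exp_le_exp]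
      have a3 : TT x n ≤ TT x N := TT_mono hx0 hn
      have a4 : C3 * TT x n ≤ C3 * (a * Real.log N) :=
        mul_le_mul_of_nonneg_left (a3.trans hcon.le) hC3.le
      linarith only [a4]
    exact mul_le_mul (mul_le_mul_of_nonneg_left a1 hc.le) a2 (by positivity) (by positivity)
  have hN1δ : (N : ℝ) ^ (-δ) / 2 ≤ ((N : ℝ) + 1) ^ (-δ) := by
    have a1 : (2 * (N : ℝ)) ^ (-δ) ≤ ((N : ℝ) + 1) ^ (-δ) :=
      Real.rpow_le_rpow_of_nonpos (by positivity) (by linarith only [hN1]) (by linarith only [hδ0])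
    have a2 : (2 : ℝ) ^ (-δ) ≥ 1 / 2 := by
      have : (2 : ℝ) ^ (-(1 : ℝ)) ≤ (2 : ℝ) ^ (-δ) :=
        Real.rpow_le_rpow_of_exponent_le (by norm_num) (by linarith only [hδ1])
      have e1 : (2 : ℝ) ^ (-(1 : ℝ)) = 1 / 2 := by rw [Real.rpow_neg_one]; norm_num
      rw [e1] at this
      exact this
    rw [Real.mul_rpow (by norm_num) hN0.le] at a1
    have a3 : 0 < (N : ℝ) ^ (-δ) := by positivity
    nlinarith only [a1, a2, a3]
  have hgy : ∀ n, n ≤ N → g ≤ y n := by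
    intro n hn
    refine le_trans ?_ (hyN n hn)
    have a1 : (N : ℝ) ^ (-(C3 * a + δ)) = (N : ℝ) ^ (-δ) * (N : ℝ) ^ (-(C3 * a)) := by
      rw [← Real.rpow_add hN0]
      congr 1
      ring
    rw [hg, a1]
    have a2 : 0 < (N : ℝ) ^ (-(C3 * a)) := by positivity
    have a3 : (N : ℝ) ^ (-δ) * Z⁻¹ ≤ c * ((N : ℝ) + 1) ^ (-δ) := by
      calc (N : ℝ) ^ (-δ) * Z⁻¹ ≤ (N : ℝ) ^ (-δ) * (c / 2) :=
            mul_le_mul_of_nonneg_left hcZ' (by positivity)
        _ = c * ((N : ℝ) ^ (-δ) / 2) := by ring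
        _ ≤ _ := mul_le_mul_of_nonneg_left hN1δ hc.le
    calc (N : ℝ) ^ (-δ) * (N : ℝ) ^ (-(C3 * a)) * Z⁻¹ =
          ((N : ℝ) ^ (-δ) * Z⁻¹) * (N : ℝ) ^ (-(C3 * a)) := by ring
      _ ≤ _ := mul_le_mul_of_nonneg_right a3 a2.le
  -- the logarithm
  have hell : ∀ n, n ≤ N → 1 - Real.log (y n) ≤ Z := by
    intro n hn
    refine le_trans ?_ h1
    have a1 := Real.log_le_log (by positivity) (hyN n hn)
    rw [Real.log_mul (by positivity) (by positivity), Real.log_mul hc.ne' (by positivity),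
      Real.log_rpow (by positivity), Real.log_rpow hN0] at a1
    have a2 : Real.log ((N : ℝ) + 1) ≤ Real.log N + 1 := by
      have a3 : Real.log ((N : ℝ) + 1) ≤ Real.log (2 * N) :=
        Real.log_le_log (by positivity) (by linarith only [hN1])
      rw [Real.log_mul (by norm_num) hN0.ne'] at a3
      have a4 := Real.log_two_lt_d9
      linarith only [a3, a4]
    have a5 : δ * Real.log ((N : ℝ) + 1) ≤ δ * (Real.log N + 1) :=
      mul_le_mul_of_nonneg_left a2 hδ0.le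
    rw [he]
    linarith only [a1, a5]
  have hell1 : ∀ n, 1 ≤ 1 - Real.log (y n) := by
    intro n
    have := Real.log_nonpos (hy0 n).le (hy1 n)
    linarith only [this]
  obtain ⟨D, hD⟩ : ∃ D : ℝ, D = Z ^ (q + 1) := ⟨_, rfl⟩
  have hD1 : 1 ≤ D := by rw [hD]; exact one_le_pow₀ hZ1
  have hD0 : 0 < D := by linarith only [hD1]
  have hCD : ∀ n, n ≤ N → C * (1 - Real.log (y n)) ^ q ≤ D := by
    intro n hn
    rw [hD, pow_succ']
    have a1 := hell1 n
    exact mul_le_mul hCZ (pow_le_pow_left₀ (by linarith only [a1]) (hell n hn) q)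
      (pow_nonneg (by linarith only [a1]) q) hZ0.le
  -- the window
  obtain ⟨w, hw⟩ : ∃ w : ℕ, w = 3 * (Nat.log 2 N + 1) := ⟨_, rfl⟩
  have hwN : (N : ℝ) ^ 3 ≤ (2 : ℝ) ^ w := by
    have a1 : N < 2 ^ (Nat.log 2 N + 1) := Nat.lt_pow_succ_log_self (by norm_num) N
    have a2 : (N : ℝ) ≤ (2 : ℝ) ^ (Nat.log 2 N + 1) := by exact_mod_cast a1.le
    rw [hw, mul_comm, pow_mul]
    exact pow_le_pow_left₀ hN0.le a2 3
  have hwZ : 2 * (w : ℝ) ≤ Z := by
    have a1 : ((Nat.log 2 N : ℕ) : ℝ) ≤ Real.log N / Real.log 2 := by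
      have a0 : (2 : ℝ) ^ (Nat.log 2 N) ≤ N := by
        exact_mod_cast Nat.pow_log_le_self 2 (by omega)
      rw [le_div_iff₀ hlog2, ← Real.log_pow]
      exact Real.log_le_log (by positivity) a0
    have a2 : Real.log N / Real.log 2 ≤ 2 * Real.log N := by
      rw [div_le_iff₀ hlog2]
      have a3 := Real.log_two_gt_d9
      have a4 := Real.log_nonneg hN1
      nlinarith only [a3, a4]
    refine le_trans ?_ h3
    rw [hw]
    push_cast
    linarith only [a1, a2]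
  have hDg : D ≤ (2 : ℝ) ^ w * g ^ 2 := by
    refine le_trans ?_ (mul_le_mul_of_nonneg_right hwN (by positivity))
    have a1 : g ^ 2 = (N : ℝ) ^ (-(2 * (C3 * a + δ) + 2 * η)) := by
      rw [hg, hZ, ← Real.rpow_neg hN0.le, ← Real.rpow_add hN0, ← Real.rpow_natCast,
        ← Real.rpow_mul hN0.le]
      congr 1
      push_cast
      ring
    have a2 : D = (N : ℝ) ^ ((q + 1 : ℝ) * η) := by
      rw [hD, hZ, ← Real.rpow_natCast, ← Real.rpow_mul hN0.le]
      congr 1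
      push_cast
      ring
    have a3 : (N : ℝ) ^ 3 = (N : ℝ) ^ (3 : ℝ) := by norm_cast
    rw [a1, a2, a3, ← Real.rpow_add hN0]
    apply Real.rpow_le_rpow_of_exponent_le hN1
    have a4 : C3 * a = 1 - 4 * δ := by rw [hδ]; ring
    rw [a4]
    nlinarith only [hηq, hη0, hδ1, hδ0]
  have hg1 : g ≤ 1 := (hgy 0 (Nat.zero_le _)).trans (hy1 0)
  have hDw : D ≤ (2 : ℝ) ^ w := by
    refine hDg.trans ?_
    have a1 : g ^ 2 ≤ 1 := pow_le_one₀ hg0.le hg1
    have a2 : (0 : ℝ) < 2 ^ w := by positivity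
    nlinarith only [a1, a2]
  have hwin : ∀ i, i + 2 * w ≤ N → g ^ 2 / D ≤ x i - x (i + 2 * w) := by
    intro i hi
    have hn : i + w ≤ N := by omega
    have a1 := hP i (i + w) (i + 2 * w) (by omega) (by omega)
      (by
        rw [Nat.add_sub_cancel_left]
        exact (hCD _ hn).trans hDw)
      (by
        have : i + 2 * w - (i + w) = w := by omega
        rw [this]
        refine (hCD _ hn).trans (hDg.trans ?_)
        exact mul_le_mul_of_nonneg_left (pow_le_pow_left₀ hg0.le (hgy _ hn) 2) (by positivity))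
    refine le_trans ?_ a1
    have a2 : 0 < C * (1 - Real.log (y (i + w))) ^ q := by
      have := hell1 (i + w)
      have : 0 < 1 - Real.log (y (i + w)) := by linarith only [this]
      positivity
    rw [div_le_div_iff₀ hD0 a2]
    exact mul_le_mul (pow_le_pow_left₀ hg0.le (hgy _ hn) 2) (hCD _ hn) a2.le (by positivity)
  -- many windows
  obtain ⟨k, hk⟩ : ∃ k : ℕ, k = (N / 2) / (2 * w) := ⟨_, rfl⟩
  have hkw : 2 * w * k ≤ N / 2 := by
    rw [hk]
    exact Nat.mul_div_le _ _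
  have hx2 : ∀ i, i < N / 2 → (k : ℝ) * (g ^ 2 / D) ≤ x i := by
    intro i hi
    exact windows hx0 hwin k i (by omega)
  have hT := TT_ge hx0 (show N / 2 ≤ N by omega) hx2
  have hNh : (N : ℝ) / 4 ≤ ((N / 2 : ℕ) : ℝ) := by
    have a1 : N ≤ 4 * (N / 2) := by omega
    have a2 : (N : ℝ) ≤ 4 * ((N / 2 : ℕ) : ℝ) := by exact_mod_cast a1
    linarith only [a2]
  have hw0 : 1 ≤ w := by rw [hw]; omega
  have hw0R : (1 : ℝ) ≤ w := by exact_mod_cast hw0
  -- `Z ≤ N / 8`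
  have hZN : 8 * Z ≤ N := by
    have a1 : (8 : ℝ) ≤ Z := by linarith only [hZ12]
    have a2 : Z * Z ≤ N := by
      rw [hZ, ← Real.rpow_add hN0]
      calc (N : ℝ) ^ (η + η) ≤ (N : ℝ) ^ (1 : ℝ) := by
            apply Real.rpow_le_rpow_of_exponent_le hN1
            have : 4 * η ≤ δ := by
              rw [← hηq]
              have : (0 : ℝ) ≤ q := Nat.cast_nonneg q
              nlinarith only [this, hη0]
            linarith only [this, hδ1]
        _ = N := Real.rpow_one _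
    nlinarith only [a1, a2, hZ0]
  have hkR : (N : ℝ) / (8 * Z) ≤ k := by
    have a1 : N / 2 < 2 * w * (k + 1) := by
      rw [hk]
      exact Nat.lt_mul_div_succ _ (by omega)
    have a2 : ((N / 2 : ℕ) : ℝ) ≤ 2 * w * (k + 1) := by exact_mod_cast a1.le
    have a3 : (N : ℝ) / 4 ≤ Z * (k + 1) := by
      refine hNh.trans (a2.trans ?_)
      exact mul_le_mul_of_nonneg_right hwZ (by positivity)
    rw [div_le_iff₀ (by positivity)]
    nlinarith only [a3, hZN, hZ0]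
  have hgD : g ^ 2 / D = (N : ℝ) ^ (-(2 * (C3 * a + δ) + (q + 3) * η)) := by
    rw [hg, hD, hZ]
    rw [← Real.rpow_neg hN0.le, ← Real.rpow_add hN0]
    rw [← Real.rpow_natCast, ← Real.rpow_natCast, ← Real.rpow_mul hN0.le, ← Real.rpow_mul hN0.le,
      ← Real.rpow_sub hN0]
    congr 1
    push_cast
    ring
  have hbig : (N : ℝ) ^ (5 * δ) / 32 ≤ TT x N := by
    refine le_trans ?_ hT
    have a1 : (N : ℝ) / 4 * ((N : ℝ) / (8 * Z) * (g ^ 2 / D)) ≤
        ((N / 2 : ℕ) : ℝ) * (k * (g ^ 2 / D)) := by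
      apply mul_le_mul hNh (mul_le_mul_of_nonneg_right hkR (by positivity)) (by positivity)
        (Nat.cast_nonneg _)
    refine le_trans (le_of_eq ?_) a1
    rw [hgD, hZ]
    have a2 : (N : ℝ) / 4 * ((N : ℝ) / (8 * (N : ℝ) ^ η) *
        (N : ℝ) ^ (-(2 * (C3 * a + δ) + (q + 3) * η))) =
        (N : ℝ) ^ (1 : ℝ) * ((N : ℝ) ^ (1 : ℝ) * (N : ℝ) ^ (-η) *
          (N : ℝ) ^ (-(2 * (C3 * a + δ) + (q + 3) * η))) / 32 := by
      rw [Real.rpow_one, Real.rpow_neg hN0.le η]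
      field_simp
      ring
    rw [a2, ← Real.rpow_add hN0, ← Real.rpow_add hN0, ← Real.rpow_add hN0]
    congr 2
    have a4 : C3 * a = 1 - 4 * δ := by rw [hδ]; ring
    rw [a4]
    linarith only [hηq]
  have hlogN : 0 < Real.log N := Real.log_pos (by linarith only [hN2R])
  have h5 : (32 * a + 1) * Real.log N ≤ (N : ℝ) ^ (5 * δ) := by linarith only [h4]
  nlinarith only [hbig, hcon, h5, hlogN]

end Vale.Agent.P159.H733
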