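import Vale.Agent.P159.H733.Asm1
import Vale.Agent.P159.H375.Hs5
import Vale.Agent.P159.H896.Pe7

/-!
P159 / V GLUE (helper733): the general step of the charged sector `StepH`, no input left.
-/

namespace Vale.Agent.P159.H733.Vt

open Vale.Agent.P159.H801 (Ev)
open Vale.Agent.P159.H889 (EvC BdH2 StepH)

/-- **the general step of the charged sector**; `A` depends on `b1, b2, b` only -/
theorem stepH_ev {b1 b2 b : ℝ} (hb1 : 0 < b1) (hb12 : b1 ≤ b2) (hbb : b1 ≤ b)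
    (hh : 0 < helicity b) (hs : 1 / helicity b < 5 / 2) :
    ∃ A : ℝ, 1 ≤ A ∧ ∀ A1, A ≤ A1 → ∀ (K : ℝ) (Q : ℕ), 0 < K →
      EvC b1 b2 (9 / 10) Q K (StepH b A1) := by
  obtain ⟨A, hA, h⟩ := stepH_of hb1 hb12 hbb
  refine ⟨A, hA, fun A1 hA1 K Q hK => ?_⟩
  have hH : EvC b1 b2 (9 / 10) Q K (BdH2 b) :=
    (H375.bdH_ev (b2 := b2) hb1 hbb (by norm_num : (0 : ℝ) < 9 / 10) hh hs Q hK).mono
      fun P c1 C1 _ _ _ _ H => H.two
  exact h A1 hA1 K Q hK hH (H896.bdE_ev hb1 hbb K Q hH)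

/-- the same at the critical helicity -/
theorem stepH_crit {b1 b2 b : ℝ} (hb1 : 0 < b1) (hb12 : b1 ≤ b2) (hbb : b1 ≤ b)
    (hY : helicity b = 2 / Real.pi) :
    ∃ A : ℝ, 1 ≤ A ∧ ∀ A1, A ≤ A1 → ∀ (K : ℝ) (Q : ℕ), 0 < K →
      EvC b1 b2 (9 / 10) Q K (StepH b A1) := by
  refine stepH_ev hb1 hb12 hbb ?_ ?_
  · rw [hY]
    positivity
  · rw [hY, one_div_div]
    have := Real.pi_lt_d2
    linarith

end Vale.Agent.P159.H733.Vt
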