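import Vale.Agent.P159.Bdl.B9

/-!
P159: tilings of the big block by blocks of arbitrary sides. Change of measure for a displacement
with value zero off the big block, lower and upper bound of the affinity of the Gibbs measure and
its displaced copy on the skeleton of the tiling.
-/

set_option linter.all false

open MeasureTheory Filter Topology
open scoped BigOperators

namespace Vale.Agent.P159.UJ.H733

open Vale.Agent.P159 Vale.Agent.P159.UJ

/-- tiling of the block `[0, L]²` by the blocks with sides `sd κ` and corners `cn κ`, `κ ∈ I` -/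
structure Til (L : ℕ) {ι : Type*} (I : Finset ι) (sd : ι → ℕ) (cn : ι → ℤ × ℤ) : Prop where
  disj : ∀ κ ∈ I, ∀ κ' ∈ I, κ ≠ κ' → ∀ z ∈ inB (sd κ) (cn κ), z ∉ clB (sd κ') (cn κ')
  sub : ∀ κ ∈ I, inB (sd κ) (cn κ) ⊆ inB L 0
  split : ∀ (b : ℝ) (θ : Ginf), EB b L 0 θ = ∑ κ ∈ I, EB b (sd κ) (cn κ) θ

section

variable {ι : Type*} {L : ℕ} {I : Finset ι} {sd : ι → ℕ} {cn : ι → ℤ × ℤ}

/-- functions of the skeleton -/
def Skel (I : Finset ι) (sd : ι → ℕ) (cn : ι → ℤ × ℤ) (f : Ginf → ℝ) : Prop :=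
  ∀ κ ∈ I, ∀ x y, f (x + PB (sd κ) (cn κ) y) = f x

/-- the density of the displaced measure on the skeleton -/
noncomputable def Dd (b : ℝ) (I : Finset ι) (sd : ι → ℕ) (cn : ι → ℤ × ℤ) (β θ : Ginf) : ℝ :=
  ∏ κ ∈ I, WB b (sd κ) (cn κ) (θ - β) / WB b (sd κ) (cn κ) θ

/-- the ratio of the weights of `x + a` and `x` -/
noncomputable def Rr (b : ℝ) (I : Finset ι) (sd : ι → ℕ) (cn : ι → ℤ × ℤ) (a x : Ginf) : ℝ :=
  ∏ κ ∈ I, WB b (sd κ) (cn κ) (x + a) / WB b (sd κ) (cn κ) x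

theorem Dd_pos (b : ℝ) (I : Finset ι) (sd : ι → ℕ) (cn : ι → ℤ × ℤ) (β θ : Ginf) :
    0 < Dd b I sd cn β θ :=
  Finset.prod_pos fun _ _ => div_pos (WB_pos _ _ _ _) (WB_pos _ _ _ _)

theorem Dd_cont (b : ℝ) (I : Finset ι) (sd : ι → ℕ) (cn : ι → ℤ × ℤ) (β : Ginf) :
    Continuous (Dd b I sd cn β) := by
  unfold Dd
  refine continuous_finsetProd _ fun κ _ => ?_
  exact ((WB_cont _ _ _).comp (continuous_id.sub continuous_const)).div (WB_cont _ _ _)
    fun θ => (WB_pos _ _ _ _).ne'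

theorem Rr_pos (b : ℝ) (I : Finset ι) (sd : ι → ℕ) (cn : ι → ℤ × ℤ) (a x : Ginf) :
    0 < Rr b I sd cn a x :=
  Finset.prod_pos fun _ _ => div_pos (WB_pos _ _ _ _) (WB_pos _ _ _ _)

theorem Rr_cont (b : ℝ) (I : Finset ι) (sd : ι → ℕ) (cn : ι → ℤ × ℤ) (a : Ginf) :
    Continuous (Rr b I sd cn a) := by
  unfold Rr
  refine continuous_finsetProd _ fun κ _ => ?_
  exact ((WB_cont _ _ _).comp (continuous_id.add continuous_const)).div (WB_cont _ _ _)
    fun θ => (WB_pos _ _ _ _).ne'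

theorem Rr_neg (b : ℝ) (I : Finset ι) (sd : ι → ℕ) (cn : ι → ℤ × ℤ) (a x : Ginf) :
    Rr b I sd cn a (-x) = Rr b I sd cn (-a) x := by
  unfold Rr
  have e : -x + a = -(x + -a) := by abel
  refine Finset.prod_congr rfl fun κ _ => ?_
  rw [e, WB_neg, WB_neg]

theorem Rr_mul {b : ℝ} (hb : 0 ≤ b) (I : Finset ι) (sd : ι → ℕ) (cn : ι → ℤ × ℤ) (a x : Ginf) :
    Rr b I sd cn a 0 ^ 2 ≤ Rr b I sd cn a x * Rr b I sd cn (-a) x := by
  unfold Rr
  rw [← Finset.prod_pow, ← Finset.prod_mul_distrib, zero_add]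
  refine Finset.prod_le_prod (fun κ _ => by positivity) fun κ _ => ?_
  exact h2_four hb _ _ x a

theorem Dd_add (b : ℝ) (I : Finset ι) (sd : ι → ℕ) (cn : ι → ℤ × ℤ) (β x : Ginf) :
    Dd b I sd cn β (x + β) = (Rr b I sd cn β x)⁻¹ := by
  unfold Dd Rr
  rw [← Finset.prod_inv_distrib]
  refine Finset.prod_congr rfl fun κ _ => ?_
  rw [add_sub_cancel_right, inv_div]

/-- a shift of the interior of one block does not change another closed block -/
theorem til_PB_cl (hT : Til L I sd cn) {κ κ' : ι} (hκ : κ ∈ I) (hκ' : κ' ∈ I) (hne : κ ≠ κ')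
    (x y : Ginf) {z : ℤ × ℤ} (hz : z ∈ clB (sd κ') (cn κ')) :
    (x + PB (sd κ) (cn κ) y) z = x z := by
  have h1 : z ∉ inB (sd κ) (cn κ) := fun h => hT.disj κ hκ κ' hκ' hne z h hz
  show x z + PB (sd κ) (cn κ) y z = x z
  rw [PB, proj_of_notMem h1, add_zero]

theorem til_EB_inv {b : ℝ} (hT : Til L I sd cn) {κ κ' : ι} (hκ : κ ∈ I) (hκ' : κ' ∈ I)
    (hne : κ ≠ κ') (x y α : Ginf) :
    EB b (sd κ') (cn κ') (x + PB (sd κ) (cn κ) y - α) = EB b (sd κ') (cn κ') (x - α) := by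
  refine EB_congr fun z hz => ?_
  have := til_PB_cl hT hκ hκ' hne x y hz
  show (x + PB (sd κ) (cn κ) y) z - α z = x z - α z
  rw [this]

theorem til_WB_inv {b : ℝ} (hT : Til L I sd cn) {κ κ' : ι} (hκ : κ ∈ I) (hκ' : κ' ∈ I)
    (x y α : Ginf) :
    WB b (sd κ') (cn κ') (x + PB (sd κ) (cn κ) y - α) = WB b (sd κ') (cn κ') (x - α) := by
  refine WB_congr fun z hz hz2 => ?_
  show (x + PB (sd κ) (cn κ) y) z - α z = x z - α z
  by_cases hne : κ = κ'
  · subst hne
    show x z + PB (sd κ) (cn κ) y z - α z = x z - α z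
    rw [PB, proj_of_notMem hz2, add_zero]
  · rw [til_PB_cl hT hκ hκ' hne x y hz]

theorem Dd_skel {b : ℝ} (hT : Til L I sd cn) (β : Ginf) : Skel I sd cn (Dd b I sd cn β) := by
  intro κ hκ x y
  unfold Dd
  refine Finset.prod_congr rfl fun κ' hκ' => ?_
  have h0 := til_WB_inv (b := b) hT hκ hκ' x y 0
  simp only [sub_zero] at h0
  rw [til_WB_inv hT hκ hκ' x y β, h0]

theorem Dd_mul (b : ℝ) (β θ : Ginf) :
    Dd b I sd cn β θ * ∏ κ ∈ I, WB b (sd κ) (cn κ) θ = ∏ κ ∈ I, WB b (sd κ) (cn κ) (θ - β) := by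
  unfold Dd
  rw [← Finset.prod_mul_distrib]
  refine Finset.prod_congr rfl fun κ _ => ?_
  rw [div_mul_cancel₀ _ (WB_pos _ _ _ _).ne']

/-- the integral of a function of the skeleton -/
theorem til_int {b : ℝ} (hT : Til L I sd cn) (v : Ginf) {g : Ginf → ℝ} (hg : Continuous g)
    (hgs : Skel I sd cn g) (α : Ginf) :
    ∫ x, g x * Real.exp (EB b L 0 (x - α)) ∂(nu L v) =
      ∫ x, g x * ∏ κ ∈ I, WB b (sd κ) (cn κ) (x - α) ∂(nu L v) := by
  classical
  have hEc : ∀ (s : ℕ) (c : ℤ × ℤ),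
      Continuous fun z : Ginf => Real.exp (EB b s c (z - α)) := fun s c =>
    Real.continuous_exp.comp ((EB_cont b s c).comp (continuous_id.sub continuous_const))
  have h := int_prod muInf (ν := nu L v)
    (fun κ => (PB (sd κ) (cn κ) : Ginf → Ginf)) (fun κ => proj_cont _)
    (fun κ z => Real.exp (EB b (sd κ) (cn κ) (z - α)))
    (fun κ => hEc _ _) I
    (fun κ hκ => nu_inv (hT.sub κ hκ) _)
    (fun κ hκ κ' hκ' hne x y => by
      show Real.exp _ = Real.exp _
      rw [til_EB_inv hT hκ hκ' hne x y α]) g hg hgs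
  simp only [hel1_av] at h
  rw [← h]
  have hsplit : ∀ θ : Ginf, Real.exp (EB b L 0 (θ - α)) =
      ∏ κ ∈ I, Real.exp (EB b (sd κ) (cn κ) (θ - α)) := by
    intro θ
    rw [hT.split, Real.exp_sum]
  simp only [hsplit]

/-- change of measure -/
theorem til_change {b : ℝ} (hT : Til L I sd cn) {β : Ginf} (hβ : PB L 0 β = β) {f : Ginf → ℝ}
    (hf : Continuous f) (hfs : Skel I sd cn f) :
    Ev b L 0 (fun θ => Dd b I sd cn β θ * f θ) = Ev b L 0 (fun x => f (x + β)) := by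
  unfold Ev
  congr 1
  have hD := Dd_cont b I sd cn β
  have hDs := Dd_skel (b := b) hT β
  have hexp : Continuous fun x : Ginf => Real.exp (EB b L 0 x) :=
    Real.continuous_exp.comp (EB_cont b L 0)
  calc ∫ x, Dd b I sd cn β x * f x * Real.exp (EB b L 0 x) ∂(nu L 0)
      = ∫ x, (Dd b I sd cn β x * f x) * Real.exp (EB b L 0 (x - 0)) ∂(nu L 0) := by
        simp only [sub_zero]
    _ = ∫ x, (Dd b I sd cn β x * f x) * ∏ κ ∈ I, WB b (sd κ) (cn κ) (x - 0) ∂(nu L 0) :=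
        til_int hT 0 (hD.mul hf) (fun κ hκ x y => by
          show Dd b I sd cn β _ * f _ = Dd b I sd cn β x * f x
          rw [hDs κ hκ, hfs κ hκ]) 0
    _ = ∫ x, f x * ∏ κ ∈ I, WB b (sd κ) (cn κ) (x - β) ∂(nu L 0) := by
        congr 1
        funext x
        rw [← Dd_mul b β x, sub_zero]
        ring
    _ = ∫ x, f x * Real.exp (EB b L 0 (x - β)) ∂(nu L 0) :=
        (til_int hT 0 hf hfs β).symm
    _ = ∫ x, f (x + β) * Real.exp (EB b L 0 x) ∂(nu L 0) := by
        have h := nu_inv (L := L) (s := L) (c := 0) (fun _ h => h) 0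
          (fun x => f x * Real.exp (EB b L 0 (x - β)))
          (hf.mul (hexp.comp (continuous_id.sub continuous_const))) β
        rw [← h]
        simp only [hβ, add_sub_cancel_right]

theorem til_one {b : ℝ} (hT : Til L I sd cn) {β : Ginf} (hβ : PB L 0 β = β) :
    Ev b L 0 (fun θ => Dd b I sd cn β θ) = 1 := by
  have h := til_change (b := b) hT hβ (f := fun _ => (1 : ℝ)) continuous_const
    (fun _ _ _ _ => rfl)
  simp only [mul_one] at h
  rw [h, Ev_zero_const]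

/-- lower bound of the affinity -/
theorem til_lower {b : ℝ} (hb : 0 ≤ b) (hT : Til L I sd cn) {β : Ginf} (hβ : PB L 0 β = β) :
    Real.sqrt (Rr b I sd cn β 0) ≤ Ev b L 0 (fun θ => Real.sqrt (Dd b I sd cn β θ)) := by
  have hDc := Dd_cont b I sd cn β
  have hDp := Dd_pos b I sd cn β
  have hfc : Continuous fun θ => (Real.sqrt (Dd b I sd cn β θ))⁻¹ :=
    (Real.continuous_sqrt.comp hDc).inv₀ fun θ => (Real.sqrt_pos.2 (hDp θ)).ne'
  have hch := til_change (b := b) hT hβ hfc (fun κ hκ x y => by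
    simp only [Dd_skel hT β κ hκ x y])
  have e1 : (fun θ => Dd b I sd cn β θ * (Real.sqrt (Dd b I sd cn β θ))⁻¹) =
      fun θ => Real.sqrt (Dd b I sd cn β θ) := by
    funext θ
    have h1 := Real.sqrt_pos.2 (hDp θ)
    have h2 := Real.mul_self_sqrt (hDp θ).le
    rw [← div_eq_mul_inv, div_eq_iff h1.ne', h2]
  have e2 : (fun x => (Real.sqrt (Dd b I sd cn β (x + β)))⁻¹) =
      fun x => Real.sqrt (Rr b I sd cn β x) := by
    funext x
    rw [Dd_add, Real.sqrt_inv, inv_inv]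
  rw [e1, e2] at hch
  rw [hch]
  -- symmetrisation
  have hR : Continuous fun x => Real.sqrt (Rr b I sd cn β x) :=
    Real.continuous_sqrt.comp (Rr_cont b I sd cn β)
  have hR' : Continuous fun x => Real.sqrt (Rr b I sd cn (-β) x) :=
    Real.continuous_sqrt.comp (Rr_cont b I sd cn (-β))
  have e3 := h2_Ev_neg b L hR
  have e4 : (fun x => Real.sqrt (Rr b I sd cn β (-x))) =
      fun x => Real.sqrt (Rr b I sd cn (-β) x) := by
    funext x
    rw [Rr_neg]
  rw [e4] at e3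
  have e5 := h2_Ev_add b L 0 hR hR'
  have e6 := h2_Ev_mono b L 0
    (F := fun _ => 2 * Real.sqrt (Rr b I sd cn β 0))
    (F' := fun x => Real.sqrt (Rr b I sd cn β x) + Real.sqrt (Rr b I sd cn (-β) x))
    continuous_const (hR.add hR')
    (fun x => h2_sqrt_add (Rr_pos _ _ _ _ _ _).le
      (Rr_pos _ _ _ _ _ _).le (Rr_mul hb I sd cn β x))
  rw [h2_Ev_const, e5, e3] at e6
  linarith only [e6]

/-- upper bound of the affinity with the help of a test function of the skeleton -/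
theorem til_upper {b : ℝ} (hT : Til L I sd cn) {β : Ginf} (hβ : PB L 0 β = β) {T : Ginf → ℝ}
    (hT1 : Continuous T) (hT2 : Skel I sd cn T) {d mq : ℝ} (hd : 0 < d) (hm : 2 * d ≤ |mq|) :
    Ev b L 0 (fun θ => Real.sqrt (Dd b I sd cn β θ)) ≤
      Real.sqrt (Ev b L 0 (fun x => psi d (T x))) +
      Real.sqrt (Ev b L 0 (fun x => psi d (T (x + β) - mq))) := by
  set D := Dd b I sd cn β with hD
  have c1 : Continuous D := Dd_cont b I sd cn β
  have p1 : ∀ θ, 0 < D θ := Dd_pos b I sd cn β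
  set f1 : Ginf → ℝ := fun θ => psi d (T θ) with hf1
  set f2 : Ginf → ℝ := fun θ => psi d (T θ - mq) with hf2
  have cf1 : Continuous f1 := (psi_cont d).comp hT1
  have cf2 : Continuous f2 := (psi_cont d).comp (hT1.sub continuous_const)
  have s1 : Continuous (fun θ => Real.sqrt (D θ)) := Real.continuous_sqrt.comp c1
  have g1 : Continuous (fun θ => Real.sqrt (f1 θ)) := Real.continuous_sqrt.comp cf1
  have g2 : Continuous (fun θ => Real.sqrt (D θ) * Real.sqrt (f2 θ)) :=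
    s1.mul (Real.continuous_sqrt.comp cf2)
  have k1 : Continuous (fun θ => Real.sqrt (f1 θ) * Real.sqrt (D θ)) := g1.mul s1
  have k2 : Continuous (fun θ => (Real.sqrt (D θ) * Real.sqrt (f2 θ)) * 1) :=
    g2.mul continuous_const
  have hstep : Ev b L 0 (fun θ => Real.sqrt (D θ)) ≤
      Ev b L 0 (fun θ => Real.sqrt (f1 θ) * Real.sqrt (D θ) +
        (Real.sqrt (D θ) * Real.sqrt (f2 θ)) * 1) := by
    refine Ev_mono s1 (k1.add k2) fun θ => ?_
    have hc := psi_cover (u := 0) (v := mq) hd (by rw [zero_sub, abs_neg]; exact hm) (T θ)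
    have h0 : 0 ≤ Real.sqrt (D θ) := by positivity
    have := mul_le_mul_of_nonneg_left hc h0
    simp only [hf1, hf2, sub_zero] at this ⊢
    linarith only [this]
  refine hstep.trans ?_
  rw [Ev_add k1 k2]
  refine add_le_add ?_ ?_
  · refine (Ev_cs_sqrt g1 s1).trans ?_
    have e1 : (fun θ => Real.sqrt (f1 θ) ^ 2) = fun θ => f1 θ := by
      ext θ
      rw [Real.sq_sqrt (psi_nonneg _ _)]
    have e2 : (fun θ => Real.sqrt (D θ) ^ 2) = fun θ => D θ := by
      ext θ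
      rw [Real.sq_sqrt (p1 θ).le]
    rw [e1, e2, hD, til_one hT hβ, Real.sqrt_one, mul_one]
  · refine (Ev_cs_sqrt g2 (continuous_const (y := (1 : ℝ)))).trans ?_
    have e1 : (fun θ => (Real.sqrt (D θ) * Real.sqrt (f2 θ)) ^ 2) = fun θ => D θ * f2 θ := by
      ext θ
      rw [mul_pow, Real.sq_sqrt (p1 θ).le, Real.sq_sqrt (psi_nonneg _ _)]
    have e2 : (fun _ : Ginf => (1 : ℝ) ^ 2) = fun _ => 1 := by
      ext θ
      rw [one_pow]
    rw [e1, e2, Ev_zero_const, Real.sqrt_one, mul_one]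
    rw [hD, til_change hT hβ cf2 (fun κ hκ x y => by simp only [hf2, hT2 κ hκ x y])]

end

end Vale.Agent.P159.UJ.H733
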