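import Vale.Agent.P159.H733.Pt3

/-!
P159 / START of V (contract H316/St1), part 2 (helper733): the order of constants, `Part2a`.
-/

set_option linter.unusedSectionVars false

namespace Vale.Agent.P159.H733.Pt

open Filter Topology
open Vale.Agent.P159.H972 (Par lg)
open Vale.Agent.P159.H801 (Ev PS)
open Vale.Agent.P159.H640 (sm_rpow)
open Vale.Agent.P159.H316

noncomputable section

/-- a window is long -/
lemma w_long {P : Par} {e K : ℝ} (e0 : 0 < e) (hK : 0 ≤ K) (h : e ≤ Real.exp (-(K / P.thp))) :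
    K ≤ P.w e := by
  have hT := P.thp0
  have h1 : P.thp * Real.logb 2 (1 / e) ≤ P.w e := by
    unfold H972.Par.w lg
    exact Nat.le_ceil _
  have h2 : Real.logb 2 (1 / e) * Real.log 2 = Real.log (1 / e) := by
    rw [Real.logb, div_mul_cancel₀ _ (Real.log_pos one_lt_two).ne']
  have h3 := mul_le_mul_of_nonneg_right h1 (Real.log_pos one_lt_two).le
  rw [mul_assoc, h2] at h3
  have h4 : K / P.thp ≤ Real.log (1 / e) := by
    rw [one_div, Real.log_inv]
    have := (Real.log_le_iff_le_exp e0).2 h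
    linarith
  have h5 : K ≤ P.thp * Real.log (1 / e) := by
    have h6 := mul_le_mul_of_nonneg_left h4 hT.le
    rwa [mul_div_cancel₀ _ hT.ne'] at h6
  have hl2 := Real.log_two_lt_d9
  have h7 : (P.w e : ℝ) * Real.log 2 ≤ P.w e * 1 :=
    mul_le_mul_of_nonneg_left (by linarith) (Nat.cast_nonneg _)
  linarith

/-- a window is logarithmic -/
lemma w_short {P : Par} {e c1 : ℝ} (e0 : 0 < e) (he1 : e ≤ 1) (hc : 0 < c1)
    (h : (3 + 4 * P.thp / c1) * e ^ (c1 / 2) ≤ 2 ^ c1 - 1) :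
    2 + (P.w e : ℝ) ≤ (2 ^ c1 - 1) * e ^ (-c1) := by
  have hT := P.thp0
  have hl2 := Real.log_two_gt_d9
  have hw := w_logu (P := P) e0 he1
  have hL : Real.log (1 / e) ≤ e ^ (-(c1 / 2)) / (c1 / 2) := by
    have h1 := Real.log_le_rpow_div (x := 1 / e) (by positivity) (show 0 < c1 / 2 by positivity)
    rwa [one_div, Real.inv_rpow e0.le, ← Real.rpow_neg e0.le, ← one_div] at h1
  have hL' : Real.log (1 / e) = -Real.log e := by rw [one_div, Real.log_inv]
  have hL0 : 0 ≤ Real.log (1 / e) := by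
    rw [hL']
    have := Real.log_nonpos e0.le he1
    linarith
  have hp1 : 1 ≤ e ^ (-(c1 / 2)) :=
    Real.one_le_rpow_of_pos_of_le_one_of_nonpos e0 he1 (by linarith)
  have hw2 : (P.w e : ℝ) ≤ 1 + 2 * (P.thp * Real.log (1 / e)) := by
    have h0 : 0 ≤ P.thp * Real.log (1 / e) := mul_nonneg hT.le hL0
    have h2 : (P.w e : ℝ) * Real.log 2 ≤ (1 + 2 * (P.thp * Real.log (1 / e))) * Real.log 2 := by
      have h3 : P.thp * Real.log (1 / e) * (1 / 2) ≤ P.thp * Real.log (1 / e) * Real.log 2 :=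
        mul_le_mul_of_nonneg_left (by linarith) h0
      have h4 : P.thp * Real.log (1 / e) = -(P.thp * Real.log e) := by rw [hL']; ring
      nlinarith
    exact le_of_mul_le_mul_right h2 (by linarith)
  have hM : 2 + (P.w e : ℝ) ≤ (3 + 4 * P.thp / c1) * e ^ (-(c1 / 2)) := by
    have h2 := mul_le_mul_of_nonneg_left hL (show 0 ≤ 2 * P.thp by positivity)
    have h3 : 2 * P.thp * (e ^ (-(c1 / 2)) / (c1 / 2)) = 4 * P.thp / c1 * e ^ (-(c1 / 2)) := by
      field_simp
      ring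
    rw [h3] at h2
    linarith
  refine hM.trans ?_
  have h4 := mul_le_mul_of_nonneg_right h (Real.rpow_nonneg e0.le (-c1))
  refine le_trans (le_of_eq ?_) h4
  rw [mul_assoc, ← Real.rpow_add e0]
  congr 2
  ring

/-- **the numbers in the order of constants** -/
theorem nu_ev (b1 b2 pf : ℝ) (Q : ℕ) (K : ℝ) :
    Ev b1 b2 pf Q fun P c1 => ∀ C1, 24 ≤ C1 → C1 ≤ K * P.C0 → Nu P c1 C1 := by
  have hQ : (0 : ℝ) < Q + 3 := by positivity
  refine Ev.of ⟨0, fun W _ => ⟨1, one_pos, fun ys _ _ => ⟨0, fun X0 _ => ⟨1 / 100000, by norm_num,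
    fun x1 hx1 hx1' => ⟨min (min (1 / 1000) (x1 / 2)) (1 / (100000 * (Q + 3))), by positivity,
    fun thp hthp hthp' => ⟨1 / 40000, by norm_num, fun th hth hth' => ⟨0, fun C0 _ => ⟨1, one_pos,
    fun c1 hc1 _ => ?_⟩⟩⟩⟩⟩⟩⟩⟩
  have t1 : thp ≤ 1 / 1000 := hthp'.trans ((min_le_left _ _).trans (min_le_left _ _))
  have t2 : thp ≤ x1 / 2 := hthp'.trans ((min_le_left _ _).trans (min_le_right _ _))
  have t3 : (Q + 3) * thp ≤ 1 / 100000 := by
    have h2 := mul_le_mul_of_nonneg_left (hthp'.trans (min_le_right _ _)) hQ.le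
    have h3 : ((Q : ℝ) + 3) * (1 / (100000 * (Q + 3))) = 1 / 100000 := by field_simp
    linarith
  have h2c : 0 < (2 : ℝ) ^ c1 - 1 := by
    have := Real.one_lt_rpow (x := (2 : ℝ)) (by norm_num) hc1
    linarith
  obtain ⟨E1, hE1, f1⟩ := sm_rpow (s := thp / 10 ^ 8) (A := 10 ^ 6) (B := 1) (by positivity) one_pos
  obtain ⟨E2, hE2, f2⟩ := sm_rpow (s := c1 / 2) (A := 3 + 4 * thp / c1) (B := 2 ^ c1 - 1)
    (by positivity) h2c
  refine ⟨min (min E1 E2) (Real.exp (-(|40 * (K * C0)| / thp))), by positivity, fun P hP => ?_⟩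
  have e1 := hP.ees.trans ((min_le_left _ _).trans (min_le_left _ _))
  have e2 := hP.ees.trans ((min_le_left _ _).trans (min_le_right _ _))
  have e3 := hP.ees.trans (min_le_right _ _)
  intro C1 hC hK
  rw [hP.eC0] at hK
  refine ⟨by rw [hP.ethp]; exact t1, ?_, hc1, hC, by rw [hP.eth]; linarith, ?_, ?_, ?_, ?_, ?_⟩
  · have h1 := hP.rho hx1 hthp
    rw [hP.eth, mul_assoc]
    linarith
  · rw [hP.eq0]
    have : 0 < ⌈x1 / thp⌉₊ := Nat.ceil_pos.2 (by positivity)
    omega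
  · rw [hP.ethp, hP.ex1]
    linarith
  · intro e e0 es
    rw [hP.ethp]
    exact f1 e e0 (es.trans e1)
  · intro e e0 es
    have h1 := w_long (P := P) (K := |40 * (K * C0)|) e0 (abs_nonneg _)
      (by rw [hP.ethp]; exact es.trans e3)
    have h2 := le_abs_self (40 * (K * C0))
    linarith
  · intro e e0 es
    refine w_short (P := P) e0 ?_ hc1 ?_
    · linarith [tt_e1 es]
    · rw [hP.ethp]
      exact f2 e e0 (es.trans e2)

/-- **(P2a) of the contract St1** -/
theorem part2a (b1 b2 pf : ℝ) (Q : ℕ) (K : ℝ) : Part2a b1 b2 pf Q K := by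
  refine (nu_ev b1 b2 pf Q K).mono fun P c1 _ h C1 hC _ hK b a A1 => ?_
  filter_upwards [eventually_ge_atTop 4] with N0 hN0 hI
  exact step2_of (h C1 hC hK) hI hN0

end

end Vale.Agent.P159.H733.Pt
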