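import Vale.Agent.P159.H733.TorgA

/-!
P159 / TORG (helper733), part B: periodization, and the extension of the smooth part
(Cameron Martin norm of the plane waves cut to a window).
-/

set_option linter.unusedSectionVars false

namespace Vale.Agent.P159.H733.Torg

open Finset Matrix
open Vale.Agent.P159.TM.H764 (cN sN dt EE)
open Vale.Agent.P159.TM.Spec (V)
open Vale.Agent.P159.H864 (TI sym mlt fc)
open Vale.Agent.P159.H462 (Dom)
open Vale.Agent.P159.TM.H459 (sn)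

noncomputable section

variable {N N2 : ℕ} [NeZero N] [NeZero N2]

/-! ### projection and periodization -/

/-- the projection of the large torus on the small one -/
def prj (h : N ∣ N2) : V N2 →+* V N :=
  RingHom.prodMap (ZMod.castHom h (ZMod N)) (ZMod.castHom h (ZMod N))

lemma prj_apply (h : N ∣ N2) (z : V N2) :
    prj h z = (ZMod.castHom h (ZMod N) z.1, ZMod.castHom h (ZMod N) z.2) := rfl

/-- an integer point -/
def ip (N : ℕ) (ζ : ℤ × ℤ) : V N := ((ζ.1 : ZMod N), (ζ.2 : ZMod N))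

lemma prj_ip (h : N ∣ N2) (ζ : ℤ × ℤ) : prj h (ip N2 ζ) = ip N ζ := by
  rw [prj_apply]
  unfold ip
  simp

lemma ip_sub (N : ℕ) (ζ ζ' : ℤ × ℤ) : ip N (ζ - ζ') = ip N ζ - ip N ζ' := by
  unfold ip
  simp

lemma ip_neg (N : ℕ) (ζ : ℤ × ℤ) : ip N (-ζ) = -ip N ζ := by
  unfold ip
  simp

lemma ip_zero (N : ℕ) : ip N 0 = 0 := by
  unfold ip
  simp

lemma sn_ip_le {ζ : ℤ × ℤ} {D : ℕ} (h1 : ζ.1.natAbs ≤ D) (h2 : ζ.2.natAbs ≤ D) :
    sn (ip N ζ) ≤ D := by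
  rw [sn_eq]
  exact max_le ((av_le_of_cast rfl).trans h1) ((av_le_of_cast rfl).trans h2)

/-- the small torus kernel is the periodization of the large one -/
def Per (h : N ∣ N2) (A : Matrix (V N) (V N) ℝ) (A2 : Matrix (V N2) (V N2) ℝ) : Prop :=
  ∀ g : V N → ℝ, (A2 *ᵥ fun x => g (prj h x)) = fun x => (A *ᵥ g) (prj h x)

section per

variable {h : N ∣ N2} {A B : Matrix (V N) (V N) ℝ} {A2 B2 : Matrix (V N2) (V N2) ℝ}

lemma Per.one : Per h (1 : Matrix (V N) (V N) ℝ) (1 : Matrix (V N2) (V N2) ℝ) := by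
  intro g
  rw [Matrix.one_mulVec, Matrix.one_mulVec]

lemma Per.mul (hA : Per h A A2) (hB : Per h B B2) : Per h (A * B) (A2 * B2) := by
  intro g
  rw [← Matrix.mulVec_mulVec, hB g, hA (B *ᵥ g), ← Matrix.mulVec_mulVec]

lemma Per.pow (hA : Per h A A2) (m : ℕ) : Per h (A ^ m) (A2 ^ m) := by
  induction m with
  | zero => rw [pow_zero, pow_zero]; exact Per.one
  | succ m ih => rw [pow_succ, pow_succ]; exact ih.mul hA

lemma Per.sub (hA : Per h A A2) (hB : Per h B B2) : Per h (A - B) (A2 - B2) := by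
  intro g
  rw [Matrix.sub_mulVec, Matrix.sub_mulVec, hA g, hB g]
  rfl

lemma Per.add (hA : Per h A A2) (hB : Per h B B2) : Per h (A + B) (A2 + B2) := by
  intro g
  rw [Matrix.add_mulVec, Matrix.add_mulVec, hA g, hB g]
  rfl

lemma Per.smul (c : ℝ) (hA : Per h A A2) : Per h (c • A) (c • A2) := by
  intro g
  rw [Matrix.smul_mulVec, Matrix.smul_mulVec, hA g]
  rfl

lemma Per.ker (hA : Per h A A2) (z : V N) :
    A 0 z = ∑ z2 ∈ univ.filter (fun z2 : V N2 => prj h z2 = z), A2 0 z2 := by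
  have h1 := congrFun (hA (Pi.single z 1)) 0
  simp only [map_zero] at h1
  have h2 : (A *ᵥ Pi.single z 1) 0 = A 0 z := by
    simp
  rw [h2] at h1
  rw [← h1]
  unfold Matrix.mulVec dotProduct
  rw [Finset.sum_filter]
  refine Finset.sum_congr rfl fun z2 _ => ?_
  show A2 0 z2 * (Pi.single z 1 : V N → ℝ) (prj h z2) = _
  rw [Pi.single_apply]
  split_ifs <;> simp

lemma Per.of_ker (hA : TI A) (hA2 : TI A2)
    (hk : ∀ z, A 0 z = ∑ z2 ∈ univ.filter (fun z2 : V N2 => prj h z2 = z), A2 0 z2) :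
    Per h A A2 := by
  intro g
  funext x
  rw [TI_row hA2, TI_row hA, ← Finset.sum_fiberwise univ (fun z2 : V N2 => prj h z2)]
  refine Finset.sum_congr rfl fun z _ => ?_
  rw [hk z, Finset.sum_mul]
  refine Finset.sum_congr rfl fun z2 hz2 => ?_
  rw [map_add, (Finset.mem_filter.1 hz2).2]

/-- sums against functions of the projection -/
lemma Per.sum (hA : Per h A A2) (g : V N → ℝ) :
    ∑ z2, A2 0 z2 * g (prj h z2) = ∑ z, A 0 z * g z := by
  have h1 := congrFun (hA g) 0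
  simp only [map_zero] at h1
  exact h1

end per

lemma far1 (h : N ∣ N2) {a : ZMod N2} {ζ : ℤ} (hζ : 2 * ζ.natAbs ≤ N)
    (h1 : ZMod.castHom h (ZMod N) a = (ζ : ZMod N)) (h2 : a ≠ (ζ : ZMod N2)) :
    N ≤ 2 * av a := by
  unfold av
  set y := a.valMinAbs with hy
  have h3 : ((y : ℤ) : ZMod N2) = a := ZMod.coe_valMinAbs a
  have h4 : ((y : ℤ) : ZMod N) = (ζ : ZMod N) := by
    rw [← h1, ← h3]
    simp
  have h5 : y ≠ ζ := by
    intro h
    exact h2 (by rw [← h3, h])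
  have h6 : (N : ℤ) ∣ ζ - y := (ZMod.intCast_eq_intCast_iff_dvd_sub y ζ N).1 h4
  have h7 : (N : ℤ) ≤ |ζ - y| := by
    refine Int.le_of_dvd (abs_pos.2 (sub_ne_zero.2 (Ne.symm h5))) ?_
    rwa [dvd_abs]
  have h8 : |ζ - y| ≤ |ζ| + |y| := abs_sub _ _
  have h9 : |ζ| = (ζ.natAbs : ℤ) := Int.abs_eq_natAbs ζ
  have h10 : |y| = (y.natAbs : ℤ) := Int.abs_eq_natAbs y
  omega

lemma far (h : N ∣ N2) {ζ : ℤ × ℤ} (h1 : 2 * ζ.1.natAbs ≤ N) (h2 : 2 * ζ.2.natAbs ≤ N)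
    {z : V N2} (hz : prj h z = ip N ζ) (hz2 : z ≠ ip N2 ζ) : N ≤ 2 * sn z := by
  rw [prj_apply] at hz
  unfold ip at hz
  rw [Prod.mk.injEq] at hz
  rw [sn_eq]
  by_cases h3 : z.1 = (ζ.1 : ZMod N2)
  · have h4 : z.2 ≠ (ζ.2 : ZMod N2) := by
      intro h4
      exact hz2 (Prod.ext h3 h4)
    have := far1 h h2 hz.2 h4
    have := le_max_right (av z.1) (av z.2)
    omega
  · have := far1 h h1 hz.1 h3
    have := le_max_left (av z.1) (av z.2)
    omega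

/-- kernels on the two tori at the same integer point differ by a tail -/
lemma ker_diff {h : N ∣ N2} {S : Matrix (V N) (V N) ℝ} {S2 : Matrix (V N2) (V N2) ℝ}
    (hP : Per h S S2) (h0 : ∀ x y, 0 ≤ S2 x y) {ζ : ℤ × ℤ}
    (h1 : 2 * ζ.1.natAbs ≤ N) (h2 : 2 * ζ.2.natAbs ≤ N) :
    0 ≤ S 0 (ip N ζ) - S2 0 (ip N2 ζ) ∧ S 0 (ip N ζ) - S2 0 (ip N2 ζ) ≤
      ∑ z ∈ univ.filter (fun z : V N2 => (N : ℝ) / 2 ≤ sn z), S2 0 z := by
  rw [hP.ker]
  have hmem : ip N2 ζ ∈ univ.filter (fun z2 : V N2 => prj h z2 = ip N ζ) := by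
    rw [Finset.mem_filter]
    exact ⟨mem_univ _, prj_ip h ζ⟩
  rw [← Finset.add_sum_erase _ _ hmem, add_sub_cancel_left]
  constructor
  · exact Finset.sum_nonneg fun z _ => h0 _ _
  · refine Finset.sum_le_sum_of_subset_of_nonneg ?_ fun z _ _ => h0 _ _
    intro z hz
    rw [Finset.mem_erase, Finset.mem_filter] at hz
    rw [Finset.mem_filter]
    refine ⟨mem_univ _, ?_⟩
    have h3 := far h h1 h2 hz.2.2 hz.1
    have h4 : (N : ℝ) ≤ 2 * sn z := by exact_mod_cast h3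
    linarith

/-! ### lifts -/

/-- the point of the torus `N2` with the same small integer coordinates -/
def lf (N2 : ℕ) (x : V N) : V N2 := ip N2 (x.1.valMinAbs, x.2.valMinAbs)

lemma sn_lf (x : V N) : sn (lf N2 x) ≤ sn x :=
  sn_ip_le (le_max_left _ _) (le_max_right _ _)

lemma lf_zero : lf N2 (0 : V N) = 0 := by
  unfold lf
  rw [show ((0 : V N).1.valMinAbs, (0 : V N).2.valMinAbs) = (0 : ℤ × ℤ) by simp]
  exact ip_zero N2

lemma lf_sub1 {a b : ZMod N} {D : ℕ} (ha : av a < 2 * D) (hb : av b < 2 * D) (hD : 8 * D ≤ N) :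
    (a.valMinAbs - b.valMinAbs).natAbs ≤ av (a - b) := by
  unfold av at *
  refine ZMod.natAbs_min_of_le_div_two N _ _ ?_ ?_
  · push_cast
    simp
  · omega

lemma lf_sub {x y : V N} {D : ℕ} (hx : sn x < 2 * D) (hy : sn y < 2 * D) (hD : 8 * D ≤ N) :
    sn (lf N2 x - lf N2 y) ≤ sn (x - y) := by
  rw [sn_eq] at hx hy
  have hx1 := (le_max_left _ _).trans_lt hx
  have hx2 := (le_max_right _ _).trans_lt hx
  have hy1 := (le_max_left _ _).trans_lt hy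
  have hy2 := (le_max_right _ _).trans_lt hy
  have h1 := lf_sub1 hx1 hy1 hD
  have h2 := lf_sub1 hx2 hy2 hD
  unfold lf
  rw [← ip_sub]
  exact sn_ip_le (h1.trans (le_max_left _ _)) (h2.trans (le_max_right _ _))

lemma lf_ip {ζ : ℤ × ℤ} {D : ℕ} (h1 : ζ.1.natAbs ≤ D) (h2 : ζ.2.natAbs ≤ D) (hD : 2 * D < N) :
    lf N2 (ip N ζ) = ip N2 ζ := by
  have key : ∀ a : ℤ, a.natAbs ≤ D → (a : ZMod N).valMinAbs = a := by
    intro a ha
    rw [ZMod.valMinAbs_spec]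
    refine ⟨rfl, ?_⟩
    rw [Set.mem_Ioc]
    omega
  unfold lf
  have e1 : (ip N ζ).1.valMinAbs = ζ.1 := key _ h1
  have e2 : (ip N ζ).2.valMinAbs = ζ.2 := key _ h2
  rw [e1, e2]

/-! ### the cut-off -/

/-- cut-off: `1` on the ball `D`, `0` outside the ball `2 D` -/
def chi (D : ℕ) (x : V N) : ℝ := max 0 (min 1 (2 - (sn x : ℝ) / D))

lemma chi_nonneg (D : ℕ) (x : V N) : 0 ≤ chi D x := le_max_left _ _

lemma chi_le_one (D : ℕ) (x : V N) : chi D x ≤ 1 := by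
  unfold chi
  exact max_le zero_le_one (min_le_left _ _)

lemma chi_out {D : ℕ} (hD : 1 ≤ D) {x : V N} (hx : 2 * D ≤ sn x) : chi D x = 0 := by
  have hD' : (0 : ℝ) < D := by exact_mod_cast hD
  have h1 : (2 : ℝ) * D ≤ sn x := by exact_mod_cast hx
  have h2 : (2 : ℝ) ≤ (sn x : ℝ) / D := by
    rw [le_div_iff₀ hD']
    exact h1
  unfold chi
  rw [max_eq_left]
  exact (min_le_right _ _).trans (by linarith)

lemma chi_in {D : ℕ} (hD : 1 ≤ D) {x : V N} (hx : sn x ≤ D) : chi D x = 1 := by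
  have hD' : (0 : ℝ) < D := by exact_mod_cast hD
  have h1 : (sn x : ℝ) ≤ D := by exact_mod_cast hx
  have h2 : (sn x : ℝ) / D ≤ 1 := by
    rw [div_le_one hD']
    exact h1
  unfold chi
  rw [min_eq_left (by linarith), max_eq_right zero_le_one]

lemma chi_lip {D : ℕ} (hD : 1 ≤ D) (x y : V N) : |chi D x - chi D y| ≤ (sn (x - y) : ℝ) / D := by
  have hD' : (0 : ℝ) < D := by exact_mod_cast hD
  have h1 : sn x ≤ sn (x - y) + sn y := by
    have := TM.H459.sn_add_le (x - y) y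
    rwa [sub_add_cancel] at this
  have h2 : sn y ≤ sn (x - y) + sn x := by
    have := TM.H459.sn_add_le (y - x) x
    rw [sub_add_cancel] at this
    have h3 : sn (y - x) = sn (x - y) := by rw [← neg_sub, TM.H459.sn_neg]
    rwa [h3] at this
  have h1' : (sn x : ℝ) ≤ sn (x - y) + sn y := by exact_mod_cast h1
  have h2' : (sn y : ℝ) ≤ sn (x - y) + sn x := by exact_mod_cast h2
  have h3 : |(sn y : ℝ) / D - (sn x : ℝ) / D| ≤ (sn (x - y) : ℝ) / D := by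
    rw [← sub_div, abs_div, abs_of_pos hD']
    refine div_le_div_of_nonneg_right ?_ hD'.le
    rw [abs_le]
    constructor <;> linarith
  refine le_trans ?_ h3
  unfold chi
  refine (abs_max_sub_max_le_max _ _ _ _).trans ?_
  rw [sub_self, abs_zero, max_eq_right (abs_nonneg _)]
  refine (abs_min_sub_min_le_max _ _ _ _).trans ?_
  rw [sub_self, abs_zero, max_eq_right (abs_nonneg _)]
  rw [show 2 - (sn x : ℝ) / D - (2 - (sn y : ℝ) / D) = (sn y : ℝ) / D - (sn x : ℝ) / D by ring]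

/-! ### cut plane waves -/

/-- `χ (cos(k·x) - 1)` -/
def uc (N2 : ℕ) [NeZero N2] (D : ℕ) (k : V N2) (x : V N) : ℝ :=
  chi D x * (cN (dt k (lf N2 x)) - 1)

/-- `χ sin(k·x)` -/
def us (N2 : ℕ) [NeZero N2] (D : ℕ) (k : V N2) (x : V N) : ℝ :=
  chi D x * sN (dt k (lf N2 x))

lemma cs_diff (a b : ZMod N) : (cN a - cN b) ^ 2 + (sN a - sN b) ^ 2 = 2 * (1 - cN (a - b)) := by
  have h1 := TM.H764.cN_sq_add a
  have h2 := TM.H764.cN_sq_add b
  rw [TM.H764.cN_sub]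
  linear_combination h1 + h2

lemma cs_one (a : ZMod N) : (cN a - 1) ^ 2 + sN a ^ 2 = 2 * (1 - cN a) := by
  have h1 := TM.H764.cN_sq_add a
  linear_combination h1

section ext

variable {w : V N2 → ℝ} {G0 : ℝ} {D : ℕ}

lemma diag_bd (hG : ∀ a : V N2, ∑ k, w k * (2 * (1 - cN (dt k a))) ≤ G0 * (sn a : ℝ) ^ 2)
    (hG0 : 0 ≤ G0) (hD : 1 ≤ D) (x : V N) :
    ∑ k, w k * (uc N2 D k x ^ 2 + us N2 D k x ^ 2) ≤
      chi D x ^ 2 * (G0 * (2 * D) ^ 2) := by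
  have h1 : ∀ k, w k * (uc N2 D k x ^ 2 + us N2 D k x ^ 2) =
      chi D x ^ 2 * (w k * (2 * (1 - cN (dt k (lf N2 x))))) := by
    intro k
    unfold uc us
    rw [mul_pow, mul_pow, ← mul_add, cs_one]
    ring
  simp_rw [h1]
  rw [← Finset.mul_sum]
  rcases lt_or_ge (sn x) (2 * D) with h | h
  · refine mul_le_mul_of_nonneg_left ?_ (sq_nonneg _)
    refine (hG _).trans (mul_le_mul_of_nonneg_left ?_ hG0)
    refine pow_le_pow_left₀ (Nat.cast_nonneg _) ?_ 2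
    exact_mod_cast (sn_lf x).trans h.le
  · rw [chi_out hD h]
    simp

/-- ball indicator -/
def ib (D : ℕ) (x : V N) : ℝ := if sn x < 2 * D then 1 else 0

lemma ib_nonneg (D : ℕ) (x : V N) : 0 ≤ ib D x := by
  unfold ib
  split_ifs <;> norm_num

lemma pair_out (hw : ∀ k, 0 ≤ w k)
    (hG : ∀ a : V N2, ∑ k, w k * (2 * (1 - cN (dt k a))) ≤ G0 * (sn a : ℝ) ^ 2)
    (hG0 : 0 ≤ G0) (hD : 1 ≤ D) {x y : V N} (hy : 2 * D ≤ sn y) :
    ∑ k, w k * ((uc N2 D k x - uc N2 D k y) ^ 2 + (us N2 D k x - us N2 D k y) ^ 2) ≤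
      4 * G0 * (sn (x - y) : ℝ) ^ 2 := by
  have hD' : (0 : ℝ) < D := by exact_mod_cast hD
  have hy0 := chi_out hD hy
  have h1 : ∀ k, uc N2 D k y = 0 := fun k => by unfold uc; rw [hy0, zero_mul]
  have h2 : ∀ k, us N2 D k y = 0 := fun k => by unfold us; rw [hy0, zero_mul]
  simp_rw [h1, h2, sub_zero]
  refine (diag_bd hG hG0 hD x).trans ?_
  have h3 : chi D x ≤ (sn (x - y) : ℝ) / D := by
    have := chi_lip hD x y
    rw [hy0, sub_zero, abs_of_nonneg (chi_nonneg D x)] at this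
    exact this
  have h4 := pow_le_pow_left₀ (chi_nonneg D x) h3 2
  calc chi D x ^ 2 * (G0 * (2 * (D : ℝ)) ^ 2)
      ≤ ((sn (x - y) : ℝ) / D) ^ 2 * (G0 * (2 * (D : ℝ)) ^ 2) :=
        mul_le_mul_of_nonneg_right h4 (by positivity)
    _ = 4 * G0 * (sn (x - y) : ℝ) ^ 2 := by
        field_simp
        ring

lemma pair_in (hw : ∀ k, 0 ≤ w k)
    (hG : ∀ a : V N2, ∑ k, w k * (2 * (1 - cN (dt k a))) ≤ G0 * (sn a : ℝ) ^ 2)
    (hG0 : 0 ≤ G0) (hD : 1 ≤ D) (hDN : 8 * D ≤ N) {x y : V N} (hx : sn x < 2 * D)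
    (hy : sn y < 2 * D) :
    ∑ k, w k * ((uc N2 D k x - uc N2 D k y) ^ 2 + (us N2 D k x - us N2 D k y) ^ 2) ≤
      10 * G0 * (sn (x - y) : ℝ) ^ 2 := by
  have hD' : (0 : ℝ) < D := by exact_mod_cast hD
  set X := lf N2 x with hX
  set Y := lf N2 y with hY
  have h1 : ∀ k, w k * ((uc N2 D k x - uc N2 D k y) ^ 2 + (us N2 D k x - us N2 D k y) ^ 2) ≤
      2 * (w k * (2 * (1 - cN (dt k (X - Y))))) +
      2 * ((sn (x - y) : ℝ) / D) ^ 2 * (w k * (2 * (1 - cN (dt k Y)))) := by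
    intro k
    unfold uc us
    rw [← hX, ← hY]
    set a := chi D x with ha
    set b := chi D y with hb
    have g1 := cs_diff (dt k X) (dt k Y)
    rw [← TM.H764.dt_sub] at g1
    have g2 := cs_one (dt k Y)
    rw [← g1, ← g2]
    set p := cN (dt k X)
    set q := cN (dt k Y)
    set r := sN (dt k X)
    set s := sN (dt k Y)
    have ha0 : 0 ≤ a := chi_nonneg D x
    have ha1 : a ≤ 1 := chi_le_one D x
    have hab : (a - b) ^ 2 ≤ ((sn (x - y) : ℝ) / D) ^ 2 := by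
      rw [← sq_abs (a - b)]
      exact pow_le_pow_left₀ (abs_nonneg _) (chi_lip hD x y) 2
    have k1 : (a * (p - 1) - b * (q - 1)) ^ 2 ≤ 2 * (p - q) ^ 2 +
        2 * ((sn (x - y) : ℝ) / D) ^ 2 * (q - 1) ^ 2 := by
      have e : a * (p - 1) - b * (q - 1) = a * (p - q) + (a - b) * (q - 1) := by ring
      rw [e]
      have e2 : (a * (p - q) + (a - b) * (q - 1)) ^ 2 ≤ 2 * (a * (p - q)) ^ 2 +
          2 * ((a - b) * (q - 1)) ^ 2 := by
        nlinarith [sq_nonneg (a * (p - q) - (a - b) * (q - 1))]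
      have e3 : (a * (p - q)) ^ 2 ≤ (p - q) ^ 2 := by
        rw [mul_pow]
        exact mul_le_of_le_one_left (sq_nonneg _) (pow_le_one₀ ha0 ha1)
      have e4 : ((a - b) * (q - 1)) ^ 2 ≤ ((sn (x - y) : ℝ) / D) ^ 2 * (q - 1) ^ 2 := by
        rw [mul_pow]
        exact mul_le_mul_of_nonneg_right hab (sq_nonneg _)
      linarith
    have k2 : (a * r - b * s) ^ 2 ≤ 2 * (r - s) ^ 2 +
        2 * ((sn (x - y) : ℝ) / D) ^ 2 * s ^ 2 := by
      have e : a * r - b * s = a * (r - s) + (a - b) * s := by ring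
      rw [e]
      have e2 : (a * (r - s) + (a - b) * s) ^ 2 ≤ 2 * (a * (r - s)) ^ 2 +
          2 * ((a - b) * s) ^ 2 := by
        nlinarith [sq_nonneg (a * (r - s) - (a - b) * s)]
      have e3 : (a * (r - s)) ^ 2 ≤ (r - s) ^ 2 := by
        rw [mul_pow]
        exact mul_le_of_le_one_left (sq_nonneg _) (pow_le_one₀ ha0 ha1)
      have e4 : ((a - b) * s) ^ 2 ≤ ((sn (x - y) : ℝ) / D) ^ 2 * s ^ 2 := by
        rw [mul_pow]
        exact mul_le_mul_of_nonneg_right hab (sq_nonneg _)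
      linarith
    have k3 := mul_le_mul_of_nonneg_left (add_le_add k1 k2) (hw k)
    refine k3.trans (le_of_eq ?_)
    ring
  refine (Finset.sum_le_sum fun k _ => h1 k).trans ?_
  rw [Finset.sum_add_distrib, ← Finset.mul_sum, ← Finset.mul_sum]
  have h2 : (sn (X - Y) : ℝ) ≤ sn (x - y) := by exact_mod_cast lf_sub hx hy hDN
  have h3 : (sn Y : ℝ) ≤ 2 * D := by exact_mod_cast (sn_lf y).trans hy.le
  have h4 := hG (X - Y)
  have h5 := hG Y
  have h6 : G0 * (sn (X - Y) : ℝ) ^ 2 ≤ G0 * (sn (x - y) : ℝ) ^ 2 :=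
    mul_le_mul_of_nonneg_left (pow_le_pow_left₀ (Nat.cast_nonneg _) h2 2) hG0
  have h7 : G0 * (sn Y : ℝ) ^ 2 ≤ G0 * (2 * (D : ℝ)) ^ 2 :=
    mul_le_mul_of_nonneg_left (pow_le_pow_left₀ (Nat.cast_nonneg _) h3 2) hG0
  have h8 : 2 * ((sn (x - y) : ℝ) / D) ^ 2 * ∑ k, w k * (2 * (1 - cN (dt k Y))) ≤
      2 * ((sn (x - y) : ℝ) / D) ^ 2 * (G0 * (2 * (D : ℝ)) ^ 2) :=
    mul_le_mul_of_nonneg_left (h5.trans h7) (by positivity)
  have h9 : 2 * ((sn (x - y) : ℝ) / D) ^ 2 * (G0 * (2 * (D : ℝ)) ^ 2) =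
      8 * G0 * (sn (x - y) : ℝ) ^ 2 := by
    field_simp
    ring
  linarith

lemma pair_bd (hw : ∀ k, 0 ≤ w k)
    (hG : ∀ a : V N2, ∑ k, w k * (2 * (1 - cN (dt k a))) ≤ G0 * (sn a : ℝ) ^ 2)
    (hG0 : 0 ≤ G0) (hD : 1 ≤ D) (hDN : 8 * D ≤ N) (x y : V N) :
    ∑ k, w k * ((uc N2 D k x - uc N2 D k y) ^ 2 + (us N2 D k x - us N2 D k y) ^ 2) ≤
      10 * G0 * (sn (x - y) : ℝ) ^ 2 * (ib D x + ib D y) := by
  have hs : 0 ≤ G0 * (sn (x - y) : ℝ) ^ 2 := by positivity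
  rcases lt_or_ge (sn x) (2 * D) with hx | hx
  · have ix : ib D x = 1 := by unfold ib; rw [if_pos hx]
    rcases lt_or_ge (sn y) (2 * D) with hy | hy
    · have iy : ib D y = 1 := by unfold ib; rw [if_pos hy]
      refine (pair_in hw hG hG0 hD hDN hx hy).trans ?_
      rw [ix, iy]
      linarith
    · have iy : ib D y = 0 := by unfold ib; rw [if_neg (not_lt.2 hy)]
      refine (pair_out hw hG hG0 hD hy).trans ?_
      rw [ix, iy]
      linarith
  · have ix : ib D x = 0 := by unfold ib; rw [if_neg (not_lt.2 hx)]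
    rcases lt_or_ge (sn y) (2 * D) with hy | hy
    · have iy : ib D y = 1 := by unfold ib; rw [if_pos hy]
      have h1 := pair_out (x := y) hw hG hG0 hD hx
      have h2 : sn (y - x) = sn (x - y) := by rw [← neg_sub, TM.H459.sn_neg]
      rw [h2] at h1
      have h3 : ∀ k, w k * ((uc N2 D k x - uc N2 D k y) ^ 2 + (us N2 D k x - us N2 D k y) ^ 2) =
          w k * ((uc N2 D k y - uc N2 D k x) ^ 2 + (us N2 D k y - us N2 D k x) ^ 2) := by
        intro k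
        ring
      simp_rw [h3]
      refine h1.trans ?_
      rw [ix, iy]
      linarith
    · have iy : ib D y = 0 := by unfold ib; rw [if_neg (not_lt.2 hy)]
      have h1 : ∀ k, w k * ((uc N2 D k x - uc N2 D k y) ^ 2 +
          (us N2 D k x - us N2 D k y) ^ 2) = 0 := by
        intro k
        unfold uc us
        rw [chi_out hD hx, chi_out hD hy]
        ring
      simp_rw [h1]
      rw [ix, iy]
      simp

lemma card_ball (hD : 1 ≤ D) : ∑ x : V N, ib D x ≤ 25 * (D : ℝ) ^ 2 := by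
  have hD' : (1 : ℝ) ≤ D := by exact_mod_cast hD
  have h1 : ∑ x : V N, ib D x ≤ ∑ x ∈ H462.box (0 : V N) (2 * D), (1 : ℝ) := by
    unfold ib
    rw [← Finset.sum_filter]
    refine Finset.sum_le_sum_of_subset_of_nonneg ?_ fun _ _ _ => zero_le_one
    intro x hx
    have h2 := (Finset.mem_filter.1 hx).2
    rw [sn_eq] at h2
    rw [H462.mem_box, sub_zero]
    exact ⟨(le_max_left _ _).trans h2.le, (le_max_right _ _).trans h2.le⟩
  rw [Finset.sum_const, nsmul_eq_mul, mul_one] at h1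
  have h2 := H462.card_box (0 : V N) (2 * D)
  push_cast at h2
  nlinarith

/-- Dirichlet form of a walk kernel -/
lemma dir_eq {S : Matrix (V N) (V N) ℝ} (hS : TI S) (h1 : ∀ x, ∑ y, S x y = 1) (u : V N → ℝ) :
    u ⬝ᵥ u - u ⬝ᵥ (S *ᵥ u) = 1 / 2 * ∑ x, ∑ y, S x y * (u x - u y) ^ 2 := by
  have e1 : ∀ x y, S x y * (u x - u y) ^ 2 =
      S x y * u x ^ 2 + S x y * u y ^ 2 - 2 * (u x * (S x y * u y)) := by
    intro x y
    ring
  simp_rw [e1, Finset.sum_sub_distrib, Finset.sum_add_distrib]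
  have e2 : ∑ x, ∑ y, S x y * u x ^ 2 = u ⬝ᵥ u := by
    unfold dotProduct
    refine Finset.sum_congr rfl fun x _ => ?_
    rw [← Finset.sum_mul, h1]
    ring
  have e3 : ∑ x, ∑ y, S x y * u y ^ 2 = u ⬝ᵥ u := by
    rw [Finset.sum_comm, ← e2]
    refine Finset.sum_congr rfl fun x _ => Finset.sum_congr rfl fun y _ => ?_
    rw [hS.sy]
  have e4 : ∑ x, ∑ y, 2 * (u x * (S x y * u y)) = 2 * (u ⬝ᵥ (S *ᵥ u)) := by
    unfold Matrix.mulVec dotProduct
    rw [Finset.mul_sum]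
    refine Finset.sum_congr rfl fun x _ => ?_
    rw [Finset.mul_sum, Finset.mul_sum]
  rw [e2, e3, e4]
  ring

lemma energy_bd {S : Matrix (V N) (V N) ℝ} (hS : TI S) (h0 : ∀ x y, 0 ≤ S x y)
    (h1 : ∀ x, ∑ y, S x y = 1) {M2 : ℝ} (hM2 : ∑ z, S 0 z * (sn z : ℝ) ^ 2 ≤ M2)
    (hw : ∀ k, 0 ≤ w k)
    (hG : ∀ a : V N2, ∑ k, w k * (2 * (1 - cN (dt k a))) ≤ G0 * (sn a : ℝ) ^ 2)
    (hG0 : 0 ≤ G0) (hD : 1 ≤ D) (hDN : 8 * D ≤ N) :
    ∑ k, w k * (((uc N2 D k : V N → ℝ) ⬝ᵥ uc N2 D k - uc N2 D k ⬝ᵥ (S *ᵥ uc N2 D k)) +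
      ((us N2 D k : V N → ℝ) ⬝ᵥ us N2 D k - us N2 D k ⬝ᵥ (S *ᵥ us N2 D k))) ≤
      250 * G0 * (D : ℝ) ^ 2 * M2 := by
  have e1 : ∑ k, w k * (((uc N2 D k : V N → ℝ) ⬝ᵥ uc N2 D k - uc N2 D k ⬝ᵥ (S *ᵥ uc N2 D k)) +
      ((us N2 D k : V N → ℝ) ⬝ᵥ us N2 D k - us N2 D k ⬝ᵥ (S *ᵥ us N2 D k))) =
      1 / 2 * ∑ x : V N, ∑ y : V N, S x y *
        ∑ k, w k * ((uc N2 D k x - uc N2 D k y) ^ 2 + (us N2 D k x - us N2 D k y) ^ 2) := by
    simp_rw [dir_eq hS h1, Finset.mul_sum]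
    have e2 : ∀ k : V N2, w k * (∑ x : V N, ∑ y : V N, 1 / 2 * (S x y *
        (uc N2 D k x - uc N2 D k y) ^ 2) + ∑ x : V N, ∑ y : V N, 1 / 2 * (S x y *
        (us N2 D k x - us N2 D k y) ^ 2)) = ∑ x : V N, ∑ y : V N, 1 / 2 * (S x y * (w k *
          ((uc N2 D k x - uc N2 D k y) ^ 2 + (us N2 D k x - us N2 D k y) ^ 2))) := by
      intro k
      rw [← Finset.sum_add_distrib, Finset.mul_sum]
      refine Finset.sum_congr rfl fun x _ => ?_
      rw [← Finset.sum_add_distrib, Finset.mul_sum]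
      refine Finset.sum_congr rfl fun y _ => ?_
      ring
    simp_rw [e2]
    rw [Finset.sum_comm]
    refine Finset.sum_congr rfl fun x _ => ?_
    rw [Finset.sum_comm]
  rw [e1]
  have e3 : ∀ x y : V N, S x y * ∑ k, w k * ((uc N2 D k x - uc N2 D k y) ^ 2 +
      (us N2 D k x - us N2 D k y) ^ 2) ≤
      10 * G0 * (ib D x * (S x y * (sn (x - y) : ℝ) ^ 2)) +
      10 * G0 * (ib D y * (S x y * (sn (x - y) : ℝ) ^ 2)) := by
    intro x y
    refine (mul_le_mul_of_nonneg_left (pair_bd hw hG hG0 hD hDN x y) (h0 x y)).trans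
      (le_of_eq ?_)
    ring
  have e4 : ∑ x : V N, ∑ y : V N, S x y *
      ∑ k, w k * ((uc N2 D k x - uc N2 D k y) ^ 2 + (us N2 D k x - us N2 D k y) ^ 2) ≤
      ∑ x : V N, ∑ y : V N, (10 * G0 * (ib D x * (S x y * (sn (x - y) : ℝ) ^ 2)) +
      10 * G0 * (ib D y * (S x y * (sn (x - y) : ℝ) ^ 2))) :=
    Finset.sum_le_sum fun x _ => Finset.sum_le_sum fun y _ => e3 x y
  have e5 : ∀ x : V N, ∑ y, S x y * (sn (x - y) : ℝ) ^ 2 = ∑ z, S 0 z * (sn z : ℝ) ^ 2 := by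
    intro x
    rw [← Equiv.sum_comp (Equiv.addLeft x)]
    refine Finset.sum_congr rfl fun z _ => ?_
    simp only [Equiv.coe_addLeft]
    rw [hS.eq, add_sub_cancel_left, sub_add_cancel_left, TM.H459.sn_neg]
  have e6 : ∑ x : V N, ∑ y : V N, 10 * G0 * (ib D x * (S x y * (sn (x - y) : ℝ) ^ 2)) =
      10 * G0 * ((∑ x : V N, ib D x) * ∑ z, S 0 z * (sn z : ℝ) ^ 2) := by
    rw [Finset.sum_mul, Finset.mul_sum]
    refine Finset.sum_congr rfl fun x _ => ?_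
    rw [← e5 x, Finset.mul_sum, Finset.mul_sum]
  have e7 : ∑ x : V N, ∑ y : V N, 10 * G0 * (ib D y * (S x y * (sn (x - y) : ℝ) ^ 2)) =
      10 * G0 * ((∑ x : V N, ib D x) * ∑ z, S 0 z * (sn z : ℝ) ^ 2) := by
    rw [← e6, Finset.sum_comm]
    refine Finset.sum_congr rfl fun x _ => Finset.sum_congr rfl fun y _ => ?_
    rw [hS.sy, ← neg_sub x y, TM.H459.sn_neg]
  simp_rw [Finset.sum_add_distrib] at e4
  rw [e6, e7] at e4
  have e8 : (∑ x : V N, ib D x) * ∑ z, S 0 z * (sn z : ℝ) ^ 2 ≤ 25 * (D : ℝ) ^ 2 * M2 := by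
    refine mul_le_mul (card_ball hD) hM2 ?_ (by positivity)
    exact Finset.sum_nonneg fun z _ => mul_nonneg (h0 _ _) (sq_nonneg _)
  nlinarith

lemma mass_bd (hG : ∀ a : V N2, ∑ k, w k * (2 * (1 - cN (dt k a))) ≤ G0 * (sn a : ℝ) ^ 2)
    (hG0 : 0 ≤ G0) (hD : 1 ≤ D) :
    ∑ k, w k * ((uc N2 D k : V N → ℝ) ⬝ᵥ uc N2 D k + (us N2 D k : V N → ℝ) ⬝ᵥ us N2 D k) ≤
      100 * G0 * (D : ℝ) ^ 4 := by
  have e1 : ∑ k, w k * ((uc N2 D k : V N → ℝ) ⬝ᵥ uc N2 D k +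
      (us N2 D k : V N → ℝ) ⬝ᵥ us N2 D k) =
      ∑ x : V N, ∑ k, w k * (uc N2 D k x ^ 2 + us N2 D k x ^ 2) := by
    rw [Finset.sum_comm]
    refine Finset.sum_congr rfl fun k _ => ?_
    unfold dotProduct
    rw [← Finset.sum_add_distrib, Finset.mul_sum]
    refine Finset.sum_congr rfl fun x _ => ?_
    ring
  rw [e1]
  have e2 : ∀ x : V N, ∑ k, w k * (uc N2 D k x ^ 2 + us N2 D k x ^ 2) ≤
      ib D x * (G0 * (2 * D) ^ 2) := by
    intro x
    refine (diag_bd hG hG0 hD x).trans ?_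
    refine mul_le_mul_of_nonneg_right ?_ (by positivity)
    unfold ib
    split_ifs with h
    · exact pow_le_one₀ (chi_nonneg D x) (chi_le_one D x)
    · rw [chi_out hD (not_lt.1 h)]
      simp
  refine (Finset.sum_le_sum fun x _ => e2 x).trans ?_
  rw [← Finset.sum_mul]
  have e3 := mul_le_mul_of_nonneg_right (card_ball (N := N) hD)
    (show 0 ≤ G0 * (2 * (D : ℝ)) ^ 2 by positivity)
  refine e3.trans (le_of_eq ?_)
  ring

end ext

end

end Vale.Agent.P159.H733.Torg
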