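import Vale.Agent.P159.H733.Vt2

/-!
P159 / VTOR instance (helper733), part 3: local approximants carried by the same functional through
a window on another torus; the deviation of the densities on another torus.
-/

set_option linter.unusedSectionVars false

namespace Vale.Agent.P159.H733.Vt

open MeasureTheory ProbabilityTheory Finset Matrix
open Vale.Agent.P159.TM.Spec (V)
open Vale.Agent.P159.H37 (gau qf)
open Vale.Agent.P159.H363
open Vale.Agent.P159.H864 (TI sym fc mlt)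
open Vale.Agent.P159.H462 (Dom ahat Gam ti_ahat ti_Gam sym_ahat)
open Vale.Agent.P159.H889
open Vale.Agent.P159.H733.Torg (ip ip_sub ip_neg ip_zero Cv)
open scoped Real

noncomputable section

variable {N N1 N2 : ℕ} [NeZero N] [NeZero N1] [NeZero N2]

/-! ### the oscillation in the typical norm -/

lemma memLp_osc (A : Matrix (V N2) (V N2) ℝ) (D : ℕ) (x : V N2) :
    MemLp (fun a : V N2 → ℝ => ((osc D x (pin A *ᵥ a) : ℝ) : ℂ)) 2 (gau (V N2)) := by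
  have e : (fun a : V N2 → ℝ => ((osc D x (pin A *ᵥ a) : ℝ) : ℂ))
      = fun a => ∑ ζ ∈ zb D, ((|(pin A *ᵥ a) (x + ip N2 ζ) - (pin A *ᵥ a) x| : ℝ) : ℂ) := by
    funext a
    unfold osc
    push_cast
    rfl
  rw [e]
  exact memLp_sum _ fun ζ _ => memLp_abs_dev (pin A) (x + ip N2 ζ) x

lemma n2_osc (A : Matrix (V N2) (V N2) ℝ) (D : ℕ) (x : V N2) :
    n2 (gau (V N2)) (fun a => ((osc D x (pin A *ᵥ a) : ℝ) : ℂ))
      ≤ (2 * D + 1) ^ 2 * (2 * H889.sg A) := by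
  have e : ∀ a : V N2 → ℝ, ((osc D x (pin A *ᵥ a) : ℝ) : ℂ)
      = ∑ ζ ∈ zb D, ((|(pin A *ᵥ a) (x + ip N2 ζ) - (pin A *ᵥ a) x| : ℝ) : ℂ) := by
    intro a
    unfold osc
    push_cast
    rfl
  rw [n2_congr e]
  refine (n2_sum_le (zb D) fun ζ _ => memLp_abs_dev (pin A) (x + ip N2 ζ) x).trans ?_
  refine (Finset.sum_le_sum fun ζ _ => n2_dev (pin A) (sg_nonneg A) (sg_row A) (x + ip N2 ζ)
    x).trans (le_of_eq ?_)
  rw [Finset.sum_const, nsmul_eq_mul, card_zb]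

/-- a function bounded by a constant and the oscillation -/
lemma tn2_le_osc {A : Matrix (V N2) (V N2) ℝ} {D : ℕ} {x : V N2} {u : (V N2 → ℝ) → ℂ} {a b : ℝ}
    (ha : 0 ≤ a) (hb : 0 ≤ b) (h : ∀ F, ‖u F‖ ≤ a + b * osc D x F) :
    tn2 A u ≤ a + b * ((2 * D + 1) ^ 2 * (2 * H889.sg A)) := by
  unfold tn2
  have m0 : MemLp (fun _ : V N2 → ℝ => (a : ℂ)) 2 (gau (V N2)) := memLp_const _
  have m1 : MemLp (fun g : V N2 → ℝ => (b : ℂ) * ((osc D x (pin A *ᵥ g) : ℝ) : ℂ)) 2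
    (gau (V N2)) := (memLp_osc A D x).const_mul _
  have h1 : n2 (gau (V N2)) (fun g => u (pin A *ᵥ g)) ≤ n2 (gau (V N2)) (fun g =>
      (a : ℂ) + (b : ℂ) * ((osc D x (pin A *ᵥ g) : ℝ) : ℂ)) := by
    refine n2_mono (m0.add m1) fun g => (h _).trans (le_of_eq ?_)
    have h2 := osc_nonneg D x (pin A *ᵥ g)
    rw [← Complex.ofReal_mul, ← Complex.ofReal_add, Complex.norm_real, Real.norm_eq_abs,
      abs_of_nonneg (by positivity)]
  refine h1.trans ((n2_add_le m0 m1).trans (add_le_add ?_ ?_))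
  · refine n2_le_const m0.aestronglyMeasurable ha fun _ => ?_
    rw [Complex.norm_real, Real.norm_eq_abs, abs_of_nonneg ha]
  · rw [n2_const_mul, Complex.norm_real, Real.norm_eq_abs, abs_of_nonneg hb]
    exact mul_le_mul_of_nonneg_left (n2_osc A D x) hb

/-! ### (VT2) -/

section window

variable {A1 : Matrix (V N1) (V N1) ℝ} {A2 : Matrix (V N2) (V N2) ℝ} {ν c1 c2 s : ℝ}

lemma tn2_zero (A : Matrix (V N) (V N) ℝ) : tn2 A (fun _ => 0) = 0 := by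
  have h := tn2_const_mul (A := A) 0 (fun _ => 0)
  simpa using h

/-- the functional part of `Lcl` -/
lemma Lcl.self {A : Matrix (V N) (V N) ℝ} {D : ℕ} {η Lp : ℝ} {ψ lam : V N → (V N → ℝ) → ℂ}
    (h : Lcl A D η Lp ψ lam) : Lcl A D 0 Lp lam lam := by
  refine ⟨h.m, h.bd, h.ch, h.cov, h.loc, h.lip, fun x => ?_⟩
  simp only [sub_self]
  exact (tn2_zero A).le

/-- **(VT2)**: if the densities on the torus `N2` are close to the local functional `mu` of the torus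
`N1`, then the densities after one window are close to the window of `mu` on the torus `N1` -/
theorem lcl_same (h1 : Dom A1 ν c1) (h2 : Dom A2 ν c2) (hs : 0 < s)
    (o1 : ∀ x y, x ≠ y → A1 x y ≤ 0) (o2 : ∀ x y, x ≠ y → A2 x y ≤ 0) {R0 D0 D1 R : ℕ}
    (hD : R0 + D0 + R ≤ D1) (hN1 : 2 * D1 < N1) (hN2 : 2 * D1 < N2) {e η K Km Lp r : ℝ}
    (he : ∀ ζ ∈ zb (2 * D1), |ahat s A2 0 (ip N2 ζ) - ahat s A1 0 (ip N1 ζ)| ≤ e)
    (hη2 : η ≤ 1 / 2) (hηe : (1 + s * ν) * (2 * D0 + 1) ^ 2 * e ≤ η)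
    {mu : V N1 → (V N1 → ℝ) → ℂ} (hmu : Lcl A1 D0 0 Lp mu mu) (hKm : ∀ x F, ‖mu x F‖ ≤ Km)
    {u2 : V N2 → (V N2 → ℝ) → ℂ} (hm2 : ∀ x, Measurable (u2 x)) (hK : ∀ x F, ‖u2 x F‖ ≤ K)
    (hch2 : ∀ x, Ch (u2 x)) (hS : Lcl A2 D0 r Lp u2 (lft D0 mu)) :
    Lcl (A2 * ahat s A2) D1 (r + tl (ahat s A2) R0 * K
      + Lp * ((2 * ((R0 + D0 : ℕ) : ℝ) + 1) ^ 2 * tl (ahat s A2) R * (2 * H889.sg (A2 * ahat s A2)))
      + (Km * ((2 * R0 + 1) ^ 2 * e) + 4 * η * Km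
        + Lp * e * ((2 * D1 + 1) ^ 2 * (2 * H889.sg (A2 * ahat s A2))))) Lp
      (dn (ahat s A2) (gm s A2) u2) (lft D1 (lamw s A1 R0 D1 mu)) := by
  have hLp := hS.Lp_nonneg
  have hν := h1.hν
  have hKm0 : 0 ≤ Km := (norm_nonneg _).trans (hKm 0 0)
  have he0 : 0 ≤ e := (abs_nonneg _).trans (he 0 (zero_mem_zb _))
  have hη0 : 0 ≤ η := le_trans (by positivity) hηe
  have L1 := lcl_window h1 hs o1 hD hmu.m hKm hmu.ch hmu
  have L2 := lcl_window h2 hs o2 hD hm2 hK hch2 hS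
  refine lcl_lft L1 fun x => ?_
  obtain ⟨Kl, hKl⟩ := L2.bd
  obtain ⟨Kl', hKl'⟩ := L1.bd
  obtain ⟨Kd, hKd⟩ : ∃ Kd : ℝ, ∀ F, ‖dn (ahat s A2) (gm s A2) u2 x F‖ ≤ Kd :=
    ⟨_, fun F => norm_dn_le hK x F⟩
  have md : Measurable (dn (ahat s A2) (gm s A2) u2 x) := measurable_dn hm2 x
  have e1 : ∀ F, dn (ahat s A2) (gm s A2) u2 x F - lft D1 (lamw s A1 R0 D1 mu) x F
      = (dn (ahat s A2) (gm s A2) u2 x F - lamw s A2 R0 D1 (lft D0 mu) x F)
        + (lamw s A2 R0 D1 (lft D0 mu) x F - lft D1 (lamw s A1 R0 D1 mu) x F) := fun F => by ring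
  rw [tn2_congr e1]
  refine (tn2_add_le (md.sub (L2.m x)) ((L2.m x).sub (measurable_lft L1.m x))
    (fun F => (norm_sub_le _ _).trans (add_le_add (hKd F) (hKl x F)))
    (fun F => (norm_sub_le _ _).trans (add_le_add (hKl x F) (norm_lft hKl' x F))) _).trans
    (add_le_add (L2.near x) ?_)
  refine tn2_le_osc (x := x) (by positivity) (by positivity) fun F => ?_
  refine (lamw_lft_le h1 h2 hs o1 (by omega) hN1 hN2 he hη2 hηe hmu.m hKm hmu.cov hLp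
    hmu.lip x F).trans (le_of_eq ?_)
  ring

end window

/-! ### the main functions -/

lemma mainf_split {S : Matrix (V N) (V N) ℝ} (hS : TI S) {R : ℕ} (hR : 2 * R < N) (x : V N)
    (F : V N → ℝ) : ‖mainf S x F - ∑ ζ ∈ zb R, (S 0 (ip N ζ) : ℂ) * ee ((S *ᵥ F) (x + ip N ζ))‖
      ≤ tl S R := by
  unfold mainf
  rw [← Finset.sum_add_sum_compl (H462.box x R), sum_box hR x]
  have e1 : ∀ ζ, (S x (x + ip N ζ) : ℂ) = (S 0 (ip N ζ) : ℂ) := fun ζ => by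
    rw [hS.eq x, add_sub_cancel_left]
  simp only [e1]
  rw [add_sub_cancel_left]
  refine (norm_sum_le _ _).trans ?_
  rw [← tl_eq hS x R]
  refine Finset.sum_le_sum fun w _ => ?_
  rw [norm_mul, norm_ee, mul_one, Complex.norm_real, Real.norm_eq_abs]

/-- the main functions on two tori -/
theorem mainf_lft_le {S1 : Matrix (V N1) (V N1) ℝ} {S2 : Matrix (V N2) (V N2) ℝ} (t1 : TI S1)
    (t2 : TI S2) (n1 : ∀ x y, 0 ≤ S1 x y) (r1 : ∀ x, ∑ y, S1 x y = 1)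
    (r2 : ∀ x, ∑ y, S2 x y = 1) {D R0 : ℕ} (hR : R0 ≤ D) (hN1 : 2 * D < N1) (hN2 : 2 * D < N2)
    {e : ℝ} (he : ∀ ζ ∈ zb (2 * D), |S2 0 (ip N2 ζ) - S1 0 (ip N1 ζ)| ≤ e) (x : V N2)
    (F : V N2 → ℝ) :
    ‖lft D (mainf S1) x F - mainf S2 x (cutx D x F)‖
      ≤ tl S1 R0 + tl S2 R0 + (2 * R0 + 1) ^ 2 * e + 2 * π * e * osc D x F := by
  have he0 : 0 ≤ e := (abs_nonneg _).trans (he 0 (zero_mem_zb _))
  set a2 : ℤ × ℤ → ℂ := fun ζ => ee ((S2 *ᵥ cutx D x F) (x + ip N2 ζ)) with ha2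
  set a1 : ℤ × ℤ → ℂ := fun ζ => ee ((S1 *ᵥ trp D 0 x F) (0 + ip N1 ζ)) with ha1
  have h2 := mainf_split t2 (R := R0) (by omega) x (cutx D x F)
  have h1 := mainf_split t1 (R := R0) (by omega) 0 (trp D (0 : V N1) x F)
  set X1 := ∑ ζ ∈ zb R0, (S1 0 (ip N1 ζ) : ℂ) * a1 ζ with hX1
  set X2 := ∑ ζ ∈ zb R0, (S2 0 (ip N2 ζ) : ℂ) * a2 ζ with hX2
  have h3 : ‖X1 - X2‖ ≤ (2 * R0 + 1) ^ 2 * e + 2 * π * e * osc D x F := by
    have es : X1 - X2 = (∑ ζ ∈ zb R0, ((S1 0 (ip N1 ζ) - S2 0 (ip N2 ζ) : ℝ) : ℂ) * a2 ζ)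
        + ∑ ζ ∈ zb R0, (S1 0 (ip N1 ζ) : ℂ) * (a1 ζ - a2 ζ) := by
      rw [hX1, hX2, ← Finset.sum_sub_distrib, ← Finset.sum_add_distrib]
      refine Finset.sum_congr rfl fun ζ _ => ?_
      push_cast
      ring
    rw [es]
    refine (norm_add_le _ _).trans (add_le_add ?_ ?_)
    · refine (norm_sum_le _ _).trans ?_
      calc ∑ ζ ∈ zb R0, ‖((S1 0 (ip N1 ζ) - S2 0 (ip N2 ζ) : ℝ) : ℂ) * a2 ζ‖
          ≤ ∑ ζ ∈ zb R0, e := by
            refine Finset.sum_le_sum fun ζ hζ => ?_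
            rw [norm_mul, Complex.norm_real, Real.norm_eq_abs, norm_ee, mul_one, abs_sub_comm]
            exact he ζ (zb_mono (by omega) hζ)
        _ = _ := by rw [Finset.sum_const, nsmul_eq_mul, card_zb]
    · refine (norm_sum_le _ _).trans ?_
      have hq : 0 ≤ 2 * π * e * osc D x F := by
        have := osc_nonneg D x F
        positivity
      calc ∑ ζ ∈ zb R0, ‖(S1 0 (ip N1 ζ) : ℂ) * (a1 ζ - a2 ζ)‖
          ≤ ∑ ζ ∈ zb R0, S1 0 (ip N1 ζ) * (2 * π * e * osc D x F) := by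
            refine Finset.sum_le_sum fun ζ hζ => ?_
            rw [norm_mul, Complex.norm_real, Real.norm_eq_abs, abs_of_nonneg (n1 _ _)]
            refine mul_le_mul_of_nonneg_left ((H552.norm_ee_sub_le _ _).trans ?_) (n1 _ _)
            rw [abs_sub_comm, mul_assoc (2 * π) e]
            exact mul_le_mul_of_nonneg_left
              (mul_trp_diff t1 t2 r1 r2 hN1 hN2 he 0 x F (zb_mono hR hζ)) (by positivity)
        _ = (∑ ζ ∈ zb R0, S1 0 (ip N1 ζ)) * (2 * π * e * osc D x F) := by rw [Finset.sum_mul]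
        _ ≤ 1 * (2 * π * e * osc D x F) :=
            mul_le_mul_of_nonneg_right (sum_ker_le n1 r1 (by omega)) hq
        _ = _ := one_mul _
  have e0 : lft D (mainf S1) x F - mainf S2 x (cutx D x F)
      = (mainf S1 0 (trp D (0 : V N1) x F) - X1) + (X1 - X2) - (mainf S2 x (cutx D x F) - X2) := by
    unfold lft
    ring
  rw [e0]
  have q1 := norm_sub_le ((mainf S1 0 (trp D (0 : V N1) x F) - X1) + (X1 - X2))
    (mainf S2 x (cutx D x F) - X2)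
  have q2 := norm_add_le (mainf S1 0 (trp D (0 : V N1) x F) - X1) (X1 - X2)
  linarith

/-! ### (VT3) -/

/-- **(VT3)**: the deviation of the densities on another torus -/
theorem Den.tor {A1 : Matrix (V N1) (V N1) ℝ} {A2 : Matrix (V N2) (V N2) ℝ} {ν c1 c2 : ℝ}
    (h1 : Dom A1 ν c1) (h2 : Dom A2 ν c2) (p1 : ∀ x y, 0 ≤ (1 - ν⁻¹ • A1) x y)
    (p2 : ∀ x y, 0 ≤ (1 - ν⁻¹ • A2) x y) {D R0 : ℕ} (hR : R0 ≤ D) (hN1 : 2 * D < N1)
    (hN2 : 2 * D < N2) {e eS : ℝ}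
    (hent : ∀ ζ ∈ zb (2 * D), |((pin A2 * (pin A2)ᵀ) 0 (ip N2 ζ) - (pin A2 * (pin A2)ᵀ) 0 0)
      - ((pin A1 * (pin A1)ᵀ) 0 (ip N1 ζ) - (pin A1 * (pin A1)ᵀ) 0 0)| ≤ e)
    (hS : ∀ ζ ∈ zb (2 * D), |(1 - ν⁻¹ • A2) 0 (ip N2 ζ) - (1 - ν⁻¹ • A1) 0 (ip N1 ζ)| ≤ eS)
    {η κ B : ℝ} (hη : 0 < η) (hη2 : η ≤ 1 / 2) (hκ : 1 ≤ κ)
    (he : 3 * ν * (2 * D + 1) ^ 2 * e ≤ η) {z : ℂ} {d η1 Lp ηm r : ℝ}
    {ψ1 lam : V N1 → (V N1 → ℝ) → ℂ} (hd : Den A1 ν z d ψ1) (hl : Lcl A1 D η1 Lp ψ1 lam)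
    (hm : tn2 A1 (fun F => mainf (1 - ν⁻¹ • A1) 0 F - mainf (1 - ν⁻¹ • A1) 0 (cutx D 0 F)) ≤ ηm)
    (hB : ∀ F, ‖lam 0 F - z * mainf (1 - ν⁻¹ • A1) 0 F‖ ≤ B)
    {ψ2 : V N2 → (V N2 → ℝ) → ℂ} (m2 : ∀ x, Measurable (ψ2 x)) (b2 : ∃ K : ℝ, ∀ x F, ‖ψ2 x F‖ ≤ K)
    (ch2 : ∀ x, Ch (ψ2 x)) (cov2 : Cov ψ2) (hL : Lcl A2 D r Lp ψ2 (lft D lam)) :
    Den A2 ν z (r + (√κ * (d + η1 + ‖z‖ * ηm) + B * tk κ η)
      + ‖z‖ * ((tl (1 - ν⁻¹ • A1) R0 + tl (1 - ν⁻¹ • A2) R0 + (2 * R0 + 1) ^ 2 * eS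
          + 2 * π * eS * ((2 * D + 1) ^ 2 * (2 * H889.sg A2)))
        + 2 * π * (tl ((1 - ν⁻¹ • A2) * (1 - ν⁻¹ • A2)) D * (2 * H889.sg A2)))) ψ2 := by
  have hS0 : 0 ≤ eS := (abs_nonneg _).trans (hS 0 (zero_mem_zb _))
  set S1 : Matrix (V N1) (V N1) ℝ := 1 - ν⁻¹ • A1 with hS1
  set S2 : Matrix (V N2) (V N2) ℝ := 1 - ν⁻¹ • A2 with hS2
  have t1 : TI S1 := ti_S h1
  have t2 : TI S2 := ti_S h2
  have r1 : ∀ x, ∑ y, S1 x y = 1 := fun y => by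
    rw [row_sum t1, hS1, H864.sym_sub, H864.sym_smul, H864.sym_one, h1.zero]
    ring
  have r2 : ∀ x, ∑ y, S2 x y = 1 := fun y => by
    rw [row_sum t2, hS2, H864.sym_sub, H864.sym_smul, H864.sym_one, h2.zero]
    ring
  have c1 : ∀ x, Ch (mainf S1 x) := H552.ch_mainf r1
  obtain ⟨K2, hK2⟩ := b2
  obtain ⟨K1, hK1⟩ := hd.bd
  obtain ⟨Kl, hKl⟩ := hl.bd
  have hzn := norm_nonneg z
  refine ⟨m2, ⟨K2, hK2⟩, ch2, cov2, fun x => ?_⟩
  -- the transported deviation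
  set G : V N1 → (V N1 → ℝ) → ℂ := fun y F => lam y F - z * mainf S1 y F with hG
  have mG : ∀ y, Measurable (G y) := fun y => (hl.m y).sub ((measurable_mainf S1 y).const_mul z)
  have cG : ∀ y, Ch (G y) := by
    intro y F t
    have a1 := hl.ch y F t
    have a2 := c1 y F t
    simp only [hG]
    rw [a1, a2]
    ring
  have hG1 : tn2 A2 (lft D G x) ≤ √κ * (d + η1 + ‖z‖ * ηm) + B * tk κ η := by
    have q : tn2 A2 (lft D G x) ≤ √κ * tn2 A1 (fun F => G 0 (cutx D 0 F)) + B * tk κ η := by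
      unfold tn2 lft
      exact n2_trp (β := 0) (cv_pin h1.ti h1.nn) h1 le_rfl (sym_pin_zero h1.ti h1.nn)
        (cv_pin h2.ti h2.nn).ti hN1 hent hη hη2 hκ (by rwa [add_zero]) (mG 0) (cG 0) hB 0 x
    refine q.trans (add_le_add (mul_le_mul_of_nonneg_left ?_ (Real.sqrt_nonneg _)) le_rfl)
    have m1 : Measurable fun F => ψ1 0 F - z * mainf S1 0 F :=
      (hd.m 0).sub ((measurable_mainf S1 0).const_mul z)
    have m3 : Measurable fun F => ψ1 0 F - lam 0 F := (hd.m 0).sub (hl.m 0)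
    have mc : Measurable (cutx D (0 : V N1) : (V N1 → ℝ) → V N1 → ℝ) :=
      H552.measurable_cutB (H462.box 0 D) 0
    have m4 : Measurable fun F => mainf S1 0 F - mainf S1 0 (cutx D 0 F) :=
      (measurable_mainf S1 0).sub ((measurable_mainf S1 0).comp mc)
    have e1 : ∀ F, G 0 (cutx D 0 F) = ((ψ1 0 F - z * mainf S1 0 F) - (ψ1 0 F - lam 0 F))
        + z * (mainf S1 0 F - mainf S1 0 (cutx D 0 F)) := by
      intro F
      have e2 : lam 0 (cutx D 0 F) = lam 0 F := hl.loc 0 _ _ fun y hy => by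
        rw [cutx_eq, add_ip_zz hy]
      simp only [hG]
      rw [e2]
      ring
    rw [tn2_congr e1]
    have M0 : ∀ F, ‖mainf S1 0 F‖ ≤ ∑ y, ∑ w, |S1 y w| := fun F => norm_mainf_bdd S1 0 F
    have bb : ∀ F, ‖ψ1 0 F - z * mainf S1 0 F‖ ≤ K1 + ‖z‖ * ∑ y, ∑ w, |S1 y w| := fun F =>
      (norm_sub_le _ _).trans (add_le_add (hK1 0 F) (by
        rw [norm_mul]
        exact mul_le_mul_of_nonneg_left (M0 F) hzn))
    have bc : ∀ F, ‖ψ1 0 F - lam 0 F‖ ≤ K1 + Kl := fun F =>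
      (norm_sub_le _ _).trans (add_le_add (hK1 0 F) (hKl 0 F))
    refine (tn2_add_le (m1.sub m3) (m4.const_mul z)
      (fun F => (norm_sub_le _ _).trans (add_le_add (bb F) (bc F)))
      (L := ‖z‖ * ((∑ y, ∑ w, |S1 y w|) + ∑ y, ∑ w, |S1 y w|)) (fun F => by
        rw [norm_mul]
        exact mul_le_mul_of_nonneg_left ((norm_sub_le _ _).trans (add_le_add (M0 F) (M0 _)))
          hzn) A1).trans ?_
    refine add_le_add ?_ ?_
    · refine (tn2_sub_le m1 m3 bb bc A1).trans (add_le_add (hd.dev 0) (hl.near 0))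
    · rw [tn2_const_mul]
      exact mul_le_mul_of_nonneg_left hm hzn
  -- the main functions
  have hM : tn2 A2 (fun F => lft D (mainf S1) x F - mainf S2 x (cutx D x F))
      ≤ tl S1 R0 + tl S2 R0 + (2 * R0 + 1) ^ 2 * eS
        + 2 * π * eS * ((2 * D + 1) ^ 2 * (2 * H889.sg A2)) := by
    refine tn2_le_osc (x := x) ?_ (by positivity) fun F => ?_
    · have q1 := tl_nonneg S1 R0
      have q2 := tl_nonneg S2 R0
      positivity
    · exact mainf_lft_le t1 t2 p1 r1 r2 hR hN1 hN2 hS x F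
  have hT := mainf_tail t2 p2 A2 D x
  have mc2 : Measurable (cutx D x : (V N2 → ℝ) → V N2 → ℝ) :=
    H552.measurable_cutB (H462.box x D) x
  have e0 : ∀ F, ψ2 x F - z * mainf S2 x F = ((ψ2 x F - lft D lam x F) + lft D G x F)
      + z * ((lft D (mainf S1) x F - mainf S2 x (cutx D x F))
        - (mainf S2 x F - mainf S2 x (cutx D x F))) := by
    intro F
    have : lft D G x F = lft D lam x F - z * lft D (mainf S1) x F := rfl
    rw [this]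
    ring
  rw [tn2_congr e0]
  have M2 : ∀ F, ‖mainf S2 x F‖ ≤ ∑ y, ∑ w, |S2 y w| := fun F => norm_mainf_bdd S2 x F
  have M1 : ∀ F, ‖lft D (mainf S1) x F‖ ≤ ∑ y, ∑ w, |S1 y w| := fun F => norm_mainf_bdd S1 0 _
  have mm1 : Measurable (lft D (mainf S1) x) := measurable_lft (measurable_mainf S1) x
  have f1 : Measurable fun F => ψ2 x F - lft D lam x F := (m2 x).sub (measurable_lft hl.m x)
  have f2 : Measurable (lft D G x) := measurable_lft mG x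
  have f3 : Measurable fun F => lft D (mainf S1) x F - mainf S2 x (cutx D x F) :=
    mm1.sub ((measurable_mainf S2 x).comp mc2)
  have f4 : Measurable fun F => mainf S2 x F - mainf S2 x (cutx D x F) :=
    (measurable_mainf S2 x).sub ((measurable_mainf S2 x).comp mc2)
  have g1 : ∀ F, ‖ψ2 x F - lft D lam x F‖ ≤ K2 + Kl := fun F =>
    (norm_sub_le _ _).trans (add_le_add (hK2 x F) (norm_lft hKl x F))
  have g2 : ∀ F, ‖lft D G x F‖ ≤ B := fun F => hB _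
  have g3 : ∀ F, ‖lft D (mainf S1) x F - mainf S2 x (cutx D x F)‖
      ≤ (∑ y, ∑ w, |S1 y w|) + ∑ y, ∑ w, |S2 y w| := fun F =>
    (norm_sub_le _ _).trans (add_le_add (M1 F) (M2 _))
  have g4 : ∀ F, ‖mainf S2 x F - mainf S2 x (cutx D x F)‖
      ≤ (∑ y, ∑ w, |S2 y w|) + ∑ y, ∑ w, |S2 y w| := fun F =>
    (norm_sub_le _ _).trans (add_le_add (M2 F) (M2 _))
  refine (tn2_add_le (f1.add f2) ((f3.sub f4).const_mul z)
    (fun F => (norm_add_le _ _).trans (add_le_add (g1 F) (g2 F)))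
    (L := ‖z‖ * (((∑ y, ∑ w, |S1 y w|) + ∑ y, ∑ w, |S2 y w|)
      + ((∑ y, ∑ w, |S2 y w|) + ∑ y, ∑ w, |S2 y w|))) (fun F => by
      rw [norm_mul]
      exact mul_le_mul_of_nonneg_left ((norm_sub_le _ _).trans (add_le_add (g3 F) (g4 F))) hzn)
    A2).trans (add_le_add ?_ ?_)
  · exact (tn2_add_le f1 f2 g1 g2 A2).trans (add_le_add (hL.near x) hG1)
  · rw [tn2_const_mul]
    refine mul_le_mul_of_nonneg_left ?_ hzn
    exact (tn2_sub_le f3 f4 g3 g4 A2).trans (add_le_add hM hT)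

end

end Vale.Agent.P159.H733.Vt
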