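import Vale.Agent.P159.H733.Vt10
import Vale.Agent.P159.H363.Brd
import Vale.Agent.P159.H972.Good

/-!
P159 / VTOR instance (helper733), part 11: the hypotheses `TNh` of (TN) in the letters of the levels
(powers of two, `Par`, `TT`).
-/

set_option linter.unusedSectionVars false

namespace Vale.Agent.P159.H733.Vt

open Finset Matrix
open Vale.Agent.P159.TM.Spec (V)
open Vale.Agent.P159.H733.Torg (Two)
open Vale.Agent.P159.H972 (tn lg)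
open scoped Real

noncomputable section

section gen

variable {n1 n2 n3 : ℕ} [NeZero n1] [NeZero n2] [NeZero n3] {h1 : n1 ∣ n3} {h2 : n2 ∣ n3}
  {B1 : Matrix (V n1) (V n1) ℝ} {B2 : Matrix (V n2) (V n2) ℝ} {A3 : Matrix (V n3) (V n3) ℝ}

lemma sn_mul {l : ℕ} {T t' : ℝ} (hl : 0 < l) (hT : 0 < T) (ht' : 0 < t') :
    H363.sn l T t' * (T * (l : ℝ) ^ 2) = T / t' - 1 := by
  have hl0 : (0 : ℝ) < l := by exact_mod_cast hl
  unfold H363.sn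
  field_simp

/-- `TNh` from two exact periodizations at the mass `T`, window to the mass `t' = T / M ^ 2` -/
theorem tnh_of {l : ℕ} {T t' c κ C1 M L k0 c0 q W : ℝ} (hl : 0 < l) (hT : 0 < T) (ht' : 0 < t')
    (hM : T = M ^ 2 * t') (hM2 : 2 ≤ M) (T1 : Two h1 B1 A3 (T * (l : ℝ) ^ 2) c κ C1)
    (T2 : Two h2 B2 A3 (T * (l : ℝ) ^ 2) c κ C1) (hk : k0 * (√T * l) ≤ κ) (hc : c0 ≤ c)
    (hlam : √T * l ≤ 1) (hq : Real.exp (-(q * L)) ≤ √T * l) (hML : M ≤ Real.exp L)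
    (n1L : (n1 : ℝ) ≤ Real.exp (q * L)) (n2L : (n2 : ℝ) ≤ Real.exp (q * L))
    (w1 : W * M * L ^ 4 ≤ n1 * (√T * l)) (w2 : W * M * L ^ 4 ≤ n2 * (√T * l)) :
    TNh h1 h2 B1 B2 A3 (T * (l : ℝ) ^ 2) c κ C1 (H363.sn l T t') (√T * l) M L k0 c0 q W := by
  have hl0 : (0 : ℝ) < l := by exact_mod_cast hl
  have hM0 : 0 < M := by linarith
  have hTt : T / t' = M ^ 2 := by
    rw [hM]
    field_simp
  have hsν := sn_mul (T := T) (t' := t') hl hT ht'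
  rw [hTt] at hsν
  have hν : 0 < T * (l : ℝ) ^ 2 := by positivity
  refine ⟨T1, T2, by positivity, hlam, ?_, hk, hc, ?_, hsν, hM2, hq, hML, n1L, n2L, w1, w2⟩
  · rw [mul_pow, Real.sq_sqrt hT.le]
  · have h3 : 0 < H363.sn l T t' * (T * (l : ℝ) ^ 2) := by
      rw [hsν]
      nlinarith
    exact pos_of_mul_pos_left h3 hν.le

end gen

/-! ### powers of two -/

section pow

variable {n s r1 r2 r3 : ℕ} [NeZero (2 ^ r1 / 2 ^ s)] [NeZero (2 ^ r2 / 2 ^ s)]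
  [NeZero (2 ^ r3 / 2 ^ s)] {h1 : 2 ^ r1 / 2 ^ s ∣ 2 ^ r3 / 2 ^ s}
  {h2 : 2 ^ r2 / 2 ^ s ∣ 2 ^ r3 / 2 ^ s} {B1 : Matrix (V (2 ^ r1 / 2 ^ s)) (V (2 ^ r1 / 2 ^ s)) ℝ}
  {B2 : Matrix (V (2 ^ r2 / 2 ^ s)) (V (2 ^ r2 / 2 ^ s)) ℝ}
  {A3 : Matrix (V (2 ^ r3 / 2 ^ s)) (V (2 ^ r3 / 2 ^ s)) ℝ}

lemma cast_two {r s : ℕ} (h : s ≤ r) : ((2 ^ r / 2 ^ s : ℕ) : ℝ) = 2 ^ r / 2 ^ s := by
  rw [Nat.cast_div (pow_dvd_pow 2 h) (by positivity)]
  push_cast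
  rfl

lemma sqrt_tn (n : ℕ) : √(tn n) = (2 ^ n : ℝ)⁻¹ := by
  have e : tn n = ((2 ^ n : ℝ)⁻¹) ^ 2 := by
    unfold tn
    rw [inv_pow, ← pow_mul, mul_comm n 2, pow_mul]
    norm_num
  rw [e]
  exact Real.sqrt_sq (by positivity)

lemma lam_ge {T : ℝ} (hT : tn n ≤ T) : (2 ^ s : ℝ) / 2 ^ n ≤ √T * ((2 ^ s : ℕ) : ℝ) := by
  have h := Real.sqrt_le_sqrt hT
  rw [sqrt_tn] at h
  push_cast
  rw [div_eq_mul_inv, mul_comm]
  exact mul_le_mul_of_nonneg_right h (by positivity)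

lemma lam_le {T : ℝ} (hT : T ≤ 4 * tn n) :
    √T * ((2 ^ s : ℕ) : ℝ) ≤ 2 * ((2 ^ s : ℝ) / 2 ^ n) := by
  have h := Real.sqrt_le_sqrt hT
  rw [Real.sqrt_mul (by norm_num), sqrt_tn, show (4 : ℝ) = 2 ^ 2 by norm_num,
    Real.sqrt_sq (by norm_num)] at h
  push_cast
  calc √T * (2 ^ s : ℝ) ≤ 2 * (2 ^ n : ℝ)⁻¹ * 2 ^ s :=
        mul_le_mul_of_nonneg_right h (by positivity)
    _ = _ := by ring

/-- **`TNh` in powers of two**: `x = e^{-L}`, cells `x ^ (9/8 Cc) <= 2^s / 2^n` -/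
theorem tnh_pow {T t' c κ C1 M L k0 c0 W x Cc : ℝ} (hsn : s + 1 ≤ n) (hn1 : n ≤ r1)
    (hn2 : n ≤ r2) (hTn : tn n ≤ T) (hTn4 : T ≤ 4 * tn n) (ht' : 0 < t') (hM : T = M ^ 2 * t')
    (hM2 : 2 ≤ M) (T1 : Two h1 B1 A3 (T * ((2 ^ s : ℕ) : ℝ) ^ 2) c κ C1)
    (T2 : Two h2 B2 A3 (T * ((2 ^ s : ℕ) : ℝ) ^ 2) c κ C1) (hk0 : 0 ≤ k0)
    (hk : k0 * (2 * ((2 ^ s : ℝ) / 2 ^ n)) ≤ κ) (hc : c0 ≤ c) (hx : 0 < x)
    (hL : Real.exp (-L) = x) (hx1 : x ≤ 1) (hcell : x ^ (9 / 8 * Cc) ≤ (2 ^ s : ℝ) / 2 ^ n)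
    (hML : M ≤ x⁻¹) (hr1 : (2 ^ r1 : ℝ) / 2 ^ n ≤ x⁻¹) (hr2 : (2 ^ r2 : ℝ) / 2 ^ n ≤ x⁻¹)
    (w1 : W * M * L ^ 4 ≤ (2 ^ r1 : ℝ) / 2 ^ n) (w2 : W * M * L ^ 4 ≤ (2 ^ r2 : ℝ) / 2 ^ n) :
    TNh h1 h2 B1 B2 A3 (T * ((2 ^ s : ℕ) : ℝ) ^ 2) c κ C1 (H363.sn (2 ^ s) T t')
      (√T * ((2 ^ s : ℕ) : ℝ)) M L k0 c0 (9 / 8 * Cc + 1) W := by
  have htn : 0 < tn n := by unfold tn; positivity
  have hT : 0 < T := htn.trans_le hTn
  have hlo := lam_ge (s := s) hTn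
  have hhi := lam_le (s := s) hTn4
  have hinv : x⁻¹ = Real.exp L := by rw [← hL, ← Real.exp_neg, neg_neg]
  have hxe : ∀ p : ℝ, x ^ p = Real.exp (-(p * L)) := fun p => by
    rw [← hL, ← Real.exp_mul]
    congr 1
    ring
  have hsz : ∀ r : ℕ, s ≤ r → (2 ^ r : ℝ) / 2 ^ n ≤ x⁻¹ →
      ((2 ^ r / 2 ^ s : ℕ) : ℝ) ≤ Real.exp ((9 / 8 * Cc + 1) * L) := by
    intro r hr h3
    rw [cast_two hr]
    have e1 : (2 ^ r : ℝ) / 2 ^ s = (2 ^ r / 2 ^ n) * ((2 ^ s : ℝ) / 2 ^ n)⁻¹ := by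
      field_simp
    have e2 : ((2 ^ s : ℝ) / 2 ^ n)⁻¹ ≤ Real.exp (9 / 8 * Cc * L) := by
      rw [inv_le_comm₀ (by positivity) (Real.exp_pos _), ← Real.exp_neg, ← hxe]
      exact hcell
    have e3 : Real.exp ((9 / 8 * Cc + 1) * L) = Real.exp L * Real.exp (9 / 8 * Cc * L) := by
      rw [← Real.exp_add]
      congr 1
      ring
    rw [e1, e3, ← hinv]
    exact mul_le_mul h3 e2 (by positivity) (by positivity)
  have hnl : ∀ r : ℕ, s ≤ r →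
      (2 ^ r : ℝ) / 2 ^ n ≤ ((2 ^ r / 2 ^ s : ℕ) : ℝ) * (√T * ((2 ^ s : ℕ) : ℝ)) := by
    intro r hr
    rw [cast_two hr]
    have h4 := mul_le_mul_of_nonneg_left hlo (by positivity : (0 : ℝ) ≤ 2 ^ r / 2 ^ s)
    refine le_trans (le_of_eq ?_) h4
    field_simp
  refine tnh_of (l := 2 ^ s) (by positivity) hT ht' hM hM2 T1 T2 ?_ hc ?_ ?_ ?_ ?_ ?_ ?_ ?_
  · exact (mul_le_mul_of_nonneg_left hhi hk0).trans hk
  · refine hhi.trans ?_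
    rw [mul_div_assoc', div_le_one (by positivity)]
    calc 2 * (2 : ℝ) ^ s = 2 ^ (s + 1) := by ring
      _ ≤ 2 ^ n := pow_le_pow_right₀ (by norm_num) hsn
  · refine le_trans ?_ (hcell.trans hlo)
    rw [hxe]
    refine Real.exp_le_exp.2 ?_
    have : 0 ≤ L := by
      by_contra hneg
      push Not at hneg
      have : 1 < x := by
        rw [← hL]
        exact Real.one_lt_exp_iff.2 (by linarith)
      linarith
    nlinarith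
  · rw [← hinv]
    exact hML
  · exact hsz r1 (by omega) hr1
  · exact hsz r2 (by omega) hr2
  · exact w1.trans (hnl r1 (by omega))
  · exact w2.trans (hnl r2 (by omega))

end pow

/-! ### `Par` letters -/

section par

variable {P : H972.Par}

lemma lg_ge {c e : ℝ} (he : 0 < e) : e ^ (-c) ≤ (2 : ℝ) ^ lg c e := by
  have h1 : (e ^ (-c) : ℝ) = (2 : ℝ) ^ (c * Real.logb 2 (1 / e)) := by
    rw [mul_comm, Real.rpow_mul (by norm_num), Real.rpow_logb (by norm_num) (by norm_num)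
      (by positivity), one_div, Real.inv_rpow he.le, Real.rpow_neg he.le]
  rw [h1, ← Real.rpow_natCast]
  refine Real.rpow_le_rpow_of_exponent_le (by norm_num) ?_
  unfold lg
  exact Nat.le_ceil _

lemma lg_up {c e : ℝ} (hc : 0 ≤ c) (he : 0 < e) (he1 : e ≤ 1) :
    (2 : ℝ) ^ lg c e ≤ 2 * e ^ (-c) := by
  have h1 : (e ^ (-c) : ℝ) = (2 : ℝ) ^ (c * Real.logb 2 (1 / e)) := by
    rw [mul_comm, Real.rpow_mul (by norm_num), Real.rpow_logb (by norm_num) (by norm_num)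
      (by positivity), one_div, Real.inv_rpow he.le, Real.rpow_neg he.le]
  have h0 : 0 ≤ Real.logb 2 (1 / e) :=
    Real.logb_nonneg one_lt_two ((le_div_iff₀ he).2 (by linarith))
  rw [h1, ← Real.rpow_natCast, show (2 : ℝ) * 2 ^ (c * Real.logb 2 (1 / e))
    = 2 ^ (c * Real.logb 2 (1 / e) + 1) by
      rw [Real.rpow_add (by norm_num), Real.rpow_one, mul_comm]]
  refine Real.rpow_le_rpow_of_exponent_le (by norm_num) ?_
  unfold lg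
  exact (Nat.ceil_lt_add_one (by positivity)).le

/-- the torus against the windows: `W M L^4 <= N / xi` for `M = 2 ^ (m - n)` -/
lemma wl_par {n m r : ℕ} {e' c1 L W : ℝ} (he' : 0 < e') (hnm : n ≤ m) (hr : m + P.kE e' ≤ r)
    (hL0 : 0 ≤ L) (hL : L ≤ e' ^ (-c1)) (hW : W * e' ^ (P.th - 4 * c1) ≤ 1) (hW0 : 0 ≤ W) :
    W * 2 ^ (m - n) * L ^ 4 ≤ (2 ^ r : ℝ) / 2 ^ n := by
  have h1 : L ^ 4 ≤ e' ^ (-(4 * c1)) := by
    calc L ^ 4 ≤ (e' ^ (-c1)) ^ 4 := pow_le_pow_left₀ hL0 hL 4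
      _ = e' ^ (-(4 * c1)) := by
        rw [← Real.rpow_natCast, ← Real.rpow_mul he'.le]
        congr 1
        push_cast
        ring
  have h2 : W * L ^ 4 ≤ e' ^ (-P.th) := by
    have h3 : W * L ^ 4 ≤ W * e' ^ (-(4 * c1)) := mul_le_mul_of_nonneg_left h1 hW0
    refine h3.trans ?_
    have h4 : e' ^ (-(4 * c1)) = e' ^ (P.th - 4 * c1) * e' ^ (-P.th) := by
      rw [← Real.rpow_add he']
      congr 1
      ring
    rw [h4, ← mul_assoc]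
    exact (mul_le_mul_of_nonneg_right hW (Real.rpow_nonneg he'.le _)).trans (one_mul _).le
  have h5 : e' ^ (-P.th) ≤ (2 : ℝ) ^ P.kE e' := lg_ge he'
  calc W * 2 ^ (m - n) * L ^ 4 = 2 ^ (m - n) * (W * L ^ 4) := by ring
    _ ≤ 2 ^ (m - n) * 2 ^ P.kE e' :=
      mul_le_mul_of_nonneg_left (h2.trans h5) (by positivity)
    _ = (2 ^ (m + P.kE e') : ℝ) / 2 ^ n := by
      rw [pow_sub₀ _ (by norm_num) hnm, pow_add]
      field_simp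
    _ ≤ (2 ^ r : ℝ) / 2 ^ n :=
      div_le_div_of_nonneg_right (pow_le_pow_right₀ (by norm_num) hr) (by positivity)

/-- sizes of the tori of `TT` -/
lemma tt_size {n r : ℕ} {e : ℝ} (hT : P.TT n e r) (he : 0 < e) (he1 : e ≤ 1) :
    (2 ^ r : ℝ) / 2 ^ n ≤ 2 * e ^ (-P.th) * (2 * e ^ (-P.thp)) ^ (4 * P.q0) := by
  obtain ⟨h1, h2⟩ := hT
  have h3 : (2 ^ r : ℝ) / 2 ^ n = 2 ^ (r - n) := by
    rw [pow_sub₀ _ (by norm_num) (by omega)]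
    rfl
  rw [h3]
  calc (2 : ℝ) ^ (r - n) ≤ 2 ^ (P.kE e + P.q0 * (4 * P.w e)) :=
        pow_le_pow_right₀ (by norm_num) (by omega)
    _ = 2 ^ P.kE e * (2 ^ P.w e) ^ (4 * P.q0) := by
      rw [pow_add, ← pow_mul]
      congr 2
      ring
    _ ≤ _ := by
      refine mul_le_mul (lg_up P.th0.le he he1)
        (pow_le_pow_left₀ (by positivity) (lg_up P.thp0.le he he1) _) (by positivity)
        (by positivity)

/-- in powers of `e` -/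
lemma tt_size' {n r : ℕ} {e : ℝ} (hT : P.TT n e r) (he : 0 < e) (he1 : e ≤ 1)
    (hE : 2 ^ (4 * P.q0 + 1) * e ^ (1 - (P.th + 4 * P.q0 * P.thp)) ≤ 1) :
    (2 ^ r : ℝ) / 2 ^ n ≤ e⁻¹ := by
  refine (tt_size hT he he1).trans ?_
  have h1 : (2 * e ^ (-P.thp)) ^ (4 * P.q0) = 2 ^ (4 * P.q0) * e ^ (-(4 * P.q0 * P.thp)) := by
    rw [mul_pow, ← Real.rpow_natCast (e ^ (-P.thp)), ← Real.rpow_mul he.le]
    congr 2
    push_cast
    ring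
  have h2 : 2 * e ^ (-P.th) * (2 * e ^ (-P.thp)) ^ (4 * P.q0)
      = (2 ^ (4 * P.q0 + 1) * e ^ (1 - (P.th + 4 * P.q0 * P.thp))) * e⁻¹ := by
    rw [h1]
    have h3 : e ^ (-P.th) * e ^ (-(4 * P.q0 * P.thp))
        = e ^ (1 - (P.th + 4 * P.q0 * P.thp)) * e⁻¹ := by
      rw [← Real.rpow_add he, ← Real.rpow_neg_one e, ← Real.rpow_add he]
      congr 1
      ring
    calc 2 * e ^ (-P.th) * (2 ^ (4 * P.q0) * e ^ (-(4 * P.q0 * P.thp)))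
        = 2 ^ (4 * P.q0 + 1) * (e ^ (-P.th) * e ^ (-(4 * P.q0 * P.thp))) := by
          rw [pow_succ]
          ring
      _ = _ := by
        rw [h3]
        ring
  rw [h2]
  exact (mul_le_mul_of_nonneg_right hE (inv_nonneg.2 he.le)).trans (one_mul _).le

end par

end

end Vale.Agent.P159.H733.Vt
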