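import Vale.Agent.P159.H733.Vt5

/-!
P159 / VTOR instance (helper733), part 8: exponentially small tails and entries for the periodized
reference forms `pz h A3`, with the Gaussian Chernoff exponent.
-/

set_option linter.unusedSectionVars false

namespace Vale.Agent.P159.H733.Vt

open MeasureTheory ProbabilityTheory Finset Matrix
open Vale.Agent.P159.TM.Spec (V)
open Vale.Agent.P159.H37 (gau qf)
open Vale.Agent.P159.H363
open Vale.Agent.P159.H864 (TI sym fc mlt)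
open Vale.Agent.P159.H462 (Dom ahat Gam ti_ahat ti_Gam sym_ahat)
open Vale.Agent.P159.H889
open Vale.Agent.P159.TM.H459 (sn)
open Vale.Agent.P159.H733.Torg (av ip prj pz Two Near Cv Stb)
open scoped Real

noncomputable section

variable {N N1 N2 N3 : ℕ} [NeZero N] [NeZero N1] [NeZero N2] [NeZero N3]

/-! ### tails -/

/-- the tail of `m` steps, any exponent -/
theorem tail_th {S : Matrix (V N) (V N) ℝ} (hS : TI S) (h0 : ∀ x y, 0 ≤ S x y)
    (h1 : ∀ x, ∑ y, S x y = 1) {κ C1 : ℝ}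
    (hκ : 0 < κ) (hm : ∑ z, S 0 z * Real.exp (κ * sn z) ≤ C1) {θ : ℝ} (hθ0 : 0 ≤ θ)
    (hθκ : 2 * θ ≤ κ) (m : ℕ) (r : ℝ) :
    ∑ z ∈ univ.filter (fun z : V N => r ≤ sn z), (S ^ m) 0 z ≤
      4 * Real.exp (m * (4 * (θ ^ 2 / κ ^ 2) * C1)) * Real.exp (-(θ * r)) := by
  have hC1 : 0 ≤ C1 := le_trans (Finset.sum_nonneg fun z _ =>
    mul_nonneg (h0 _ _) (Real.exp_pos _).le) hm
  set q : ℝ := 4 * (θ ^ 2 / κ ^ 2) * C1 with hq
  have hq0 : 0 ≤ q := by positivity
  have key : ∀ p : V N →+ ZMod N, (∀ z, av (p z) ≤ sn z) →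
      ∑ z ∈ univ.filter (fun z : V N => r ≤ av (p z)), (S ^ m) 0 z ≤
      2 * Real.exp (m * q) * Real.exp (-(θ * r)) := by
    intro p hp
    have g1 := Torg.pow_psi hS h0 p θ m
    have g2 := Torg.one_step h0 h1 hκ hm hθ0 hθκ hp
    have g3 : (∑ z, S 0 z * Torg.psi θ (p z)) ^ m ≤ Real.exp (m * q) := by
      have k0 : 0 ≤ ∑ z, S 0 z * Torg.psi θ (p z) :=
        Finset.sum_nonneg fun z _ => mul_nonneg (h0 _ _) (Torg.psi_pos _ _).le
      have k1 : ∑ z, S 0 z * Torg.psi θ (p z) ≤ Real.exp q := by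
        have := Real.add_one_le_exp q
        linarith
      rw [Real.exp_nat_mul]
      exact pow_le_pow_left₀ k0 k1 m
    have g4 : ∑ z ∈ univ.filter (fun z : V N => r ≤ av (p z)), (S ^ m) 0 z * Torg.psi θ (p z) ≤
        Real.exp (m * q) :=
      (Finset.sum_le_sum_of_subset_of_nonneg (Finset.filter_subset _ _) fun z _ _ =>
        mul_nonneg (Torg.pow_nonneg' h0 m _ _) (Torg.psi_pos _ _).le).trans (g1.trans g3)
    have g5 : ∀ z ∈ univ.filter (fun z : V N => r ≤ av (p z)), (S ^ m) 0 z ≤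
        2 * Real.exp (-(θ * r)) * ((S ^ m) 0 z * Torg.psi θ (p z)) := by
      intro z hz
      have hr : r ≤ av (p z) := (Finset.mem_filter.1 hz).2
      have k1 : Real.exp (θ * r) ≤ 2 * Torg.psi θ (p z) := by
        unfold Torg.psi
        rw [Real.cosh_eq]
        have k2 : Real.exp (θ * r) ≤ Real.exp (θ * av (p z)) :=
          Real.exp_le_exp.2 (mul_le_mul_of_nonneg_left hr hθ0)
        have := Real.exp_pos (-(θ * av (p z)))
        linarith
      have k3 : 1 ≤ 2 * Real.exp (-(θ * r)) * Torg.psi θ (p z) := by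
        have k4 := Real.exp_pos (-(θ * r))
        have k5 : Real.exp (-(θ * r)) * Real.exp (θ * r) = 1 := by
          rw [← Real.exp_add]; simp
        nlinarith
      have k6 := Torg.pow_nonneg' h0 m 0 z
      nlinarith
    calc ∑ z ∈ univ.filter (fun z : V N => r ≤ av (p z)), (S ^ m) 0 z
        ≤ ∑ z ∈ univ.filter (fun z : V N => r ≤ av (p z)),
            2 * Real.exp (-(θ * r)) * ((S ^ m) 0 z * Torg.psi θ (p z)) := Finset.sum_le_sum g5
      _ = 2 * Real.exp (-(θ * r)) * ∑ z ∈ univ.filter (fun z : V N => r ≤ av (p z)),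
            ((S ^ m) 0 z * Torg.psi θ (p z)) := by rw [Finset.mul_sum]
      _ ≤ 2 * Real.exp (-(θ * r)) * Real.exp (m * q) :=
          mul_le_mul_of_nonneg_left g4 (by positivity)
      _ = _ := by ring
  have k1 := key (AddMonoidHom.fst _ _) (fun z => le_max_left _ _)
  have k2 := key (AddMonoidHom.snd _ _) (fun z => le_max_right _ _)
  have k3 : univ.filter (fun z : V N => r ≤ sn z) ⊆
      univ.filter (fun z : V N => r ≤ av ((AddMonoidHom.fst (ZMod N) (ZMod N)) z)) ∪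
      univ.filter (fun z : V N => r ≤ av ((AddMonoidHom.snd (ZMod N) (ZMod N)) z)) := by
    intro z hz
    have hr : r ≤ sn z := (Finset.mem_filter.1 hz).2
    rw [Torg.sn_eq, Nat.cast_max] at hr
    rw [Finset.mem_union, Finset.mem_filter, Finset.mem_filter]
    rcases le_max_iff.1 hr with h | h
    · exact Or.inl ⟨mem_univ _, h⟩
    · exact Or.inr ⟨mem_univ _, h⟩
  calc ∑ z ∈ univ.filter (fun z : V N => r ≤ sn z), (S ^ m) 0 z
      ≤ ∑ z ∈ univ.filter (fun z : V N => r ≤ av ((AddMonoidHom.fst (ZMod N) (ZMod N)) z)) ∪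
      univ.filter (fun z : V N => r ≤ av ((AddMonoidHom.snd (ZMod N) (ZMod N)) z)), (S ^ m) 0 z :=
        Finset.sum_le_sum_of_subset_of_nonneg k3 fun z _ _ => Torg.pow_nonneg' h0 m _ _
    _ ≤ (∑ z ∈ univ.filter (fun z : V N => r ≤ av ((AddMonoidHom.fst (ZMod N) (ZMod N)) z)),
          (S ^ m) 0 z)
        + ∑ z ∈ univ.filter (fun z : V N => r ≤ av ((AddMonoidHom.snd (ZMod N) (ZMod N)) z)),
          (S ^ m) 0 z := by
        rw [← Finset.sum_union_inter]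
        have := Finset.sum_nonneg (s := univ.filter (fun z : V N =>
          r ≤ av ((AddMonoidHom.fst (ZMod N) (ZMod N)) z)) ∩ univ.filter (fun z : V N =>
          r ≤ av ((AddMonoidHom.snd (ZMod N) (ZMod N)) z)))
          (f := fun z => (S ^ m) 0 z) fun z _ => Torg.pow_nonneg' h0 m _ _
        linarith
    _ ≤ 2 * Real.exp (m * q) * Real.exp (-(θ * r)) + 2 * Real.exp (m * q) * Real.exp (-(θ * r)) :=
        add_le_add k1 k2
    _ = _ := by ring

section one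

variable {A : Matrix (V N) (V N) ℝ} {ν c s : ℝ}

/-- tail of `ahat` from the tails of the powers -/
lemma tl_ahat_gen (h : Dom A ν c) (hs : 0 < s) (p : ∀ x y, 0 ≤ (1 - ν⁻¹ • A) x y) {T R : ℕ}
    {q : ℝ} (hq0 : 0 ≤ q) (hq : ∀ m, m < T → tl ((1 - ν⁻¹ • A) ^ m) R ≤ q) :
    tl (ahat s A) R ≤ q + lm s ν ^ T := by
  have hν := h.hν
  have hβ : 0 < s⁻¹ := by positivity
  have h0 : ∀ x y, 0 ≤ ahat s A x y := ahat_nonneg h hs (off_of_nn hν p)
  have hl0 := lm_nonneg hs hν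
  unfold tl
  have e1 : ∀ z, |ahat s A 0 z| = s⁻¹ * ((ν + s⁻¹)⁻¹ * ∑ m ∈ range T, lm s ν ^ m *
      |((1 - ν⁻¹ • A) ^ m) 0 z|) + lm s ν ^ T * ((1 - ν⁻¹ • A) ^ T * ahat s A) 0 z := by
    intro z
    rw [abs_of_nonneg (h0 0 z)]
    conv_lhs => rw [ahat_steps h hs T]
    unfold Torg.sm
    rw [Matrix.add_apply, Matrix.smul_apply, Matrix.smul_apply, Matrix.smul_apply,
      Matrix.sum_apply, smul_eq_mul, smul_eq_mul, smul_eq_mul]
    congr 3
    refine Finset.sum_congr rfl fun m _ => ?_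
    rw [Matrix.smul_apply, smul_eq_mul, abs_of_nonneg (Torg.pow_nonneg' p m 0 z)]
    rfl
  simp only [e1]
  rw [Finset.sum_add_distrib]
  refine add_le_add ?_ ?_
  · rw [← Finset.mul_sum, ← Finset.mul_sum, Finset.sum_comm]
    simp only [← Finset.mul_sum]
    have e2 : ∑ m ∈ range T, lm s ν ^ m * ∑ z ∈ (H462.box (0 : V N) R)ᶜ,
        |((1 - ν⁻¹ • A) ^ m) 0 z| ≤ ∑ m ∈ range T, lm s ν ^ m * q := by
      refine Finset.sum_le_sum fun m hm => ?_
      exact mul_le_mul_of_nonneg_left (hq m (Finset.mem_range.1 hm)) (pow_nonneg hl0 m)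
    rw [← Finset.sum_mul] at e2
    have e3 : s⁻¹ * ((ν + s⁻¹)⁻¹ * ∑ m ∈ range T, lm s ν ^ m) ≤ 1 := by
      have h3 := mul_neg_geom_sum (lm s ν) T
      have h4 : 1 - lm s ν = s⁻¹ * (ν + s⁻¹)⁻¹ := by
        unfold lm
        field_simp
        ring
      rw [← mul_assoc, ← h4, h3]
      have := pow_nonneg hl0 T
      linarith
    calc s⁻¹ * ((ν + s⁻¹)⁻¹ * ∑ m ∈ range T, lm s ν ^ m * ∑ z ∈ (H462.box (0 : V N) R)ᶜ,
          |((1 - ν⁻¹ • A) ^ m) 0 z|)
        ≤ s⁻¹ * ((ν + s⁻¹)⁻¹ * ((∑ m ∈ range T, lm s ν ^ m) * q)) := by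
          refine mul_le_mul_of_nonneg_left (mul_le_mul_of_nonneg_left e2 ?_) hβ.le
          positivity
      _ = (s⁻¹ * ((ν + s⁻¹)⁻¹ * ∑ m ∈ range T, lm s ν ^ m)) * q := by ring
      _ ≤ 1 * q := mul_le_mul_of_nonneg_right e3 hq0
      _ = _ := one_mul _
  · rw [← Finset.mul_sum]
    refine (mul_le_mul_of_nonneg_left ?_ (pow_nonneg hl0 T)).trans (mul_one _).le
    rw [← rem_row (s := s) h T 0]
    exact Finset.sum_le_sum_of_subset_of_nonneg (Finset.subset_univ _) fun z _ _ =>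
      rem_nonneg h hs p T 0 z

/-- the killing -/
lemma lm_pow_le (hs : 0 < s) (hν : 0 < ν) (T : ℕ) :
    lm s ν ^ T ≤ Real.exp (-(T / (1 + s * ν))) := by
  have hg : 0 < 1 + s * ν := by positivity
  have h1 : lm s ν ≤ Real.exp (-(1 / (1 + s * ν))) := by
    have h2 := Real.add_one_le_exp (-(1 / (1 + s * ν)))
    rw [lm_eq hs hν]
    refine le_trans (le_of_eq ?_) h2
    field_simp
    ring
  refine (pow_le_pow_left₀ (lm_nonneg hs hν) h1 T).trans (le_of_eq ?_)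
  rw [← Real.exp_nat_mul]
  congr 1
  ring

/-- **tail of `ahat`, Gaussian exponent** -/
theorem tl_ahat_mom (h : Dom A ν c) (hs : 0 < s) (p : ∀ x y, 0 ≤ (1 - ν⁻¹ • A) x y) {κ C1 : ℝ}
    (hκ : 0 < κ) (hm : ∑ z, (1 - ν⁻¹ • A : Matrix (V N) (V N) ℝ) 0 z * Real.exp (κ * sn z) ≤ C1)
    {a L Λ : ℝ} (ha : 1 ≤ a) (hL : 1 ≤ L) {R : ℕ} (hR : Λ * L * (√(1 + s * ν) / κ) ≤ R) :
    tl (ahat s A) R ≤ 4 * Real.exp ((2 * a * C1 - Λ / 2) * L) + Real.exp (-(a * L)) := by
  have hν := h.hν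
  set g : ℝ := 1 + s * ν with hg
  have hsν : 0 < s * ν := by positivity
  have hg1 : 1 ≤ g := by linarith
  have hg0 : 0 < g := by linarith
  have hC1 : 0 ≤ C1 := le_trans (Finset.sum_nonneg fun z _ =>
    mul_nonneg (p _ _) (Real.exp_pos _).le) hm
  have haL : 1 ≤ a * L := by nlinarith
  have hagL : 1 ≤ a * g * L := by nlinarith
  set T : ℕ := ⌈a * g * L⌉₊ with hT
  have hT1 : a * g * L ≤ T := Nat.le_ceil _
  have hT2 : (T : ℝ) ≤ 2 * (a * g * L) := by
    have := (Nat.ceil_lt_add_one (by linarith : 0 ≤ a * g * L)).le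
    linarith
  have hsg : 0 < √g := Real.sqrt_pos.2 hg0
  have hsg1 : 1 ≤ √g := Real.one_le_sqrt.2 hg1
  have hsgsq : √g ^ 2 = g := Real.sq_sqrt hg0.le
  set θ : ℝ := κ / (2 * √g) with hθ
  have hθ0 : 0 ≤ θ := by positivity
  have hθκ : 2 * θ ≤ κ := by
    rw [hθ, show 2 * (κ / (2 * √g)) = κ / √g by field_simp]
    exact div_le_self hκ.le hsg1
  have hθ2 : 4 * (θ ^ 2 / κ ^ 2) * C1 = C1 / g := by
    rw [hθ, div_pow, mul_pow, hsgsq]
    field_simp
    norm_num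
  refine (tl_ahat_gen h hs p (T := T) (R := R) (q := 4 * Real.exp ((2 * a * C1 - Λ / 2) * L))
    (by positivity) fun m hmT => ?_).trans (add_le_add le_rfl ?_)
  · have e2 := tail_th (Torg.ti_step h.ti ν) p (Torg.step_row h) hκ hm hθ0 hθκ m R
    have e3 : tl ((1 - ν⁻¹ • A) ^ m) R
        ≤ ∑ z ∈ univ.filter (fun z : V N => (R : ℝ) ≤ sn z), ((1 - ν⁻¹ • A) ^ m) 0 z := by
      unfold tl
      refine le_trans (Finset.sum_le_sum_of_subset_of_nonneg
        (t := univ.filter (fun z : V N => (R : ℝ) ≤ sn z)) ?_ fun z _ _ => abs_nonneg _)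
        (le_of_eq ?_)
      · intro z hz
        rw [Finset.mem_filter]
        exact ⟨Finset.mem_univ _, sn_of_not_box (Finset.mem_compl.1 hz)⟩
      · exact Finset.sum_congr rfl fun z _ => abs_of_nonneg (Torg.pow_nonneg' p m 0 z)
    refine e3.trans (e2.trans ?_)
    rw [mul_assoc, ← Real.exp_add]
    refine mul_le_mul_of_nonneg_left (Real.exp_le_exp.2 ?_) (by norm_num)
    rw [hθ2]
    have k1 : (m : ℝ) * (C1 / g) ≤ 2 * a * C1 * L := by
      have hm2 : (m : ℝ) ≤ 2 * (a * g * L) := le_trans (by exact_mod_cast hmT.le) hT2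
      calc (m : ℝ) * (C1 / g) ≤ 2 * (a * g * L) * (C1 / g) :=
            mul_le_mul_of_nonneg_right hm2 (by positivity)
        _ = _ := by field_simp
    have k2 : Λ / 2 * L ≤ θ * R := by
      have := mul_le_mul_of_nonneg_left hR hθ0
      refine le_trans (le_of_eq ?_) this
      rw [hθ]
      field_simp
    linarith
  · refine (lm_pow_le hs hν T).trans (Real.exp_le_exp.2 (neg_le_neg ?_))
    rw [le_div_iff₀ hg0]
    linarith

end one

/-! ### the periodized forms -/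

section per

variable {h : N ∣ N3} {A3 : Matrix (V N3) (V N3) ℝ} {ν c κ C1 s : ℝ}

/-- the periodization as a pair of exact tori -/
lemma two_pz (h : N ∣ N3) (hd : Dom A3 ν c) (off : ∀ z, z ≠ 0 → A3 0 z ≤ 0) (hκ : 0 < κ)
    (hm : ∑ z, (1 - ν⁻¹ • A3 : Matrix (V N3) (V N3) ℝ) 0 z * Real.exp (κ * sn z) ≤ C1) :
    Two h (pz h A3) A3 ν c κ C1 :=
  ⟨Torg.dom_pz h hd, hd, Torg.per_pz h hd.ti, off, hκ, hm⟩

/-- tail of `ahat` for the periodized form -/
theorem tl_ahat_pz {A : Matrix (V N) (V N) ℝ} (hT : Two h A A3 ν c κ C1) (hs : 0 < s)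
    {a L Λ : ℝ} (ha : 1 ≤ a) (hL : 1 ≤ L) {R : ℕ} (hR : Λ * L * (√(1 + s * ν) / κ) ≤ R) :
    tl (ahat s A) R ≤ 4 * Real.exp ((2 * a * C1 - Λ / 2) * L) + Real.exp (-(a * L)) :=
  tl_ahat_mom hT.dom hs hT.h0 hT.kp (mom_pz hT.step hT.h02 hT.kp.le hT.mom) ha hL hR

/-- the number of the entries of `ahat`, exact periodization -/
lemma eA_le (hs : 0 < s) (hν : 0 < ν) {a L : ℝ} (ha : 1 ≤ a) (hL : 1 ≤ L)
    (hN : L ^ 5 * √(1 + s * ν) ≤ κ * N) (hLa : 2 * a ≤ 9 * L ^ 5) :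
    eA s ν κ C1 0 1 N ⌈a * (1 + s * ν) * L⌉₊
      ≤ 2 * Real.exp (-(a * L)) + 8 * a * L * Real.exp C1 * Real.exp (-(L ^ 2 / 12)) := by
  set g : ℝ := 1 + s * ν with hg
  have hsν : 0 < s * ν := by positivity
  have hg1 : 1 ≤ g := by linarith
  have hg0 : 0 < g := by linarith
  have hagL : 1 ≤ a * g * L := by nlinarith [mul_le_mul ha hg1 (by norm_num) (by linarith)]
  set T : ℕ := ⌈a * g * L⌉₊ with hT
  have hT1 : a * g * L ≤ T := Nat.le_ceil _
  have hT2 : (T : ℝ) ≤ 2 * (a * g * L) := by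
    have := (Nat.ceil_lt_add_one (by linarith : 0 ≤ a * g * L)).le
    linarith
  have hTp : 0 < (T : ℝ) := by linarith
  unfold eA
  refine add_le_add ?_ ?_
  · refine mul_le_mul_of_nonneg_left ?_ (by norm_num)
    refine (lm_pow_le hs hν T).trans (Real.exp_le_exp.2 (neg_le_neg ?_))
    rw [le_div_iff₀ hg0]
    linarith
  · rw [zero_mul, mul_zero, add_zero]
    have k1 : Torg.tau κ C1 N T ≤ 4 * Real.exp C1 * Real.exp (-(L ^ 2 / 12)) := by
      unfold Torg.tau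
      refine mul_le_mul_of_nonneg_left (Real.exp_le_exp.2 (neg_le_neg ?_)) (by positivity)
      have hsT : 0 < √(T : ℝ) := Real.sqrt_pos.2 hTp
      have k2 : √(T : ℝ) ≤ 3 * L ^ 3 * √g := by
        rw [show 3 * L ^ 3 * √g = √((3 * L ^ 3) ^ 2 * g) by
          rw [Real.sqrt_mul (by positivity), Real.sqrt_sq (by positivity)]]
        refine Real.sqrt_le_sqrt (hT2.trans ?_)
        have h5 : 2 * a * L ≤ 9 * L ^ 5 * L := mul_le_mul_of_nonneg_right hLa (by linarith)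
        calc 2 * (a * g * L) = 2 * a * L * g := by ring
          _ ≤ 9 * L ^ 5 * L * g := mul_le_mul_of_nonneg_right h5 hg0.le
          _ = _ := by ring
      rw [div_le_div_iff₀ (by norm_num) (by positivity)]
      calc L ^ 2 * (4 * √(T : ℝ)) ≤ L ^ 2 * (4 * (3 * L ^ 3 * √g)) := by gcongr
        _ = (L ^ 5 * √g) * 12 := by ring
        _ ≤ κ * N * 12 := mul_le_mul_of_nonneg_right hN (by norm_num)
    calc (T : ℝ) * Torg.tau κ C1 N T / g
        ≤ (2 * (a * g * L)) * (4 * Real.exp C1 * Real.exp (-(L ^ 2 / 12))) / g := by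
          gcongr
          exact Torg.tau_nonneg _ _ _ _
      _ = _ := by field_simp; ring

/-- the number of the increments of the covariance, exact periodization -/
lemma eE_le (hs : 0 < s) (hν : 0 < ν) (hc : 0 < c) {L : ℝ} (hL : 1 ≤ L)
    (hN : L ^ 5 * √(1 + s * ν) ≤ κ * N) (D : ℕ) :
    Torg.eE ν c κ C1 0 1 0 N ⌈(1 + s * ν) * L ^ 6⌉₊ D
      ≤ 5 * ν * D ^ 2 / ((1 + s * ν) * L ^ 6 * c ^ 2)
        + 20 * (1 + s * ν) * L ^ 6 * Real.exp C1 * Real.exp (-(L ^ 2 / 12)) / ν := by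
  set g : ℝ := 1 + s * ν with hg
  have hsν : 0 < s * ν := by positivity
  have hg1 : 1 ≤ g := by linarith
  have hg0 : 0 < g := by linarith
  have hL6 : 1 ≤ L ^ 6 := one_le_pow₀ hL
  have hgL : 1 ≤ g * L ^ 6 := by nlinarith
  set m : ℕ := ⌈g * L ^ 6⌉₊ with hm
  have hm1 : g * L ^ 6 ≤ m := Nat.le_ceil _
  have hm2 : (m : ℝ) ≤ 2 * (g * L ^ 6) := by
    have := (Nat.ceil_lt_add_one (by linarith : 0 ≤ g * L ^ 6)).le
    linarith
  have hm0 : 0 < (m : ℝ) := by linarith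
  have hM : ((2 * m + 1 : ℕ) : ℝ) ≤ 5 * (g * L ^ 6) := by
    push_cast
    linarith
  have hM0 : 0 < ((2 * m + 1 : ℕ) : ℝ) := by positivity
  unfold Torg.eE
  refine add_le_add ?_ ?_
  · gcongr
  · rw [zero_mul, mul_zero, mul_zero, add_zero, add_zero]
    have k1 : Torg.tau κ C1 N (2 * m + 1) ≤ 4 * Real.exp C1 * Real.exp (-(L ^ 2 / 12)) := by
      unfold Torg.tau
      refine mul_le_mul_of_nonneg_left (Real.exp_le_exp.2 (neg_le_neg ?_)) (by positivity)
      have hsT : 0 < √((2 * m + 1 : ℕ) : ℝ) := Real.sqrt_pos.2 hM0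
      have k2 : √((2 * m + 1 : ℕ) : ℝ) ≤ 3 * L ^ 3 * √g := by
        rw [show 3 * L ^ 3 * √g = √((3 * L ^ 3) ^ 2 * g) by
          rw [Real.sqrt_mul (by positivity), Real.sqrt_sq (by positivity)]]
        refine Real.sqrt_le_sqrt (hM.trans ?_)
        nlinarith
      rw [div_le_div_iff₀ (by norm_num) (by positivity)]
      calc L ^ 2 * (4 * √((2 * m + 1 : ℕ) : ℝ)) ≤ L ^ 2 * (4 * (3 * L ^ 3 * √g)) := by gcongr
        _ = (L ^ 5 * √g) * 12 := by ring
        _ ≤ κ * N * 12 := mul_le_mul_of_nonneg_right hN (by norm_num)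
    calc ((2 * m + 1 : ℕ) : ℝ) * Torg.tau κ C1 N (2 * m + 1) / ν
        ≤ (5 * (g * L ^ 6)) * (4 * Real.exp C1 * Real.exp (-(L ^ 2 / 12))) / ν := by
          gcongr
          exact Torg.tau_nonneg _ _ _ _
      _ = _ := by ring

end per

end

end Vale.Agent.P159.H733.Vt
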