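import Vale.Agent.P159.H733.Vt4

/-!
P159 / VTOR instance (helper733), part 5: the numbers of the change of the torus from two tori near
the periodizations of one reference form (`Near`): entries of `ahat`, covariances, tails, size of the
field.
-/

set_option linter.unusedSectionVars false

namespace Vale.Agent.P159.H733.Vt

open MeasureTheory ProbabilityTheory Finset Matrix
open Vale.Agent.P159.TM.Spec (V)
open Vale.Agent.P159.TM.H764 (cN dt EE)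
open Vale.Agent.P159.TM.H459 (sn)
open Vale.Agent.P159.H37 (gau qf)
open Vale.Agent.P159.H363
open Vale.Agent.P159.H864 (TI sym fc mlt)
open Vale.Agent.P159.H462 (Dom ahat Gam ti_ahat ti_Gam sym_ahat)
open Vale.Agent.P159.H889
open Vale.Agent.P159.H733.Torg (ip ip_sub ip_neg ip_zero Cv ip_inj prj Near Two Stb sm pz av
  ti_sm sym_sm ti_step step_row)
open scoped Real

noncomputable section

variable {N N1 N2 N3 : ℕ} [NeZero N] [NeZero N1] [NeZero N2] [NeZero N3]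

/-! ### size of the field -/

/-- variance of one cell in the typical law -/
theorem sg_sq_le {A : Matrix (V N) (V N) ℝ} {ν c : ℝ} (h : Dom A ν c) :
    H889.sg A ^ 2 ≤ ν⁻¹ + c⁻¹ * (50 * (1 + Real.log (1 + (N : ℝ) ^ 2))) := by
  have hν := h.hν
  have hc := h.hc
  have hN : (0 : ℝ) < N := by exact_mod_cast NeZero.pos N
  have e1 : H889.sg A ^ 2 = (pin A * (pin A)ᵀ) 0 0 := by
    unfold H889.sg
    rw [Real.sq_sqrt (Finset.sum_nonneg fun _ _ => by positivity), Matrix.mul_apply]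
    exact Finset.sum_congr rfl fun i _ => by
      rw [Matrix.transpose_apply]
      ring
  have e2 : (pin A * (pin A)ᵀ) 0 0 = ((N : ℝ) ^ 2)⁻¹ * ∑ k, (sym A k)⁻¹ := by
    rw [pin_mul h.ti h.nn]
    unfold H864.fc H864.mlt
    simp only [Matrix.of_apply, sub_zero]
    congr 1
    refine Finset.sum_congr rfl fun k _ => ?_
    rw [H864.dt_zero, TM.H764.cN_zero, mul_one]
  set m : ℝ := 16 / (N : ℝ) ^ 2 with hm
  have hm0 : 0 < m := by positivity
  have h3 : ∀ k : V N, (sym A k)⁻¹ ≤ ν⁻¹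
      + c⁻¹ * (2 * (if k ≠ 0 ∧ EE k < 9 then (EE k + m)⁻¹ else 0)) := by
    intro k
    by_cases hk : k = 0
    · rw [hk, h.zero, _root_.inv_zero, if_neg (by simp)]
      simp only [mul_zero, add_zero]
      positivity
    · have hE := H462.EE_gap hk
      have hE0 : 0 < EE k := lt_of_lt_of_le hm0 hE
      have h9 : EE k < 9 := by
        unfold TM.H764.EE
        have q1 := TM.H764.neg_one_le_cN k.1
        have q2 := TM.H764.neg_one_le_cN k.2
        linarith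
      rw [if_pos ⟨hk, h9⟩]
      have h4 := h.ge k
      have h5 : 0 < ν * (c * EE k) / (ν + c * EE k) := by positivity
      have h6 : (sym A k)⁻¹ ≤ (ν * (c * EE k) / (ν + c * EE k))⁻¹ := inv_anti₀ h5 h4
      have h7 : (ν * (c * EE k) / (ν + c * EE k))⁻¹ = ν⁻¹ + c⁻¹ * (EE k)⁻¹ := by
        field_simp
        ring
      have h8 : (EE k)⁻¹ ≤ 2 * (EE k + m)⁻¹ := by
        rw [← div_eq_mul_inv, inv_eq_one_div, div_le_div_iff₀ hE0 (by positivity)]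
        rw [← hm] at hE
        linarith
      rw [h7] at h6
      refine h6.trans (add_le_add le_rfl (mul_le_mul_of_nonneg_left h8 (by positivity)))
  have h4 : ∑ k : V N, (sym A k)⁻¹ ≤ (N : ℝ) ^ 2 * ν⁻¹
      + c⁻¹ * (2 * ∑ k ∈ H462.low N 9, (EE k + m)⁻¹) := by
    refine (Finset.sum_le_sum fun k _ => h3 k).trans (le_of_eq ?_)
    rw [Finset.sum_add_distrib, Finset.sum_const, Finset.card_univ, nsmul_eq_mul, TM.H764.card_V,
      ← Finset.mul_sum, ← Finset.mul_sum]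
    unfold H462.low
    rw [Finset.sum_filter]
  have h5 := H462.sum_log (N := N) (ν := 9) (m := m) (by norm_num) hm0
  have h6 : Real.log (1 + 9 / m) ≤ Real.log (1 + (N : ℝ) ^ 2) := by
    refine Real.log_le_log (by positivity) ?_
    have : 9 / m = 9 / 16 * (N : ℝ) ^ 2 := by
      rw [hm]
      field_simp
    rw [this]
    nlinarith [sq_nonneg (N : ℝ)]
  rw [e1, e2, inv_mul_le_iff₀ (by positivity)]
  refine h4.trans ?_
  have h7 : ∑ k ∈ H462.low N 9, (EE k + m)⁻¹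
      ≤ 25 * (N : ℝ) ^ 2 * (1 + Real.log (1 + (N : ℝ) ^ 2)) := by
    refine h5.trans (mul_le_mul_of_nonneg_left (by linarith) (by positivity))
  have h8 := mul_le_mul_of_nonneg_left h7 (show (0 : ℝ) ≤ c⁻¹ * 2 by positivity)
  calc (N : ℝ) ^ 2 * ν⁻¹ + c⁻¹ * (2 * ∑ k ∈ H462.low N 9, (EE k + m)⁻¹)
      = (N : ℝ) ^ 2 * ν⁻¹ + c⁻¹ * 2 * ∑ k ∈ H462.low N 9, (EE k + m)⁻¹ := by ring
    _ ≤ (N : ℝ) ^ 2 * ν⁻¹
        + c⁻¹ * 2 * (25 * (N : ℝ) ^ 2 * (1 + Real.log (1 + (N : ℝ) ^ 2))) := by linarith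
    _ = _ := by ring

/-! ### `ahat` through the smoothing matrix -/

section ah

variable {A : Matrix (V N) (V N) ℝ} {ν c s : ℝ}

/-- the rate of one step -/
def lm (s ν : ℝ) : ℝ := ν / (ν + s⁻¹)

lemma lm_eq (hs : 0 < s) (hν : 0 < ν) : lm s ν = s * ν / (1 + s * ν) := by
  unfold lm
  field_simp
  ring

lemma lm_nonneg (hs : 0 < s) (hν : 0 < ν) : 0 ≤ lm s ν := by
  unfold lm
  positivity

lemma lm_le_one (hs : 0 < s) (hν : 0 < ν) : lm s ν ≤ 1 := by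
  unfold lm
  rw [div_le_one (by positivity)]
  have : 0 < s⁻¹ := by positivity
  linarith

/-- `ahat` = first `T` steps + rest -/
lemma ahat_steps (h : Dom A ν c) (hs : 0 < s) (T : ℕ) :
    ahat s A = s⁻¹ • sm s⁻¹ ν A T + lm s ν ^ T • ((1 - ν⁻¹ • A) ^ T * ahat s A) := by
  have hν := h.hν
  have tS := ti_step h.ti ν
  refine H864.sym_inj (ti_ahat s A) (((ti_sm h.ti s⁻¹ ν T).smul _).add
    (((tS.pow T).mul (ti_ahat s A)).smul _)) fun k => ?_
  rw [H864.sym_add, H864.sym_smul, H864.sym_smul, sym_sm h.ti, H864.sym_mul (tS.pow T)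
    (ti_ahat s A), H864.sym_pow tS, Torg.sym_step, sym_ahat]
  have h0 := h.nn k
  set r : ℝ := ν / (ν + s⁻¹) * (1 - sym A k / ν) with hr
  have h2 : 1 - r = (1 + s * sym A k) * (s⁻¹ / (ν + s⁻¹)) := by
    rw [hr]
    field_simp
    ring
  have h3 := mul_neg_geom_sum r T
  have h5 : 0 < 1 + s * sym A k := by positivity
  have h4 : s⁻¹ * ((ν + s⁻¹)⁻¹ * ∑ m ∈ range T, r ^ m) = (1 - r ^ T) * (1 + s * sym A k)⁻¹ := by
    rw [← h3, h2]
    field_simp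
  rw [h4]
  have h6 : lm s ν ^ T * ((1 - sym A k / ν) ^ T * (1 + s * sym A k)⁻¹)
      = r ^ T * (1 + s * sym A k)⁻¹ := by
    unfold lm
    rw [hr, mul_pow]
    ring
  rw [h6]
  ring

lemma off_of_nn (hν : 0 < ν) (p : ∀ x y, 0 ≤ (1 - ν⁻¹ • A) x y) (x y : V N) (hxy : x ≠ y) :
    A x y ≤ 0 := by
  have h := p x y
  rw [Matrix.sub_apply, Matrix.one_apply_ne hxy, Matrix.smul_apply, smul_eq_mul, zero_sub] at h
  by_contra hc
  push Not at hc
  have := mul_pos (inv_pos.2 hν) hc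
  linarith

lemma rem_nonneg (h : Dom A ν c) (hs : 0 < s) (p : ∀ x y, 0 ≤ (1 - ν⁻¹ • A) x y) (T : ℕ)
    (x y : V N) : 0 ≤ ((1 - ν⁻¹ • A) ^ T * ahat s A) x y := by
  rw [Matrix.mul_apply]
  exact Finset.sum_nonneg fun w _ => mul_nonneg (Torg.pow_nonneg' p T x w)
    (ahat_nonneg h hs (off_of_nn h.hν p) w y)

lemma rem_row (h : Dom A ν c) (T : ℕ) (x : V N) :
    ∑ y, ((1 - ν⁻¹ • A) ^ T * ahat s A) x y = 1 := by
  simp only [Matrix.mul_apply]
  rw [Finset.sum_comm]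
  simp only [← Finset.mul_sum, ahat_row A h.zero, mul_one]
  exact Torg.pow_row (step_row h) T x

lemma rem_le (h : Dom A ν c) (hs : 0 < s) (p : ∀ x y, 0 ≤ (1 - ν⁻¹ • A) x y) (T : ℕ)
    (x y : V N) : ((1 - ν⁻¹ • A) ^ T * ahat s A) x y ≤ 1 := by
  rw [← rem_row (s := s) h T x]
  exact Finset.single_le_sum (f := fun y => ((1 - ν⁻¹ • A) ^ T * ahat s A) x y)
    (fun w _ => rem_nonneg h hs p T x w) (Finset.mem_univ y)

/-- `ahat` is near its first `T` steps -/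
lemma ahat_sm (h : Dom A ν c) (hs : 0 < s) (p : ∀ x y, 0 ≤ (1 - ν⁻¹ • A) x y) (T : ℕ)
    (x y : V N) : 0 ≤ ahat s A x y - s⁻¹ * sm s⁻¹ ν A T x y ∧
      ahat s A x y - s⁻¹ * sm s⁻¹ ν A T x y ≤ lm s ν ^ T := by
  have e : ahat s A x y - s⁻¹ * sm s⁻¹ ν A T x y
      = lm s ν ^ T * ((1 - ν⁻¹ • A) ^ T * ahat s A) x y := by
    conv_lhs => rw [ahat_steps h hs T]
    rw [Matrix.add_apply, Matrix.smul_apply, Matrix.smul_apply, smul_eq_mul, smul_eq_mul]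
    ring
  rw [e]
  have h0 := pow_nonneg (lm_nonneg hs h.hν) T
  exact ⟨mul_nonneg h0 (rem_nonneg h hs p T x y),
    (mul_le_mul_of_nonneg_left (rem_le h hs p T x y) h0).trans (mul_one _).le⟩

end ah

/-! ### entries of `ahat` on a torus near a periodization -/

/-- error of the entries of `ahat` on one torus -/
def eA (s ν κ C1 η u : ℝ) (N T : ℕ) : ℝ :=
  2 * lm s ν ^ T + (T * Torg.tau κ C1 N T + T ^ 2 * (η * u)) / (1 + s * ν)

section near

variable {h : N ∣ N3} {A : Matrix (V N) (V N) ℝ} {A3 : Matrix (V N3) (V N3) ℝ}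
  {ν c κ C1 η u s : ℝ}

lemma Near.nn3 (hN : Near h A A3 ν c κ C1 η u) (x y : V N3) : 0 ≤ (1 - ν⁻¹ • A3) x y :=
  hN.two.h02 x y

/-- entries of `ahat` -/
theorem Near.ahat_ent (hN : Near h A A3 ν c κ C1 η u) (hs : 0 < s) {T : ℕ} (hT : 1 ≤ T)
    {ζ : ℤ × ℤ} (h1 : 2 * ζ.1.natAbs ≤ N) (h2 : 2 * ζ.2.natAbs ≤ N) :
    |ahat s A3 0 (ip N3 ζ) - ahat s A 0 (ip N ζ)| ≤ eA s ν κ C1 η u N T := by
  have hν := hN.dom.hν
  have hβ : 0 < s⁻¹ := by positivity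
  have q1 := ahat_sm hN.dom hs hN.stb.nn T 0 (ip N ζ)
  have q3 := ahat_sm hN.dom2 hs (Near.nn3 hN) T 0 (ip N3 ζ)
  have g := hN.two.sm_diff hβ.le hT h1 h2
  have c1 := abs_le.1 (Torg.sm_stab hν hβ.le hN.stb T 0 (ip N ζ))
  have e1 : s⁻¹ * (T * Torg.tau κ C1 N T / (ν + s⁻¹)) = T * Torg.tau κ C1 N T / (1 + s * ν) := by
    field_simp
    ring
  have e2 : s⁻¹ * (T ^ 2 * (η * u) / (ν + s⁻¹)) = T ^ 2 * (η * u) / (1 + s * ν) := by
    field_simp
    ring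
  have g1 := mul_le_mul_of_nonneg_left g.1 hβ.le
  have g2 := mul_le_mul_of_nonneg_left g.2 hβ.le
  have d1 := mul_le_mul_of_nonneg_left c1.1 hβ.le
  have d2 := mul_le_mul_of_nonneg_left c1.2 hβ.le
  rw [e1] at g2
  rw [mul_neg, e2] at d1
  rw [e2] at d2
  have hl := pow_nonneg (lm_nonneg hs hν) T
  have ht : 0 ≤ T * Torg.tau κ C1 N T / (1 + s * ν) := by
    have := Torg.tau_nonneg κ C1 N T
    positivity
  unfold eA
  rw [add_div, abs_le]
  constructor <;> linarith [q1.1, q1.2, q3.1, q3.2]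

end near

/-- two tori near the same reference form -/
structure Pr (h1 : N1 ∣ N3) (h2 : N2 ∣ N3) (A1 : Matrix (V N1) (V N1) ℝ)
    (A2 : Matrix (V N2) (V N2) ℝ) (A3 : Matrix (V N3) (V N3) ℝ) (ν c κ C1 η1 u1 η2 u2 : ℝ) :
    Prop where
  n1 : Near h1 A1 A3 ν c κ C1 η1 u1
  n2 : Near h2 A2 A3 ν c κ C1 η2 u2

section pair

variable {h1 : N1 ∣ N3} {h2 : N2 ∣ N3} {A1 : Matrix (V N1) (V N1) ℝ}
  {A2 : Matrix (V N2) (V N2) ℝ} {A3 : Matrix (V N3) (V N3) ℝ} {ν c κ C1 η1 u1 η2 u2 s : ℝ}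

lemma Pr.symm (h : Pr h1 h2 A1 A2 A3 ν c κ C1 η1 u1 η2 u2) :
    Pr h2 h1 A2 A1 A3 ν c κ C1 η2 u2 η1 u1 := ⟨h.n2, h.n1⟩

/-- entries of `ahat` on two tori -/
theorem Pr.ahat_ent (h : Pr h1 h2 A1 A2 A3 ν c κ C1 η1 u1 η2 u2) (hs : 0 < s) {T : ℕ}
    (hT : 1 ≤ T) {D : ℕ} (hD1 : 2 * D ≤ N1) (hD2 : 2 * D ≤ N2) {ζ : ℤ × ℤ} (hζ : ζ ∈ zb D) :
    |ahat s A2 0 (ip N2 ζ) - ahat s A1 0 (ip N1 ζ)|
      ≤ eA s ν κ C1 η1 u1 N1 T + eA s ν κ C1 η2 u2 N2 T := by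
  have hz := mem_zb.1 hζ
  have q1 := abs_le.1 (Near.ahat_ent h.n1 hs hT (ζ := ζ) (by omega) (by omega))
  have q2 := abs_le.1 (Near.ahat_ent h.n2 hs hT (ζ := ζ) (by omega) (by omega))
  rw [abs_le]
  constructor <;> linarith [q1.1, q1.2, q2.1, q2.2]

/-- **(E)** on two tori -/
theorem Pr.ent (h : Pr h1 h2 A1 A2 A3 ν c κ C1 η1 u1 η2 u2) {β : ℝ} (hβ : 0 ≤ β) {m : ℕ}
    (hm : 1 ≤ m) {K1 : Matrix (V N1) (V N1) ℝ} {K2 : Matrix (V N2) (V N2) ℝ} (hK1 : Cv β A1 K1)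
    (hK2 : Cv β A2 K2) {D : ℕ} (hD1 : 2 * D ≤ N1) (hD2 : 2 * D ≤ N2) {ζ : ℤ × ℤ}
    (hζ : ζ ∈ zb D) :
    |(K2 0 (ip N2 ζ) - K2 0 0) - (K1 0 (ip N1 ζ) - K1 0 0)|
      ≤ Torg.eE ν c κ C1 η1 u1 β N1 m D + Torg.eE ν c κ C1 η2 u2 β N2 m D := by
  have hz := mem_zb.1 hζ
  have q1 := abs_le.1 (h.n1.ent hβ hm hK1 (Torg.cv_cov β A3) hD1 hz.1 hz.2)
  have q2 := abs_le.1 (h.n2.ent hβ hm hK2 (Torg.cv_cov β A3) hD2 hz.1 hz.2)
  rw [abs_le]
  constructor <;> linarith [q1.1, q1.2, q2.1, q2.2]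

end pair

/-! ### tails -/

/-- l1 stability of powers -/
lemma Stb.pow_l1 {S S' : Matrix (V N) (V N) ℝ} {η u : ℝ} (h : Stb S S' η u) (n : ℕ) :
    ∑ z, |(S ^ n) 0 z - (S' ^ n) 0 z| ≤ n * η := by
  induction n with
  | zero => simp
  | succ n ih =>
    have col' : ∀ w : V N, ∑ z, S' w z = 1 := h.row'
    have e1 : ∀ z, |(S ^ (n + 1)) 0 z - (S' ^ (n + 1)) 0 z| ≤
        ∑ w, |(S ^ n) 0 w - (S' ^ n) 0 w| * S' w z + ∑ w, (S ^ n) 0 w * |S w z - S' w z| := by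
      intro z
      have e2 : (S ^ (n + 1)) 0 z - (S' ^ (n + 1)) 0 z =
          ∑ w, ((S ^ n) 0 w - (S' ^ n) 0 w) * S' w z + ∑ w, (S ^ n) 0 w * (S w z - S' w z) := by
        rw [pow_succ, pow_succ, Matrix.mul_apply, Matrix.mul_apply, ← Finset.sum_sub_distrib,
          ← Finset.sum_add_distrib]
        exact Finset.sum_congr rfl fun w _ => by ring
      rw [e2]
      refine (abs_add_le _ _).trans (add_le_add ?_ ?_)
      · refine (Finset.abs_sum_le_sum_abs _ _).trans (le_of_eq ?_)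
        exact Finset.sum_congr rfl fun w _ => by rw [abs_mul, abs_of_nonneg (h.nn' w z)]
      · refine (Finset.abs_sum_le_sum_abs _ _).trans (le_of_eq ?_)
        exact Finset.sum_congr rfl fun w _ => by
          rw [abs_mul, abs_of_nonneg (Torg.pow_nonneg' h.nn n 0 w)]
    refine (Finset.sum_le_sum fun z _ => e1 z).trans ?_
    rw [Finset.sum_add_distrib, Finset.sum_comm, Finset.sum_comm (f := fun z w =>
      (S ^ n) 0 w * |S w z - S' w z|)]
    simp only [← Finset.mul_sum, col', mul_one]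
    have e3 : ∀ w : V N, ∑ z, |S w z - S' w z| ≤ η := by
      intro w
      refine le_trans (le_of_eq ?_) h.l1
      rw [← Equiv.sum_comp (Equiv.addRight w)]
      refine Finset.sum_congr rfl fun z _ => ?_
      rw [Equiv.coe_addRight, h.ti.eq w, h.ti'.eq w, add_sub_cancel_right]
    have e4 : ∑ w, (S ^ n) 0 w * ∑ z, |S w z - S' w z| ≤ ∑ w, (S ^ n) 0 w * η :=
      Finset.sum_le_sum fun w _ =>
        mul_le_mul_of_nonneg_left (e3 w) (Torg.pow_nonneg' h.nn n 0 w)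
    rw [← Finset.sum_mul, Torg.pow_row h.row, one_mul] at e4
    push_cast
    linarith

/-- exponential moment of a periodization -/
lemma mom_pz {h : N ∣ N3} {S : Matrix (V N) (V N) ℝ} {S3 : Matrix (V N3) (V N3) ℝ}
    (hP : Torg.Per h S S3) (h0 : ∀ x y, 0 ≤ S3 x y) {κ C1 : ℝ} (hκ : 0 ≤ κ)
    (hm : ∑ z, S3 0 z * Real.exp (κ * sn z) ≤ C1) :
    ∑ z, S 0 z * Real.exp (κ * sn z) ≤ C1 := by
  refine le_trans ?_ hm
  have e1 : ∀ z, S 0 z * Real.exp (κ * sn z)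
      = ∑ z3 ∈ univ.filter (fun z3 : V N3 => prj h z3 = z), S3 0 z3 * Real.exp (κ * sn z) := by
    intro z
    rw [hP.ker, Finset.sum_mul]
  simp only [e1]
  have e2 : ∀ z : V N, ∑ z3 ∈ univ.filter (fun z3 : V N3 => prj h z3 = z),
      S3 0 z3 * Real.exp (κ * sn z) = ∑ z3 ∈ univ.filter (fun z3 : V N3 => prj h z3 = z),
      S3 0 z3 * Real.exp (κ * sn (prj h z3)) := by
    intro z
    refine Finset.sum_congr rfl fun z3 hz => ?_
    rw [(Finset.mem_filter.1 hz).2]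
  simp only [e2]
  rw [Finset.sum_fiberwise]
  refine Finset.sum_le_sum fun z3 _ => ?_
  refine mul_le_mul_of_nonneg_left (Real.exp_le_exp.2 ?_) (h0 0 z3)
  refine mul_le_mul_of_nonneg_left ?_ hκ
  have q : sn (prj h z3) ≤ sn z3 := by
    have e3 : prj h z3 = ip N (z3.1.valMinAbs, z3.2.valMinAbs) := by
      have h5 := Torg.prj_ip h (z3.1.valMinAbs, z3.2.valMinAbs)
      rw [ip_val] at h5
      exact h5
    rw [e3]
    exact Torg.sn_ip_le (le_max_left _ _) (le_max_right _ _)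
  exact_mod_cast q

lemma sn_of_not_box {z : V N} {R : ℕ} (hz : z ∉ H462.box 0 R) : (R : ℝ) ≤ sn z := by
  rw [H462.mem_box, sub_zero] at hz
  have h2 : R ≤ sn z := by
    rw [Torg.sn_eq]
    unfold Torg.av
    by_contra hc
    push Not at hc
    exact hz ⟨(le_max_left _ _).trans hc.le, (le_max_right _ _).trans hc.le⟩
  exact_mod_cast h2

/-- tail of the first `T` steps -/
def tA (κ C1 η : ℝ) (R T : ℕ) : ℝ :=
  4 * Real.exp C1 * Real.exp (-(κ * R / (2 * √T))) + T * η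

section near2

variable {h : N ∣ N3} {A : Matrix (V N) (V N) ℝ} {A3 : Matrix (V N3) (V N3) ℝ}
  {ν c κ C1 η u s : ℝ}

lemma Near.pow_tl (hN : Near h A A3 ν c κ C1 η u) {T m : ℕ} (hT : 1 ≤ T) (hm : m ≤ T) (R : ℕ) :
    tl ((1 - ν⁻¹ • A) ^ m) R ≤ tA κ C1 η R T := by
  have hη : 0 ≤ η := (Finset.sum_nonneg fun _ _ => abs_nonneg _).trans hN.stb.l1
  have e1 := Stb.pow_l1 hN.stb m
  have e2 := Torg.tail hN.stb.ti' hN.stb.nn' hN.stb.row' hN.kp
    (mom_pz hN.two.step (Near.nn3 hN) hN.kp.le hN.mom) hT hm R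
  unfold tl tA
  have e3 : ∀ z ∈ (H462.box (0 : V N) R)ᶜ, |((1 - ν⁻¹ • A) ^ m) 0 z|
      ≤ ((1 - ν⁻¹ • pz h A3) ^ m) 0 z
        + |((1 - ν⁻¹ • A) ^ m) 0 z - ((1 - ν⁻¹ • pz h A3) ^ m) 0 z| := by
    intro z _
    rw [abs_of_nonneg (Torg.pow_nonneg' hN.stb.nn m 0 z)]
    have := le_abs_self (((1 - ν⁻¹ • A) ^ m) 0 z - ((1 - ν⁻¹ • pz h A3) ^ m) 0 z)
    linarith
  refine (Finset.sum_le_sum e3).trans ?_
  rw [Finset.sum_add_distrib]
  refine add_le_add ?_ ?_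
  · refine le_trans (Finset.sum_le_sum_of_subset_of_nonneg ?_ fun z _ _ =>
      Torg.pow_nonneg' hN.stb.nn' m 0 z) e2
    intro z hz
    rw [Finset.mem_filter]
    exact ⟨Finset.mem_univ _, sn_of_not_box (Finset.mem_compl.1 hz)⟩
  · refine (Finset.sum_le_sum_of_subset_of_nonneg (Finset.subset_univ _) fun z _ _ =>
      abs_nonneg _).trans (e1.trans ?_)
    have : (m : ℝ) ≤ T := by exact_mod_cast hm
    exact mul_le_mul_of_nonneg_right this hη

/-- **tail of `ahat`** -/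
theorem Near.tl_ahat (hN : Near h A A3 ν c κ C1 η u) (hs : 0 < s) {T : ℕ} (hT : 1 ≤ T) (R : ℕ) :
    tl (ahat s A) R ≤ tA κ C1 η R T + lm s ν ^ T := by
  have hν := hN.dom.hν
  have hβ : 0 < s⁻¹ := by positivity
  have p := hN.stb.nn
  have h0 : ∀ x y, 0 ≤ ahat s A x y := ahat_nonneg hN.dom hs (off_of_nn hν p)
  have hl0 := lm_nonneg hs hν
  have hl1 := lm_le_one hs hν
  have ht0 : 0 ≤ tA κ C1 η R T := (tl_nonneg _ _).trans (Near.pow_tl hN hT le_rfl R)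
  unfold tl
  have e1 : ∀ z, |ahat s A 0 z| = s⁻¹ * ((ν + s⁻¹)⁻¹ * ∑ m ∈ range T, lm s ν ^ m *
      |((1 - ν⁻¹ • A) ^ m) 0 z|) + lm s ν ^ T * ((1 - ν⁻¹ • A) ^ T * ahat s A) 0 z := by
    intro z
    rw [abs_of_nonneg (h0 0 z)]
    conv_lhs => rw [ahat_steps hN.dom hs T]
    unfold Torg.sm
    rw [Matrix.add_apply, Matrix.smul_apply, Matrix.smul_apply, Matrix.smul_apply,
      Matrix.sum_apply, smul_eq_mul, smul_eq_mul, smul_eq_mul]
    congr 3
    refine Finset.sum_congr rfl fun m _ => ?_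
    rw [Matrix.smul_apply, smul_eq_mul, abs_of_nonneg (Torg.pow_nonneg' p m 0 z)]
    rfl
  simp only [e1]
  rw [Finset.sum_add_distrib]
  refine add_le_add ?_ ?_
  · rw [← Finset.mul_sum, ← Finset.mul_sum, Finset.sum_comm]
    simp only [← Finset.mul_sum]
    have e2 : ∑ m ∈ range T, lm s ν ^ m * ∑ z ∈ (H462.box (0 : V N) R)ᶜ,
        |((1 - ν⁻¹ • A) ^ m) 0 z| ≤ ∑ m ∈ range T, lm s ν ^ m * tA κ C1 η R T := by
      refine Finset.sum_le_sum fun m hm => ?_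
      exact mul_le_mul_of_nonneg_left (Near.pow_tl hN hT (Finset.mem_range.1 hm).le R)
        (pow_nonneg hl0 m)
    rw [← Finset.sum_mul] at e2
    have e3 : s⁻¹ * ((ν + s⁻¹)⁻¹ * ∑ m ∈ range T, lm s ν ^ m) ≤ 1 := by
      have h3 := mul_neg_geom_sum (lm s ν) T
      have h4 : 1 - lm s ν = s⁻¹ * (ν + s⁻¹)⁻¹ := by
        unfold lm
        field_simp
        ring
      rw [← mul_assoc, ← h4, h3]
      have := pow_nonneg hl0 T
      linarith
    calc s⁻¹ * ((ν + s⁻¹)⁻¹ * ∑ m ∈ range T, lm s ν ^ m * ∑ z ∈ (H462.box (0 : V N) R)ᶜ,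
          |((1 - ν⁻¹ • A) ^ m) 0 z|)
        ≤ s⁻¹ * ((ν + s⁻¹)⁻¹ * ((∑ m ∈ range T, lm s ν ^ m) * tA κ C1 η R T)) := by
          refine mul_le_mul_of_nonneg_left (mul_le_mul_of_nonneg_left e2 ?_) hβ.le
          positivity
      _ = (s⁻¹ * ((ν + s⁻¹)⁻¹ * ∑ m ∈ range T, lm s ν ^ m)) * tA κ C1 η R T := by ring
      _ ≤ 1 * tA κ C1 η R T := mul_le_mul_of_nonneg_right e3 ht0
      _ = _ := one_mul _
  · rw [← Finset.mul_sum]
    refine (mul_le_mul_of_nonneg_left ?_ (pow_nonneg hl0 T)).trans (mul_one _).le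
    rw [← rem_row (s := s) hN.dom T 0]
    exact Finset.sum_le_sum_of_subset_of_nonneg (Finset.subset_univ _) fun z _ _ =>
      rem_nonneg hN.dom hs p T 0 z

end near2

/-- tail of the smoothing matrix after the window -/
lemma tl_step_win {A : Matrix (V N) (V N) ℝ} {ν c s : ℝ} (h : Dom A ν c) (hs : 0 < s) (R : ℕ) :
    tl (St (ν⁻¹ + s)⁻¹ (A * ahat s A)) R ≤ (1 + (s * ν)⁻¹) * tl (ahat s A) R := by
  have hν := h.hν
  unfold St
  rw [step_win h hs]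
  unfold tl
  rw [Finset.mul_sum]
  refine Finset.sum_le_sum fun z hz => le_of_eq ?_
  have hz0 : (0 : V N) ≠ z := by
    rintro rfl
    exact (Finset.mem_compl.1 hz) (self_mem_box 0 R)
  rw [Matrix.sub_apply, Matrix.smul_apply, Matrix.smul_apply, Matrix.one_apply_ne hz0,
    smul_eq_mul, smul_eq_mul, mul_zero, sub_zero, abs_mul, abs_of_pos (by positivity)]

/-- tail of a product of stochastic kernels -/
lemma tl_mul {M M' : Matrix (V N) (V N) ℝ} (t' : TI M') (h0 : ∀ x y, 0 ≤ M x y)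
    (h1 : ∀ x, ∑ y, M x y = 1) (h0' : ∀ x y, 0 ≤ M' x y) (h1' : ∀ x, ∑ y, M' x y = 1)
    (R R' : ℕ) : tl (M * M') (R + R') ≤ tl M R + tl M' R' := by
  have ht' := tl_nonneg M' R'
  unfold tl
  have e1 : ∀ z, |(M * M') 0 z| = ∑ w, M 0 w * M' w z := by
    intro z
    rw [Matrix.mul_apply, abs_of_nonneg (Finset.sum_nonneg fun w _ =>
      mul_nonneg (h0 0 w) (h0' w z))]
  simp only [e1]
  rw [Finset.sum_comm]
  simp only [← Finset.mul_sum]
  rw [← Finset.sum_add_sum_compl (H462.box (0 : V N) R), add_comm]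
  refine add_le_add ?_ ?_
  · refine Finset.sum_le_sum fun w _ => ?_
    rw [abs_of_nonneg (h0 0 w)]
    refine (mul_le_mul_of_nonneg_left ?_ (h0 0 w)).trans (mul_one _).le
    rw [← h1' w]
    exact Finset.sum_le_sum_of_subset_of_nonneg (Finset.subset_univ _) fun z _ _ => h0' w z
  · have e2 : ∀ w ∈ H462.box (0 : V N) R, M 0 w * ∑ z ∈ (H462.box (0 : V N) (R + R'))ᶜ, M' w z
        ≤ M 0 w * tl M' R' := by
      intro w hw
      refine mul_le_mul_of_nonneg_left ?_ (h0 0 w)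
      refine le_trans (Finset.sum_le_sum fun z _ => le_abs_self _) ?_
      exact sum_compl_le t' hw le_rfl
    refine (Finset.sum_le_sum e2).trans ?_
    rw [← Finset.sum_mul]
    refine (mul_le_mul_of_nonneg_right ?_ ht').trans (one_mul _).le
    rw [← h1 0]
    exact Finset.sum_le_sum_of_subset_of_nonneg (Finset.subset_univ _) fun z _ _ => h0 0 z

end

end Vale.Agent.P159.H733.Vt
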