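import Vale.Agent.P159.H733.PLow

/-!
P159: upper bound of the weight of a dipole by the drop of the stiffness.
-/

set_option linter.all false

open MeasureTheory Filter Topology
open scoped BigOperators

namespace Vale.Agent.P159.UJ.H733

open Vale.Agent.P159 Vale.Agent.P159.UJ

/-- upper bound of the weight of a dipole -/
theorem dip_upper (B : ℝ) (hB : 0 < B) : ∃ C0 C : ℝ, 2 ≤ C0 ∧ 1 ≤ C ∧ ∀ t0 : ℝ, 0 < t0 →
    ∀ b : ℝ, 0 < b → b ≤ B → ∀ l m K κ : ℕ, 1 ≤ l → C0 ≤ (K : ℝ) →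
      2 * C0 * (2 : ℝ) ^ κ ≤ (m : ℝ) → t0 ≤ stiff l b →
      Rr b (blQ m K 2 {(0, 0), (0, 1)}) (sdQ l m) (cnQ l m K 2)
          (alp l m K 2 0 1 - alp l m K 2 0 0) 0 ≤
        4 * (18496 * (1 / t0 ^ 2 + C0 / t0) * K * (stiff l b - stiff (l * m * NN K 2) b) +
          2 * Real.exp (-(t0 ^ 2 * (K : ℝ) ^ 2 / (256 * B))) +
          (13872 * C * C0 ^ 2 / t0 * (((2 : ℝ) ^ κ) ^ 3 * K / m)) ^ (2 ^ (2 * κ))) := by
  obtain ⟨C1, s1, hC1, hs1, hinc⟩ := geo_inc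
  obtain ⟨C2, s2, hC2, hs2, hrow⟩ := geo_rows_h
  obtain ⟨C, hC, hcell⟩ := cellW B hB
  obtain ⟨C0, hC0⟩ : ∃ C0, C0 = max (max C1 C2) (max s1 s2) := ⟨_, rfl⟩
  have c1 : C1 ≤ C0 := by rw [hC0]; exact (le_max_left _ _).trans (le_max_left _ _)
  have c2 : C2 ≤ C0 := by rw [hC0]; exact (le_max_right _ _).trans (le_max_left _ _)
  have c3 : s1 ≤ C0 := by rw [hC0]; exact (le_max_left _ _).trans (le_max_right _ _)
  have c4 : s2 ≤ C0 := by rw [hC0]; exact (le_max_right _ _).trans (le_max_right _ _)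
  clear hC0
  have hC02 : 2 ≤ C0 := hs1.trans c3
  refine ⟨C0, C, hC02, hC, ?_⟩
  intro t0 ht0 b hb hbB l m K κ hl hK hm ht
  -- parameters
  have hlR : (1 : ℝ) ≤ l := by exact_mod_cast hl
  have hKR : (2 : ℝ) ≤ K := hC02.trans hK
  have hK1 : 1 ≤ K := by
    have : (1 : ℝ) ≤ K := by linarith only [hKR]
    exact_mod_cast this
  have hΛ : (1 : ℝ) ≤ (2 : ℝ) ^ κ := one_le_pow₀ (by norm_num)
  have hmR : 2 * C0 ≤ (m : ℝ) := by nlinarith only [hm, hΛ, hC02]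
  have hm4 : (4 : ℝ) ≤ (m : ℝ) := by linarith only [hmR, hC02]
  have hm1 : 1 ≤ m := by
    have : (1 : ℝ) ≤ m := by linarith only [hm4]
    exact_mod_cast this
  obtain ⟨s, hs⟩ : ∃ s : ℝ, s = ((l * m : ℕ) : ℝ) := ⟨_, rfl⟩
  have hslm : s = l * m := by rw [hs]; push_cast; ring
  have hsm : (m : ℝ) ≤ s := by
    rw [hslm]
    nlinarith only [hlR, hm4]
  have hs0 : 0 < s := by linarith only [hsm, hm4]
  have hsC : C0 ≤ s := by linarith only [hsm, hmR, hC02]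
  have hs4 : 4 ≤ l * m := by
    have : (4 : ℝ) ≤ ((l * m : ℕ) : ℝ) := by rw [← hs]; linarith only [hsm, hm4]
    exact_mod_cast this
  have hs2' : 2 ≤ l * m := by omega
  have hN1 : 1 ≤ NN K 2 := by unfold NN; omega
  have hn1 : 1 ≤ m * NN K 2 := Nat.mul_pos hm1 hN1
  have hL4 : 4 ≤ l * m * NN K 2 := hs4.trans (Nat.le_mul_of_pos_right _ hN1)
  have hNR : ((NN K 2 : ℕ) : ℝ) = 16 * K + 1 := by rw [NN_cast]; push_cast; ring
  have hN17 : ((NN K 2 : ℕ) : ℝ) ≤ 17 * K := by rw [hNR]; linarith only [hKR]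
  -- the tiling
  obtain ⟨Q, hQ⟩ : ∃ Q : Finset (ℕ × ℕ), Q = {(0, 0), (0, 1)} := ⟨_, rfl⟩
  have hQM : ∀ p ∈ Q, p.1 < 2 ∧ p.2 < 2 := by
    rw [hQ]
    intro p hp
    simp only [Finset.mem_insert, Finset.mem_singleton] at hp
    rcases hp with rfl | rfl <;> simp
  have hT := tilQ (m := m) hl hK1 hQM
  have hβ := dip_PB (l := l) (m := m) (K := K) (M := 2) (0, 0) (0, 1) hL4
  simp only at hβ
  rw [← hQ]
  obtain ⟨β, hβd⟩ : ∃ β : Ginf, β = alp l m K 2 0 1 - alp l m K 2 0 0 := ⟨_, rfl⟩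
  rw [← hβd] at hβ ⊢
  obtain ⟨S, hS⟩ : ∃ S : Finset (ℤ × ℤ), S = core m K 2 0 0 ∪ core m K 2 0 1 := ⟨_, rfl⟩
  have hout : outQ m K 2 Q = cells (m * NN K 2) \ S := by
    rw [hQ, outQ_pair, hS]
  have hSsub : S ⊆ cells (m * NN K 2) := by
    rw [hS]
    exact Finset.union_subset (core_sub (p := (0, 0)) (by norm_num) (by norm_num))
      (core_sub (p := (0, 1)) (by norm_num) (by norm_num))
  have hScard : (S.card : ℝ) ≤ 2 * (m : ℝ) ^ 2 := by
    have h1 : S.card ≤ m ^ 2 + m ^ 2 := by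
      rw [hS]
      refine (Finset.card_union_le _ _).trans ?_
      rw [core_card, core_card]
    have h2 : (S.card : ℝ) ≤ (m : ℝ) ^ 2 + (m : ℝ) ^ 2 := by exact_mod_cast h1
    linarith only [h2]
  have hkp : ∀ k ∈ cells (m * NN K 2) \ S, k ∈ outer m K 2 0 0 := by
    intro k hk
    rw [Finset.mem_sdiff, hS, Finset.mem_union, not_or] at hk
    exact Finset.mem_sdiff.2 ⟨hk.1, hk.2.1⟩
  have hkq : ∀ k ∈ cells (m * NN K 2) \ S, k ∈ outer m K 2 0 1 := by
    intro k hk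
    rw [Finset.mem_sdiff, hS, Finset.mem_union, not_or] at hk
    exact Finset.mem_sdiff.2 ⟨hk.1, hk.2.2⟩
  -- the mean current
  obtain ⟨mq, hmq⟩ : ∃ mq : ℝ, mq = stiff l b * ∑ k ∈ cells (m * NN K 2) \ S,
    ∑ e : BI l, 1 / 2 * hh e * (ainc l m K 2 0 1 k e - ainc l m K 2 0 0 k e) := ⟨_, rfl⟩
  have hd : 0 < t0 * K * s := by positivity
  have hmean : 2 * (t0 * K * s) ≤ |mq| := by
    have h := hrow l m K 2 0 1 0 0 hl hK1 (by norm_num) (by norm_num) (by norm_num) (by norm_num)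
      (by rw [← hs]; exact c4.trans hsC)
    rw [← hs] at h
    have e1 : core m K 2 0 1 ∪ core m K 2 0 0 = S := by rw [hS, Finset.union_comm]
    rw [e1] at h
    have e2 : |((1 : ℕ) : ℝ) - ((0 : ℕ) : ℝ)| = 1 := by norm_num
    rw [e2, mul_one] at h
    have hpi := Real.pi_gt_three
    have h1 : 2 * (K * s) ≤ 2 * Real.pi * K * s - C2 * s := by
      have h2 : C2 * s ≤ K * s := mul_le_mul_of_nonneg_right (c2.trans hK) hs0.le
      have h3 : 0 ≤ K * s := by positivity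
      nlinarith only [h2, h3, hpi]
    have h2 := h1.trans h
    rw [hmq, abs_mul, abs_of_nonneg (h3_stiff_nonneg hb hl)]
    calc 2 * (t0 * K * s) = t0 * (2 * (K * s)) := by ring
      _ ≤ stiff l b * _ := mul_le_mul ht h2 (by positivity) (h3_stiff_nonneg hb hl)
  -- lower and upper bound of the affinity
  have hlow := til_lower hb.le hT hβ
  have hup := til_upper (b := b) hT hβ (T := TT b l hh (outQ m K 2 Q)) (TT_cont b l hh _)
    (TT_skel b hl hh Q) hd hmean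
  -- the tails
  obtain ⟨δ, hδ⟩ : ∃ δ, δ = stiff l b - stiff (l * m * NN K 2) b := ⟨_, rfl⟩
  have hδ0 : 0 ≤ δ := by
    have h := stiff_mono hb.le hl hn1
    rw [hδ, mul_assoc]
    linarith only [h]
  obtain ⟨U1, hU1⟩ : ∃ U1, U1 = 18496 * (1 / t0 ^ 2 + C0 / t0) * K * δ +
    2 * Real.exp (-(t0 ^ 2 * (K : ℝ) ^ 2 / (256 * B))) := ⟨_, rfl⟩
  obtain ⟨X, hX⟩ : ∃ X, X = 13872 * C * C0 ^ 2 / t0 * (((2 : ℝ) ^ κ) ^ 3 * K / m) := ⟨_, rfl⟩
  have hnum := tail_num (δ := δ) (c := S.card) (n := m * NN K 2) ht0 hb hbB (by linarith only [hC02])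
    hC hΛ (by linarith only [hKR]) hlR (by linarith only [hm4]) hslm (Nat.cast_nonneg (NN K 2)) hN17
    hδ0 hScard (by push_cast; ring) (C0 := C0) (C := C) (Λ := (2 : ℝ) ^ κ)
  rw [← hU1, ← hX] at hnum
  have hY0 : 0 < 2 * C0 / s := by positivity
  have hYl : (2 : ℝ) ^ κ * ((l : ℝ) * (2 * C0 / s)) ≤ 1 := by
    have e : (2 : ℝ) ^ κ * ((l : ℝ) * (2 * C0 / s)) = 2 * C0 * (2 : ℝ) ^ κ / m := by
      rw [hslm]
      field_simp
    rw [e, div_le_one (by linarith only [hm4])]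
    exact hm
  have hR0 : 0 < 2 * C0 * l / s ^ 2 := by positivity
  have htail := tail_p hb hl hC (hcell b hb hbB l hl) (m * NN K 2) hn1 S hSsub
  have hLn : ((l * (m * NN K 2) : ℕ) : ℝ) = s * NN K 2 := by
    rw [hslm]; push_cast; ring
  have hbase : 0 ≤ 8 / (t0 * K * s) * (((m * NN K 2 : ℕ) : ℝ) ^ 2 *
      (C * (((2 : ℝ) ^ κ) ^ 3 * ((l : ℝ) ^ 2 * (2 * C0 * l / s ^ 2) +
        (l : ℝ) ^ 3 * (2 * C0 / s) ^ 2)))) := by positivity
  have tail : ∀ (α : Ginf) (a : ℤ × ℤ → BI l → ℝ) (mm : ℝ),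
      (∀ k ∈ cells (m * NN K 2) \ S, ∀ e, ((a k e : ℝ) : T) =
        α (cor l k + bu e) - α (cor l k + bv e)) →
      (∀ k ∈ cells (m * NN K 2) \ S, ∀ e, |a k e| ≤ 2 * C0 / s) →
      (∀ k ∈ cells (m * NN K 2) \ S, ∀ e e', hh e = hh e' →
        |a k e - a k e'| ≤ 2 * C0 * l / s ^ 2) →
      mm = stiff l b * ∑ k ∈ cells (m * NN K 2) \ S, ∑ e, 1 / 2 * hh e * a k e →
      Ev b (l * m * NN K 2) 0 (fun x => psi (t0 * K * s)
        (TT b l hh (outQ m K 2 Q) (x + α) - mm)) ≤ U1 + X ^ (2 ^ (2 * κ)) := by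
    intro α a mm ha haY haR hmm
    have h := htail α a (2 * C0 / s) (2 * C0 * l / s ^ 2) κ hY0 hYl hR0 ha haY haR hh (Or.inl rfl)
      (t0 * K * s) (t0 * K / (16 * B * s)) hd (by positivity)
    rw [← hmm, hLn, ← mul_assoc l m (NN K 2), ← hδ] at h
    have e1 : (fun x : Ginf => psi (t0 * K * s)
        (∑ k ∈ cells (m * NN K 2) \ S, jc b l (cor l k) hh (x + α) - mm)) =
        fun x => psi (t0 * K * s) (TT b l hh (outQ m K 2 Q) (x + α) - mm) := by
      funext x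
      rw [hout]
      rfl
    rw [e1] at h
    refine h.trans ?_
    have h2 := pow_le_pow_left₀ hbase hnum.2 (2 ^ (2 * κ))
    exact add_le_add hnum.1 h2
  have tail1 := tail 0 (fun _ _ => 0) 0 (by intro k _ e; simp)
    (by intro k _ e; rw [abs_zero]; exact hY0.le)
    (by intro k _ e e' _; rw [sub_zero, abs_zero]; exact hR0.le) (by simp)
  have hincp := hinc l m K 2 0 0 hl hK1 (by norm_num) (by norm_num)
    (by rw [← hs]; exact c3.trans hsC)
  have hincq := hinc l m K 2 0 1 hl hK1 (by norm_num) (by norm_num)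
    (by rw [← hs]; exact c3.trans hsC)
  rw [← hs] at hincp hincq
  have hCs : C1 / s ≤ C0 / s := by gcongr
  have hCs2 : C1 * l / s ^ 2 ≤ C0 * l / s ^ 2 := by gcongr
  have tail2 := tail β (fun k e => ainc l m K 2 0 1 k e - ainc l m K 2 0 0 k e) mq
    (by
      intro k hk e
      rw [AddCircle.coe_sub, h3_coe hs2' hK1 (by norm_num) (by norm_num) (hkq k hk) e,
        h3_coe hs2' hK1 (by norm_num) (by norm_num) (hkp k hk) e, hβd]
      simp only [Pi.sub_apply]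
      abel)
    (by
      intro k hk e
      have h1 := (hincp k (hkp k hk) e).1
      have h2 := (hincq k (hkq k hk) e).1
      have h3 := abs_sub (ainc l m K 2 0 1 k e) (ainc l m K 2 0 0 k e)
      have e1 : 2 * C0 / s = C0 / s + C0 / s := by ring
      rw [e1]
      linarith only [h1, h2, h3, hCs])
    (by
      intro k hk e e' hee
      have h1 := (hincp k (hkp k hk) e).2 e' hee
      have h2 := (hincq k (hkq k hk) e).2 e' hee
      have e1 : ainc l m K 2 0 1 k e - ainc l m K 2 0 0 k e -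
          (ainc l m K 2 0 1 k e' - ainc l m K 2 0 0 k e') =
          (ainc l m K 2 0 1 k e - ainc l m K 2 0 1 k e') -
          (ainc l m K 2 0 0 k e - ainc l m K 2 0 0 k e') := by ring
      have h3 := abs_sub (ainc l m K 2 0 1 k e - ainc l m K 2 0 1 k e')
        (ainc l m K 2 0 0 k e - ainc l m K 2 0 0 k e')
      have e2 : 2 * C0 * l / s ^ 2 = C0 * l / s ^ 2 + C0 * l / s ^ 2 := by ring
      rw [e1, e2]
      linarith only [h1, h2, h3, hCs2])
    hmq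
  have e0 : (fun x : Ginf => psi (t0 * K * s) (TT b l hh (outQ m K 2 Q) (x + 0) - 0)) =
      fun x => psi (t0 * K * s) (TT b l hh (outQ m K 2 Q) x) := by
    funext x
    rw [add_zero, sub_zero]
  rw [e0] at tail1
  obtain ⟨U, hU⟩ : ∃ U, U = U1 + X ^ (2 ^ (2 * κ)) := ⟨_, rfl⟩
  rw [← hU] at tail1 tail2
  have hfin := hlow.trans (hup.trans (add_le_add (Real.sqrt_le_sqrt tail1)
    (Real.sqrt_le_sqrt tail2)))
  have hU0 : 0 ≤ U := by
    have : 0 ≤ X := hbase.trans hnum.2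
    rw [hU, hU1]
    positivity
  have hR0' := (Rr_pos b (blQ m K 2 Q) (sdQ l m) (cnQ l m K 2) β 0).le
  rw [← hδ, ← hU1, ← hX, ← hU]
  have h9 : Real.sqrt (Rr b (blQ m K 2 Q) (sdQ l m) (cnQ l m K 2) β 0) ≤ 2 * Real.sqrt U := by
    linarith only [hfin]
  have h10 := mul_self_le_mul_self (Real.sqrt_nonneg _) h9
  rw [Real.mul_self_sqrt hR0'] at h10
  have h11 : 2 * Real.sqrt U * (2 * Real.sqrt U) = 4 * U := by
    have := Real.mul_self_sqrt hU0
    linear_combination 4 * this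
  rw [h11] at h10
  exact h10

end Vale.Agent.P159.UJ.H733
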