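import Vale.Agent.P159.H733.Vp4
import Vale.Agent.P159.H767.Nr16
import Vale.Agent.P159.H358.Un9
import Vale.Agent.P159.H640.P5f
import Vale.Agent.P159.H197.Gf3
import Vale.Agent.P159.H43.P7b
import Vale.Agent.P159.H889.Vasm4

/-!
P159 / V GLUE (helper733): the general step of the charged sector `StepH` from the landed pieces; the
only inputs left are (P4) `BdH2` (helper375) and (P8) `BdE2` (helper896).
-/

namespace Vale.Agent.P159.H733.Vt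

open Vale.Agent.P159.H801 (Ev)
open Vale.Agent.P159.H889 (EvC BdB BdW BdM BdT BdH2 BdN BdG BdO BdE2 StepH vsgC2)

/-- **the general step**: `A` depends on `b1, b2, b` only -/
theorem stepH_of {b1 b2 b : ℝ} (hb1 : 0 < b1) (hb12 : b1 ≤ b2) (hbb : b1 ≤ b) :
    ∃ A : ℝ, 1 ≤ A ∧ ∀ A1, A ≤ A1 → ∀ (K : ℝ) (Q : ℕ), 0 < K →
      EvC b1 b2 (9 / 10) Q K (BdH2 b) → EvC b1 b2 (9 / 10) Q K (BdE2 b) →
      EvC b1 b2 (9 / 10) Q K (StepH b A1) := by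
  have hb2 : 0 < b2 := hb1.trans_le hb12
  obtain ⟨k0, c0, Cm, hk, hc, hC, hB⟩ := H767.pcB_ev hb1 hb2
  obtain ⟨A0, hA0, hM⟩ := H358.pcm_ev (b := b) hb1 hbb hb2 (B := 4) hc (by norm_num)
  obtain ⟨A', hA', hT⟩ := bdTA (A0 := A0) hk hc hC.le (by linarith)
  obtain ⟨A, hA, hW⟩ := bdWA hk hc hC.le
  refine ⟨max A (2 * A' + 1), hA.trans (le_max_left _ _), ?_⟩
  intro A1 hA1 K Q hK hH hE
  have hA1a : A ≤ A1 := (le_max_left _ _).trans hA1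
  have hA1b : 2 * A' + 1 ≤ A1 := (le_max_right _ _).trans hA1
  refine vsgC2 (A0 := A0) (A' := A') hb1 hbb hK (by linarith) hA1b ?_
    (hW A1 hA1a b1 b2 (9 / 10) b K Q) ?_ (hT b1 b2 (9 / 10) b K Q) hH ?_ ?_ ?_ hE
  · exact (hB K Q).mono fun P c1 _ H C1 h1 _ h3 a n s e y hx r hr _ _ h =>
      H C1 h1 h3 b a n s e y hx r hr h
  · exact (hM A0 le_rfl k0 Cm K Q).mono fun P c1 _ H C1 h1 h2 h3 => H C1 h1 h2 h3
  · exact (H640.pcn_ev (b2 := b2) (pf := 9 / 10) (Q := Q) (K := K) hb1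
      (show 0 ≤ A' by linarith)).mono fun P c1 _ H C1 h1 _ h3 => H C1 h1 h3 b
  · exact (H197.pcGC (k0 := k0) (Cm := Cm) K Q hb1 hb12 hc).mono
      fun P c1 _ H C1 h1 _ h3 => H C1 h1 h3 b
  · exact (H43.pcO_ev (b2 := b2) (pf := 9 / 10) (Q := Q) hb1).mono
      fun P c1 _ H C1 _ _ _ => H C1 b

end Vale.Agent.P159.H733.Vt
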