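import Vale.Agent.P159.T1.NC.H664.CellU

/-!
P159, lower bound of the drop of the stiffness (row P_low): high moments of the error in the
expansion of the current of a cell, uniformly in the size of the cell.
-/

set_option linter.all false

open MeasureTheory Filter Topology
open scoped BigOperators

namespace Vale.Agent.P159.UJ.H733

open Vale.Agent.P159 Vale.Agent.P159.UJ Vale.Agent.P159.UJ.H664

section CEL

variable {b : ℝ} {l : ℕ} {k : ℤ × ℤ}

theorem ce_num_cont {f : Ginf → ℝ} (hf : Continuous f) (x : Ginf) :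
    Continuous fun y : Ginf => f (x + PB l (cor l k) y) *
      Real.exp (EB b l (cor l k) (x + PB l (cor l k) y)) := by
  have h : Continuous fun y : Ginf => x + PB l (cor l k) y := continuous_const.add (PB_cont _ _)
  exact (hf.comp h).mul (Real.continuous_exp.comp ((EB_cont _ _ _).comp h))

theorem ce_den_pos (x : Ginf) :
    0 < av muInf (PB l (cor l k)) (fun z => Real.exp (EB b l (cor l k) z)) x :=
  WB_pos b l (cor l k) x

theorem ce_mono {f g : Ginf → ℝ} (hf : Continuous f) (hg : Continuous g) (h : ∀ x, f x ≤ g x)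
    (x : Ginf) : var_CE b l k f x ≤ var_CE b l k g x := by
  unfold var_CE CE
  refine div_le_div_of_nonneg_right ?_ (ce_den_pos x).le
  unfold av
  refine integral_mono (cint (ce_num_cont hf x)) (cint (ce_num_cont hg x)) fun y => ?_
  exact mul_le_mul_of_nonneg_right (h _) (Real.exp_pos _).le

theorem ce_add {f g : Ginf → ℝ} (hf : Continuous f) (hg : Continuous g) (x : Ginf) :
    var_CE b l k (fun y => f y + g y) x = var_CE b l k f x + var_CE b l k g x := by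
  unfold var_CE CE
  rw [← add_div]
  congr 1
  unfold av
  rw [← integral_add (cint (ce_num_cont hf x)) (cint (ce_num_cont hg x))]
  refine integral_congr_ae (Eventually.of_forall fun y => ?_)
  simp only
  ring

theorem ce_const_mul (a : ℝ) (f : Ginf → ℝ) (x : Ginf) :
    var_CE b l k (fun y => a * f y) x = a * var_CE b l k f x := by
  unfold var_CE CE
  rw [← mul_div_assoc]
  congr 1
  unfold av
  rw [← integral_const_mul]
  refine integral_congr_ae (Eventually.of_forall fun y => ?_)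
  simp only
  ring

theorem ce_const (a : ℝ) (x : Ginf) : var_CE b l k (fun _ => a) x = a := by
  have h := ce_const_mul (b := b) (l := l) (k := k) a (fun _ => 1) x
  simp only [mul_one] at h
  rw [h]
  have h1 : var_CE b l k (fun _ => (1 : ℝ)) x = 1 := by
    unfold var_CE CE
    simp only [one_mul]
    exact div_self (ce_den_pos x).ne'
  rw [h1, mul_one]

theorem ce_nonneg {f : Ginf → ℝ} (h : ∀ x, 0 ≤ f x) (x : Ginf) : 0 ≤ var_CE b l k f x := by
  unfold var_CE CE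
  refine div_nonneg ?_ (ce_den_pos x).le
  unfold av
  exact integral_nonneg fun y => mul_nonneg (h _) (Real.exp_pos _).le

theorem ce_sq_le {f : Ginf → ℝ} (hf : Continuous f) (x : Ginf) :
    var_CE b l k f x ^ 2 ≤ var_CE b l k (fun y => f y ^ 2) x := by
  obtain ⟨m, hm⟩ : ∃ m, m = var_CE b l k f x := ⟨_, rfl⟩
  have c1 : Continuous (fun y : Ginf => (2 * m) * f y) := continuous_const.mul hf
  have c2 : Continuous (fun _ : Ginf => -(m ^ 2)) := continuous_const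
  have c3 : Continuous (fun y : Ginf => (2 * m) * f y + -(m ^ 2)) := c1.add c2
  have h1 := ce_mono (b := b) (l := l) (k := k) (g := fun y => f y ^ 2) c3 (hf.pow 2)
    (fun y => by nlinarith only [sq_nonneg (f y - m)]) x
  rw [ce_add c1 c2, ce_const_mul, ce_const] at h1
  rw [← hm] at h1 ⊢
  linarith only [h1]

theorem ce_pow_le {f : Ginf → ℝ} (hf : Continuous f) (h0 : ∀ x, 0 ≤ f x) (n : ℕ) (x : Ginf) :
    var_CE b l k f x ^ (2 ^ n) ≤ var_CE b l k (fun y => f y ^ (2 ^ n)) x := by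
  induction n with
  | zero => simp only [pow_zero, pow_one]; exact le_rfl
  | succ n ih =>
    rw [pow_succ, pow_mul]
    have h1 := pow_le_pow_left₀ (pow_nonneg (ce_nonneg h0 x) _) ih 2
    refine h1.trans ?_
    refine (ce_sq_le (f := fun y => f y ^ (2 ^ n)) (hf.pow _) x).trans (le_of_eq ?_)
    congr 1
    funext y
    rw [← pow_mul]

end CEL

theorem pow_add_le {x y : ℝ} (hx : 0 ≤ x) (hy : 0 ≤ y) (n : ℕ) :
    (x + y) ^ n ≤ 2 ^ n * (x ^ n + y ^ n) := by
  have h : x + y ≤ 2 * max x y := by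
    have h1 := le_max_left x y
    have h2 := le_max_right x y
    linarith only [h1, h2]
  have h2 : (x + y) ^ n ≤ (2 * max x y) ^ n := pow_le_pow_left₀ (by linarith only [hx, hy]) h n
  rw [mul_pow] at h2
  refine h2.trans (mul_le_mul_of_nonneg_left ?_ (by positivity))
  rcases le_total x y with h3 | h3
  · rw [max_eq_right h3]
    have := pow_nonneg hx n
    linarith only [this]
  · rw [max_eq_left h3]
    have := pow_nonneg hy n
    linarith only [this]

theorem pow_add4_le {x y z w : ℝ} (hx : 0 ≤ x) (hy : 0 ≤ y) (hz : 0 ≤ z) (hw : 0 ≤ w) (n : ℕ) :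
    (x + y + (z + w)) ^ n ≤ 4 ^ n * (x ^ n + y ^ n + (z ^ n + w ^ n)) := by
  have h1 := pow_add_le (add_nonneg hx hy) (add_nonneg hz hw) n
  have h2 := pow_add_le hx hy n
  have h3 := pow_add_le hz hw n
  have e : (4 : ℝ) ^ n = 2 ^ n * 2 ^ n := by rw [← mul_pow]; norm_num
  have hp : (0 : ℝ) ≤ 2 ^ n := by positivity
  have h4 := mul_le_mul_of_nonneg_left (add_le_add h2 h3) hp
  rw [e]
  calc (x + y + (z + w)) ^ n ≤ 2 ^ n * ((x + y) ^ n + (z + w) ^ n) := h1
    _ ≤ 2 ^ n * (2 ^ n * (x ^ n + y ^ n) + 2 ^ n * (z ^ n + w ^ n)) := h4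
    _ = _ := by ring

/-- high moments of the conditional expectation of `Psi` -/
theorem Ev_Psi_pow {b : ℝ} (hb : 0 ≤ b) {l n : ℕ} (hl : 1 ≤ l) {k : ℤ × ℤ} (hk : k ∈ cells n)
    (p q : ℝ) (a1 a2 : BI l → ℝ) {c : ℝ} (κ : ℕ)
    (h1 : ((2 : ℝ) ^ κ) ^ 2 * (p ^ 2 / 2 * ∑ e : BI l, b / 2 * a1 e ^ 2) ≤ c)
    (h2 : ((2 : ℝ) ^ κ) ^ 2 * (q ^ 2 / 2 * ∑ e : BI l, b / 2 * a2 e ^ 2) ≤ c) :
    Ev b (l * n) 0 (fun x => var_CE b l k (Psi b l k p q a1 a2) x ^ (2 ^ κ)) ≤
      4 ^ (2 ^ κ) * (4 * Real.exp c) := by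
  obtain ⟨N, hN⟩ : ∃ N : ℕ, N = 2 ^ κ := ⟨_, rfl⟩
  have hNR : (N : ℝ) = (2 : ℝ) ^ κ := by rw [hN]; push_cast; rfl
  have cP := Psi_cont b l k p q a1 a2
  have pP : ∀ x, 0 ≤ Psi b l k p q a1 a2 x := fun x => by unfold Psi; positivity
  have c1 := var_CE_cont (b := b) (l := l) k cP
  have c2 : Continuous (fun y => Psi b l k p q a1 a2 y ^ (2 ^ κ)) := cP.pow _
  have c3 := var_CE_cont (b := b) (l := l) k c2
  have s1 := Ev_mono (b := b) (L := l * n) (v := 0) (c1.pow (2 ^ κ)) c3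
    (fun x => ce_pow_le cP pP κ x)
  refine s1.trans ?_
  rw [var_tower_one hl hk c2]
  rw [← hN]
  have d1 := expSB_cont b l k (N * p) a1
  have d2 := expSB_cont b l k (N * -p) a1
  have d3 := expSB_cont b l k (N * q) a2
  have d4 := expSB_cont b l k (N * -q) a2
  have d12 : Continuous (fun z => Real.exp (N * p * SB b l (cor l k) a1 z) +
    Real.exp (N * -p * SB b l (cor l k) a1 z)) := d1.add d2
  have d34 : Continuous (fun z => Real.exp (N * q * SB b l (cor l k) a2 z) +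
    Real.exp (N * -q * SB b l (cor l k) a2 z)) := d3.add d4
  have d : Continuous (fun z => Real.exp (N * p * SB b l (cor l k) a1 z) +
    Real.exp (N * -p * SB b l (cor l k) a1 z) + (Real.exp (N * q * SB b l (cor l k) a2 z) +
    Real.exp (N * -q * SB b l (cor l k) a2 z))) := d12.add d34
  have d' : Continuous (fun z => (4 : ℝ) ^ N * (Real.exp (N * p * SB b l (cor l k) a1 z) +
    Real.exp (N * -p * SB b l (cor l k) a1 z) + (Real.exp (N * q * SB b l (cor l k) a2 z) +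
    Real.exp (N * -q * SB b l (cor l k) a2 z)))) := continuous_const.mul d
  have s2 := Ev_mono (b := b) (L := l * n) (v := 0) (cP.pow N) d' (fun x => by
    unfold Psi
    refine (pow_add4_le (Real.exp_pos _).le (Real.exp_pos _).le (Real.exp_pos _).le
      (Real.exp_pos _).le N).trans (le_of_eq ?_)
    rw [← Real.exp_nat_mul, ← Real.exp_nat_mul, ← Real.exp_nat_mul, ← Real.exp_nat_mul]
    simp only [mul_assoc])
  refine s2.trans ?_
  rw [Ev_const_mul, Ev_add d12 d34, Ev_add d1 d2, Ev_add d3 d4]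
  have e1 := Ev_expSB hb hl hk a1 (N * p)
  have e2 := Ev_expSB hb hl hk a1 (N * -p)
  have e3 := Ev_expSB hb hl hk a2 (N * q)
  have e4 := Ev_expSB hb hl hk a2 (N * -q)
  have g1 : ((N : ℝ) * p) ^ 2 / 2 * ∑ e : BI l, b / 2 * a1 e ^ 2 ≤ c := by
    rw [hNR]; refine le_trans (le_of_eq ?_) h1; ring
  have g2 : ((N : ℝ) * -p) ^ 2 / 2 * ∑ e : BI l, b / 2 * a1 e ^ 2 ≤ c := by
    rw [hNR]; refine le_trans (le_of_eq ?_) h1; ring
  have g3 : ((N : ℝ) * q) ^ 2 / 2 * ∑ e : BI l, b / 2 * a2 e ^ 2 ≤ c := by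
    rw [hNR]; refine le_trans (le_of_eq ?_) h2; ring
  have g4 : ((N : ℝ) * -q) ^ 2 / 2 * ∑ e : BI l, b / 2 * a2 e ^ 2 ≤ c := by
    rw [hNR]; refine le_trans (le_of_eq ?_) h2; ring
  have f1 := e1.trans (Real.exp_le_exp.2 g1)
  have f2 := e2.trans (Real.exp_le_exp.2 g2)
  have f3 := e3.trans (Real.exp_le_exp.2 g3)
  have f4 := e4.trans (Real.exp_le_exp.2 g4)
  refine mul_le_mul_of_nonneg_left ?_ (by positivity)
  linarith only [f1, f2, f3, f4]


/-- The expansion of the current of a cell, with an error with small high moments. -/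
def CellP (B : ℝ) : Prop := ∃ C : ℝ, 1 ≤ C ∧ ∀ b : ℝ, 0 < b → b ≤ B → ∀ l n : ℕ, 1 ≤ l →
  ∀ k ∈ cells n, ∀ (α : Ginf) (a : BI l → ℝ) (Y R : ℝ) (κ : ℕ), 0 < Y →
    (2 : ℝ) ^ κ * ((l : ℝ) * Y) ≤ 1 → 0 < R →
    (∀ e, ((a e : ℝ) : T) = α (cor l k + bu e) - α (cor l k + bv e)) → (∀ e, |a e| ≤ Y) →
    (∀ e e', hh e = hh e' → |a e - a e'| ≤ R) →
    ∃ Er : Ginf → ℝ, Continuous Er ∧ (∀ x, 0 ≤ Er x) ∧
      Ev b (l * n) 0 (fun x => Er x ^ (2 ^ (2 * κ))) ≤
        (C * (((2 : ℝ) ^ κ) ^ 3 * ((l : ℝ) ^ 2 * R + (l : ℝ) ^ 3 * Y ^ 2))) ^ (2 ^ (2 * κ)) ∧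
      ∀ h : BI l → ℝ, (h = hh ∨ h = vv) → ∀ x,
        |jc b l (cor l k) h (x + α) - jc b l (cor l k) h x -
            stiff l b * ∑ e, 1 / 2 * h e * a e| ≤
          2 * Y * (((l : ℝ) ^ 2 * stiff l b - qc b l (cor l k) hh x) +
            ((l : ℝ) ^ 2 * stiff l b - qc b l (cor l k) vv x)) + Er x

/-- **the current of a cell, uniformly in its size, high moments of the error** -/
theorem cellP (B : ℝ) (hB : 0 < B) : CellP B := by
  obtain ⟨c, hc⟩ : ∃ c : ℝ, c = 6 * B := ⟨_, rfl⟩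
  have hc0 : 0 ≤ c := by rw [hc]; positivity
  obtain ⟨K1, hK1⟩ : ∃ K1 : ℝ, K1 = 9 * ((1 + c) ^ 2 * Real.exp c) ^ 3 := ⟨_, rfl⟩
  have hK10 : 0 ≤ K1 := by rw [hK1]; positivity
  obtain ⟨K2, hK2⟩ : ∃ K2 : ℝ, K2 = c + 2 := ⟨_, rfl⟩
  have hK21 : 1 ≤ K2 := by rw [hK2]; linarith only [hc0]
  have hK20 : 0 ≤ K2 := by linarith only [hK21]
  have hexpB : 1 ≤ Real.exp (1024 * B) := Real.one_le_exp (by positivity)
  refine ⟨(K1 + K2) * (256 * Real.exp (1024 * B)), by nlinarith only [hK10, hK21, hexpB], ?_⟩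
  intro b hb hbB l n hl k hk α a Y R κ hY hlY hR haα ha hRa
  have hJ : ∀ _ : BI l, 0 ≤ b / 2 := fun _ => by positivity
  have hlR : (1 : ℝ) ≤ l := by exact_mod_cast hl
  have hl0 : (0 : ℝ) < l := by linarith only [hlR]
  obtain ⟨Λ, hΛ⟩ : ∃ Λ : ℝ, Λ = (2 : ℝ) ^ κ := ⟨_, rfl⟩
  rw [← hΛ] at hlY ⊢
  have hΛ1 : 1 ≤ Λ := by rw [hΛ]; exact one_le_pow₀ (by norm_num)
  have hΛ0 : 0 < Λ := by linarith only [hΛ1]
  obtain ⟨xi1, xi2, r, hdec, h1, h2, hr, hs1, hs2, -⟩ := decomp hl ha hRa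
  obtain ⟨ρ, hρ⟩ : ∃ ρ : ℝ, ρ = Λ * (l * Y) := ⟨_, rfl⟩
  have hρ0 : 0 < ρ := by rw [hρ]; positivity
  obtain ⟨τ, hτ⟩ : ∃ τ : ℝ, τ = Λ * (l * R) := ⟨_, rfl⟩
  have hτ0 : 0 < τ := by rw [hτ]; positivity
  obtain ⟨lam, hlam⟩ : ∃ lam : ℝ, lam = Λ * l := ⟨_, rfl⟩
  have hlam1 : 1 ≤ lam := by rw [hlam]; nlinarith only [hΛ1, hlR]
  have hlam0 : 0 < lam := by linarith only [hlam1]
  have hρ1 : ρ ≤ 1 := by rw [hρ]; exact hlY
  have hY1 : Y ≤ 1 := by
    have : Y ≤ Λ * (l * Y) := by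
      have h3 : 1 * Y ≤ (Λ * l) * Y := mul_le_mul_of_nonneg_right (by rw [← hlam]; exact hlam1) hY.le
      linarith only [h3]
    linarith only [this, hlY]
  obtain ⟨Er, hEr⟩ : ∃ Er : Ginf → ℝ, Er = fun x =>
      K1 * (lam * ρ ^ 2) * (var_CE b l k (Psi b l k (32 / ρ) (32 / lam) a hh) x +
        var_CE b l k (Psi b l k (32 / ρ) (32 / lam) a vv) x) +
      K2 * (lam * τ) * (var_CE b l k (Psi b l k (32 / τ) (32 / lam) r hh) x +
        var_CE b l k (Psi b l k (32 / τ) (32 / lam) r vv) x) := ⟨_, rfl⟩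
  have d1 := var_CE_cont (b := b) (l := l) k (Psi_cont b l k (32 / ρ) (32 / lam) a hh)
  have d2 := var_CE_cont (b := b) (l := l) k (Psi_cont b l k (32 / ρ) (32 / lam) a vv)
  have d3 := var_CE_cont (b := b) (l := l) k (Psi_cont b l k (32 / τ) (32 / lam) r hh)
  have d4 := var_CE_cont (b := b) (l := l) k (Psi_cont b l k (32 / τ) (32 / lam) r vv)
  have d12 : Continuous (fun x => var_CE b l k (Psi b l k (32 / ρ) (32 / lam) a hh) x +
        var_CE b l k (Psi b l k (32 / ρ) (32 / lam) a vv) x) := d1.add d2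
  have d34 : Continuous (fun x => var_CE b l k (Psi b l k (32 / τ) (32 / lam) r hh) x +
        var_CE b l k (Psi b l k (32 / τ) (32 / lam) r vv) x) := d3.add d4
  have d12' : Continuous (fun x => K1 * (lam * ρ ^ 2) *
      (var_CE b l k (Psi b l k (32 / ρ) (32 / lam) a hh) x +
        var_CE b l k (Psi b l k (32 / ρ) (32 / lam) a vv) x)) := continuous_const.mul d12
  have d34' : Continuous (fun x => K2 * (lam * τ) *
      (var_CE b l k (Psi b l k (32 / τ) (32 / lam) r hh) x +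
        var_CE b l k (Psi b l k (32 / τ) (32 / lam) r vv) x)) := continuous_const.mul d34
  have pCE : ∀ (p q : ℝ) (a1 a2 : BI l → ℝ) (x : Ginf),
      0 ≤ var_CE b l k (Psi b l k p q a1 a2) x := fun p q a1 a2 x =>
    ce_nonneg (fun y => by unfold Psi; positivity) x
  have cEr : Continuous Er := by rw [hEr]; exact d12'.add d34'
  have pEr : ∀ x, 0 ≤ Er x := fun x => by
    rw [hEr]
    have q1 := pCE (32 / ρ) (32 / lam) a hh x
    have q2 := pCE (32 / ρ) (32 / lam) a vv x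
    have q3 := pCE (32 / τ) (32 / lam) r hh x
    have q4 := pCE (32 / τ) (32 / lam) r vv x
    positivity
  refine ⟨Er, cEr, pEr, ?_, ?_⟩
  · -- the moments of the error
    obtain ⟨N, hN⟩ : ∃ N : ℕ, N = 2 ^ (2 * κ) := ⟨_, rfl⟩
    have hN1 : 1 ≤ N := by rw [hN]; exact Nat.one_le_two_pow
    have hNR : (N : ℝ) = Λ ^ 2 := by rw [hN, hΛ]; push_cast; rw [← pow_mul, mul_comm]
    have hN2 : (2 : ℝ) ^ (2 * κ) = Λ ^ 2 := by rw [hΛ, ← pow_mul, mul_comm]
    obtain ⟨A, hA⟩ : ∃ A : ℝ, A = (K1 + K2) * (Λ ^ 3 * ((l : ℝ) ^ 2 * R + (l : ℝ) ^ 3 * Y ^ 2)) :=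
      ⟨_, rfl⟩
    have hA0 : 0 ≤ A := by rw [hA]; positivity
    obtain ⟨cc, hcc⟩ : ∃ cc : ℝ, cc = N * (1024 * B) := ⟨_, rfl⟩
    have hBb : 1024 * b ≤ 1024 * B := by linarith only [hbB]
    have key : ∀ (w : ℝ) (g : BI l → ℝ) (G : ℝ), 0 < G → w = 32 / (Λ * G) →
        ∑ e : BI l, b / 2 * g e ^ 2 ≤ 2 * b * G ^ 2 →
        ((2 : ℝ) ^ (2 * κ)) ^ 2 * (w ^ 2 / 2 * ∑ e : BI l, b / 2 * g e ^ 2) ≤ cc := by
      intro w g G hG hw hg
      rw [hN2, hcc, hNR]
      have h4 : (Λ ^ 2) ^ 2 * (w ^ 2 / 2 * (2 * b * G ^ 2)) = Λ ^ 2 * (1024 * b) := by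
        rw [hw]; field_simp; ring
      have h5 := mul_le_mul_of_nonneg_left hg (show 0 ≤ (Λ ^ 2) ^ 2 * (w ^ 2 / 2) by positivity)
      have h6 := mul_le_mul_of_nonneg_left hBb (show 0 ≤ Λ ^ 2 by positivity)
      calc (Λ ^ 2) ^ 2 * (w ^ 2 / 2 * ∑ e : BI l, b / 2 * g e ^ 2)
          = (Λ ^ 2) ^ 2 * (w ^ 2 / 2) * ∑ e : BI l, b / 2 * g e ^ 2 := by ring
        _ ≤ (Λ ^ 2) ^ 2 * (w ^ 2 / 2) * (2 * b * G ^ 2) := h5
        _ = (Λ ^ 2) ^ 2 * (w ^ 2 / 2 * (2 * b * G ^ 2)) := by ring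
        _ = Λ ^ 2 * (1024 * b) := h4
        _ ≤ Λ ^ 2 * (1024 * B) := h6
    have ka := key (32 / ρ) a (l * Y) (by positivity) (by rw [hρ]) (by
      have := UJ.H664.sum_sq_le hb.le ha
      refine this.trans (le_of_eq ?_); ring)
    have kr := key (32 / τ) r (l * R) (by positivity) (by rw [hτ]) (by
      have := UJ.H664.sum_sq_le hb.le hr
      refine this.trans (le_of_eq ?_); ring)
    have kh := key (32 / lam) hh l hl0 (by rw [hlam]) (by
      rw [sum_hh_sq]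
      have : 0 ≤ b * (l : ℝ) ^ 2 := by positivity
      linarith only [this])
    have kv := key (32 / lam) vv l hl0 (by rw [hlam]) (by
      rw [sum_vv_sq]
      have : 0 ≤ b * (l : ℝ) ^ 2 := by positivity
      linarith only [this])
    have e1 := Ev_Psi_pow hb.le hl hk (32 / ρ) (32 / lam) a hh (2 * κ) ka kh
    have e2 := Ev_Psi_pow hb.le hl hk (32 / ρ) (32 / lam) a vv (2 * κ) ka kv
    have e3 := Ev_Psi_pow hb.le hl hk (32 / τ) (32 / lam) r hh (2 * κ) kr kh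
    have e4 := Ev_Psi_pow hb.le hl hk (32 / τ) (32 / lam) r vv (2 * κ) kr kv
    rw [← hN] at e1 e2 e3 e4 ⊢
    -- the pointwise bound
    have hpt : ∀ x, Er x ^ N ≤ (A * 4) ^ N *
        (var_CE b l k (Psi b l k (32 / ρ) (32 / lam) a hh) x ^ N +
        var_CE b l k (Psi b l k (32 / ρ) (32 / lam) a vv) x ^ N +
        (var_CE b l k (Psi b l k (32 / τ) (32 / lam) r hh) x ^ N +
        var_CE b l k (Psi b l k (32 / τ) (32 / lam) r vv) x ^ N)) := by
      intro x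
      have q1 := pCE (32 / ρ) (32 / lam) a hh x
      have q2 := pCE (32 / ρ) (32 / lam) a vv x
      have q3 := pCE (32 / τ) (32 / lam) r hh x
      have q4 := pCE (32 / τ) (32 / lam) r vv x
      have hle : Er x ≤ A * (var_CE b l k (Psi b l k (32 / ρ) (32 / lam) a hh) x +
          var_CE b l k (Psi b l k (32 / ρ) (32 / lam) a vv) x +
          (var_CE b l k (Psi b l k (32 / τ) (32 / lam) r hh) x +
          var_CE b l k (Psi b l k (32 / τ) (32 / lam) r vv) x)) := by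
        rw [hEr]
        simp only
        have g1 : K1 * (lam * ρ ^ 2) ≤ A := by
          have : lam * ρ ^ 2 = Λ ^ 3 * ((l : ℝ) ^ 3 * Y ^ 2) := by rw [hlam, hρ]; ring
          rw [this, hA]
          have i1 : 0 ≤ Λ ^ 3 * ((l : ℝ) ^ 3 * Y ^ 2) := by positivity
          have i2 : 0 ≤ Λ ^ 3 * ((l : ℝ) ^ 2 * R) := by positivity
          nlinarith only [mul_nonneg hK10 i2, mul_nonneg hK20 i1, mul_nonneg hK20 i2]
        have g2 : K2 * (lam * τ) ≤ A := by
          have : lam * τ = Λ ^ 2 * ((l : ℝ) ^ 2 * R) := by rw [hlam, hτ]; ring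
          rw [this, hA]
          have i1 : 0 ≤ Λ ^ 3 * ((l : ℝ) ^ 3 * Y ^ 2) := by positivity
          have i2 : 0 ≤ Λ ^ 3 * ((l : ℝ) ^ 2 * R) := by positivity
          have i3 : Λ ^ 2 * ((l : ℝ) ^ 2 * R) ≤ Λ ^ 3 * ((l : ℝ) ^ 2 * R) :=
            mul_le_mul_of_nonneg_right (pow_le_pow_right₀ hΛ1 (by norm_num)) (by positivity)
          nlinarith only [mul_nonneg hK10 i1, mul_nonneg hK10 i2, mul_nonneg hK20 i1,
            mul_le_mul_of_nonneg_left i3 hK20]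
        have g3 := mul_le_mul_of_nonneg_right g1 (add_nonneg q1 q2)
        have g4 := mul_le_mul_of_nonneg_right g2 (add_nonneg q3 q4)
        linarith only [g3, g4]
      refine (pow_le_pow_left₀ (pEr x) hle N).trans ?_
      rw [mul_pow, mul_pow]
      have := pow_add4_le q1 q2 q3 q4 N
      calc _ ≤ A ^ N * (4 ^ N * _) := mul_le_mul_of_nonneg_left this (by positivity)
        _ = _ := by ring
    have D1 : Continuous (fun x => var_CE b l k (Psi b l k (32 / ρ) (32 / lam) a hh) x ^ N) :=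
      d1.pow N
    have D2 : Continuous (fun x => var_CE b l k (Psi b l k (32 / ρ) (32 / lam) a vv) x ^ N) :=
      d2.pow N
    have D3 : Continuous (fun x => var_CE b l k (Psi b l k (32 / τ) (32 / lam) r hh) x ^ N) :=
      d3.pow N
    have D4 : Continuous (fun x => var_CE b l k (Psi b l k (32 / τ) (32 / lam) r vv) x ^ N) :=
      d4.pow N
    have c12 : Continuous (fun x => var_CE b l k (Psi b l k (32 / ρ) (32 / lam) a hh) x ^ N +
        var_CE b l k (Psi b l k (32 / ρ) (32 / lam) a vv) x ^ N) := D1.add D2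
    have c34 : Continuous (fun x => var_CE b l k (Psi b l k (32 / τ) (32 / lam) r hh) x ^ N +
        var_CE b l k (Psi b l k (32 / τ) (32 / lam) r vv) x ^ N) := D3.add D4
    have cR : Continuous (fun x => (A * 4) ^ N *
        (var_CE b l k (Psi b l k (32 / ρ) (32 / lam) a hh) x ^ N +
        var_CE b l k (Psi b l k (32 / ρ) (32 / lam) a vv) x ^ N +
        (var_CE b l k (Psi b l k (32 / τ) (32 / lam) r hh) x ^ N +
        var_CE b l k (Psi b l k (32 / τ) (32 / lam) r vv) x ^ N))) :=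
      continuous_const.mul (c12.add c34)
    have s1 := Ev_mono (b := b) (L := l * n) (v := 0) (F := fun x => Er x ^ N) (cEr.pow N)
      cR hpt
    refine s1.trans ?_
    rw [Ev_const_mul, Ev_add c12 c34, Ev_add D1 D2, Ev_add D3 D4]
    have hsum : Ev b (l * n) 0 (fun x => var_CE b l k (Psi b l k (32 / ρ) (32 / lam) a hh) x ^ N) +
        Ev b (l * n) 0 (fun x => var_CE b l k (Psi b l k (32 / ρ) (32 / lam) a vv) x ^ N) +
        (Ev b (l * n) 0 (fun x => var_CE b l k (Psi b l k (32 / τ) (32 / lam) r hh) x ^ N) +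
        Ev b (l * n) 0 (fun x => var_CE b l k (Psi b l k (32 / τ) (32 / lam) r vv) x ^ N)) ≤
        4 * (4 ^ N * (4 * Real.exp cc)) := by
      linarith only [e1, e2, e3, e4]
    refine (mul_le_mul_of_nonneg_left hsum (by positivity)).trans ?_
    have hecc : Real.exp cc = Real.exp (1024 * B) ^ N := by
      rw [hcc, ← Real.exp_nat_mul]
    have h16 : (16 : ℝ) ≤ 16 ^ N := by
      calc (16 : ℝ) = 16 ^ 1 := by norm_num
        _ ≤ 16 ^ N := pow_le_pow_right₀ (by norm_num) hN1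
    have hfin : (K1 + K2) * (256 * Real.exp (1024 * B)) *
        (Λ ^ 3 * ((l : ℝ) ^ 2 * R + (l : ℝ) ^ 3 * Y ^ 2)) =
        (A * 4) * (16 * (4 * Real.exp (1024 * B))) := by rw [hA]; ring
    rw [hfin, hecc]
    calc (A * 4) ^ N * (4 * (4 ^ N * (4 * Real.exp (1024 * B) ^ N)))
        = (A * 4) ^ N * (16 * (4 ^ N * Real.exp (1024 * B) ^ N)) := by ring
      _ ≤ (A * 4) ^ N * (16 ^ N * (4 ^ N * Real.exp (1024 * B) ^ N)) := by
          refine mul_le_mul_of_nonneg_left ?_ (by positivity)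
          exact mul_le_mul_of_nonneg_right h16 (by positivity)
      _ = (A * 4 * (16 * (4 * Real.exp (1024 * B)))) ^ N := by
          rw [mul_pow (A * 4), mul_pow 16, mul_pow 4]
  · -- the expansion
    intro h hh' x
    obtain ⟨t, ht⟩ := rep_exists (l := l) (cor l k) x
    have hta : ∀ e, (((t + a) e : ℝ) : T) = (x + α) (cor l k + bu e) - (x + α) (cor l k + bv e) := by
      intro e
      rw [Pi.add_apply, AddCircle.coe_add, ht, haα, Pi.add_apply, Pi.add_apply]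
      abel
    rw [jc_eq hta, jc_eq ht, qc_eq ht, qc_eq ht]
    have hS := sum_J b l
    have hΛ2 : 1 ≤ Λ ^ 2 := one_le_pow₀ hΛ1
    have hSY2 : 3 * (∑ _e : BI l, b / 2) * Y ^ 2 ≤ c * ρ ^ 2 := by
      rw [hS, hρ, hc]
      have : 3 * (2 * b * (l : ℝ) ^ 2) * Y ^ 2 = 6 * b * ((l : ℝ) * Y) ^ 2 := by ring
      rw [this, mul_pow]
      have i1 : 6 * b * ((l : ℝ) * Y) ^ 2 ≤ 6 * B * ((l : ℝ) * Y) ^ 2 :=
        mul_le_mul_of_nonneg_right (by linarith only [hbB]) (by positivity)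
      have i2 : 6 * B * (1 * ((l : ℝ) * Y) ^ 2) ≤ 6 * B * (Λ ^ 2 * ((l : ℝ) * Y) ^ 2) :=
        mul_le_mul_of_nonneg_left (mul_le_mul_of_nonneg_right hΛ2 (by positivity)) (by positivity)
      linarith only [i1, i2]
    have hlin : ∀ G : ℝ, 0 < G → (∑ _e : BI l, b / 2) * G ≤ c * (lam * (Λ * (l * G))) := by
      intro G hG
      rw [hS, hlam, hc]
      have e0 : 2 * b * (l : ℝ) ^ 2 * G = 2 * b * ((l : ℝ) * (l * G)) := by ring
      have e1 : 6 * B * (Λ * l * (Λ * (l * G))) = 6 * B * (Λ ^ 2 * ((l : ℝ) * (l * G))) := by ring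
      rw [e0, e1]
      have i0 : 0 ≤ (l : ℝ) * (l * G) := by positivity
      have i1 : 2 * b * ((l : ℝ) * (l * G)) ≤ 6 * B * ((l : ℝ) * (l * G)) :=
        mul_le_mul_of_nonneg_right (by linarith only [hbB, hB]) i0
      have i2 : 6 * B * (1 * ((l : ℝ) * (l * G))) ≤ 6 * B * (Λ ^ 2 * ((l : ℝ) * (l * G))) :=
        mul_le_mul_of_nonneg_left (mul_le_mul_of_nonneg_right hΛ2 i0) (by positivity)
      linarith only [i1, i2]
    have hSY : (∑ _e : BI l, b / 2) * Y ≤ c * (lam * ρ) := by rw [hρ]; exact hlin Y hY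
    have hSR : (∑ _e : BI l, b / 2) * R ≤ c * (lam * τ) := by rw [hτ]; exact hlin R hR
    -- the defects
    have hDh0 := QQ_le muInf (fun _ => b / 2) (chi0 l) pi_div2 hJ t hh
    have hDv0 := QQ_le muInf (fun _ => b / 2) (chi0 l) pi_div2 hJ t vv
    have hDp := QQ_le muInf (fun _ => b / 2) (chi0 l) pi_div2 hJ t (hh + vv)
    have hDm := QQ_le muInf (fun _ => b / 2) (chi0 l) pi_div2 hJ t (hh + (-1 : ℝ) • vv)
    have bil : ∀ (s h k : BI l → ℝ), QQ muInf (fun _ => b / 2) (chi0 l) s (h + k) (h + k) =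
        QQ muInf (fun _ => b / 2) (chi0 l) s h h + 2 * QQ muInf (fun _ => b / 2) (chi0 l) s h k +
          QQ muInf (fun _ => b / 2) (chi0 l) s k k := by
      intro s h k
      rw [QQ_add, QQ_symm muInf _ _ s (h + k) h, QQ_symm muInf _ _ s (h + k) k, QQ_add, QQ_add,
        QQ_symm muInf _ _ s k h]
      ring
    have bil2 : ∀ s : BI l → ℝ, QQ muInf (fun _ => b / 2) (chi0 l) s (hh + (-1 : ℝ) • vv)
        (hh + (-1 : ℝ) • vv) = QQ muInf (fun _ => b / 2) (chi0 l) s hh hh -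
          2 * QQ muInf (fun _ => b / 2) (chi0 l) s hh vv +
          QQ muInf (fun _ => b / 2) (chi0 l) s vv vv := by
      intro s
      rw [bil, QQ_smul2, QQ_smul]
      ring
    rw [bil, bil, Q0_hv] at hDp
    rw [bil2, bil2, Q0_hv] at hDm
    rw [Q0_h l b hl] at hDh0 hDp hDm
    rw [Q0_v l b hl] at hDv0 hDp hDm
    obtain ⟨Qhh, hQhh⟩ : ∃ q, q = QQ muInf (fun _ => b / 2) (chi0 l) t hh hh := ⟨_, rfl⟩
    obtain ⟨Qvv, hQvv⟩ : ∃ q, q = QQ muInf (fun _ => b / 2) (chi0 l) t vv vv := ⟨_, rfl⟩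
    obtain ⟨Qhv, hQhv⟩ : ∃ q, q = QQ muInf (fun _ => b / 2) (chi0 l) t hh vv := ⟨_, rfl⟩
    rw [← hQhh] at hDh0 hDp hDm ⊢
    rw [← hQvv] at hDv0 hDp hDm ⊢
    rw [← hQhv] at hDp hDm
    have hcross : |Qhv| ≤ (((l : ℝ) ^ 2 * stiff l b - Qhh) +
        ((l : ℝ) ^ 2 * stiff l b - Qvv)) / 2 := by
      rw [abs_le]
      constructor <;> linarith only [hDm, hDp]
    -- the four estimates
    have v1 := CE_Psi (b := b) ht hρ0 hlam0 a hh
    have v2 := CE_Psi (b := b) ht hρ0 hlam0 a vv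
    have v3 := CE_Psi (b := b) ht hτ0 hlam0 r hh
    have v4 := CE_Psi (b := b) ht hτ0 hlam0 r vv
    have q1 := pCE (32 / ρ) (32 / lam) a hh x
    have q2 := pCE (32 / ρ) (32 / lam) a vv x
    have q3 := pCE (32 / τ) (32 / lam) r hh x
    have q4 := pCE (32 / τ) (32 / lam) r vv x
    obtain ⟨V1, hV1⟩ : ∃ V, V = var_CE b l k (Psi b l k (32 / ρ) (32 / lam) a hh) x := ⟨_, rfl⟩
    obtain ⟨V2, hV2⟩ : ∃ V, V = var_CE b l k (Psi b l k (32 / ρ) (32 / lam) a vv) x := ⟨_, rfl⟩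
    obtain ⟨V3, hV3⟩ : ∃ V, V = var_CE b l k (Psi b l k (32 / τ) (32 / lam) r hh) x := ⟨_, rfl⟩
    obtain ⟨V4, hV4⟩ : ∃ V, V = var_CE b l k (Psi b l k (32 / τ) (32 / lam) r vv) x := ⟨_, rfl⟩
    have hErx : Er x = K1 * (lam * ρ ^ 2) * (V1 + V2) + K2 * (lam * τ) * (V3 + V4) := by
      rw [hEr, hV1, hV2, hV3, hV4]
    rw [hErx]
    rw [← hV1] at v1 q1
    rw [← hV2] at v2 q2
    rw [← hV3] at v3 q3
    rw [← hV4] at v4 q4
    have w1 := (jm_uni muInf (fun _ => b / 2) (chi0 l) hJ (t := t) (a := a) (h := hh) (Y := Y)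
      (ρ := ρ) (lam := lam) (c := c) hY1 ha abs_hh_le hρ0 hρ1 hlam1 hc0 hSY2 hSY).trans
      (mul_le_mul_of_nonneg_left v1 (by positivity))
    have w2 := (jm_uni muInf (fun _ => b / 2) (chi0 l) hJ (t := t) (a := a) (h := vv) (Y := Y)
      (ρ := ρ) (lam := lam) (c := c) hY1 ha abs_vv_le hρ0 hρ1 hlam1 hc0 hSY2 hSY).trans
      (mul_le_mul_of_nonneg_left v2 (by positivity))
    have w3 := (QQ_uni muInf (fun _ => b / 2) (chi0 l) hJ (t := t) (r := r) (h := hh) (R := R)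
      (ρ := τ) (lam := lam) (c := c) abs_hh_le hr hτ0 hlam1 hc0 hSR).trans
      (mul_le_mul_of_nonneg_left v3 (by positivity))
    have w4 := (QQ_uni muInf (fun _ => b / 2) (chi0 l) hJ (t := t) (r := r) (h := vv) (R := R)
      (ρ := τ) (lam := lam) (c := c) abs_vv_le hr hτ0 hlam1 hc0 hSR).trans
      (mul_le_mul_of_nonneg_left v4 (by positivity))
    rw [← hK1] at w1 w2
    rw [← hK2] at w3 w4
    have f1 : QQ muInf (fun _ => b / 2) (chi0 l) t hh a = xi1 * Qhh + (xi2 * Qhv +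
        QQ muInf (fun _ => b / 2) (chi0 l) t hh r) := by
      conv_lhs => rw [hdec]
      rw [QQ_add, QQ_add, QQ_smul, QQ_smul, ← hQhh, ← hQhv]
    have f2 : QQ muInf (fun _ => b / 2) (chi0 l) t vv a = xi2 * Qvv + (xi1 * Qhv +
        QQ muInf (fun _ => b / 2) (chi0 l) t vv r) := by
      conv_lhs => rw [hdec]
      rw [QQ_add, QQ_add, QQ_smul, QQ_smul, QQ_symm muInf _ _ t vv hh, ← hQvv, ← hQhv]
      ring
    have p1 : 0 ≤ K1 * (lam * ρ ^ 2) * V1 := by positivity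
    have p2 : 0 ≤ K1 * (lam * ρ ^ 2) * V2 := by positivity
    have p3 : 0 ≤ K2 * (lam * τ) * V3 := by positivity
    have p4 : 0 ≤ K2 * (lam * τ) * V4 := by positivity
    have g1 := curr_alg (st := stiff l b) (Qth := Qhh) (Qtv := Qhv)
      (Qtr := QQ muInf (fun _ => b / 2) (chi0 l) t hh r) (L2 := (l : ℝ) ^ 2) hY.le h1 h2
      (Dh := (l : ℝ) ^ 2 * stiff l b - Qhh) (Dv := (l : ℝ) ^ 2 * stiff l b - Qvv) rfl
      (by linarith only [hDh0]) (by linarith only [hDv0]) hcross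
      (R := 1) (CQ := K2 * (lam * τ) * V3) (by rw [mul_one]; exact w3) hs1
    have g2 := curr_alg (st := stiff l b) (Qth := Qvv) (Qtv := Qhv)
      (Qtr := QQ muInf (fun _ => b / 2) (chi0 l) t vv r) (L2 := (l : ℝ) ^ 2) hY.le h2 h1
      (Dh := (l : ℝ) ^ 2 * stiff l b - Qvv) (Dv := (l : ℝ) ^ 2 * stiff l b - Qhh) rfl
      (by linarith only [hDv0]) (by linarith only [hDh0]) (by linarith only [hcross])
      (R := 1) (CQ := K2 * (lam * τ) * V4) (by rw [mul_one]; exact w4) hs2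
    rw [← f1] at g1
    rw [← f2] at g2
    rcases hh' with rfl | rfl
    · have := abs_add_le (jm muInf (fun _ => b / 2) (chi0 l) (t + a) hh -
        jm muInf (fun _ => b / 2) (chi0 l) t hh - QQ muInf (fun _ => b / 2) (chi0 l) t hh a)
        (QQ muInf (fun _ => b / 2) (chi0 l) t hh a - stiff l b * ∑ e, 1 / 2 * hh e * a e)
      rw [sub_add_sub_cancel] at this
      linarith only [w1, g1, p2, p4, this]
    · have := abs_add_le (jm muInf (fun _ => b / 2) (chi0 l) (t + a) vv -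
        jm muInf (fun _ => b / 2) (chi0 l) t vv - QQ muInf (fun _ => b / 2) (chi0 l) t vv a)
        (QQ muInf (fun _ => b / 2) (chi0 l) t vv a - stiff l b * ∑ e, 1 / 2 * vv e * a e)
      rw [sub_add_sub_cancel] at this
      linarith only [w2, g2, p1, p3, this]

end Vale.Agent.P159.UJ.H733
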