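import Vale.Agent.P159.H733.Rho
import Vale.Agent.P159.T1.NC.H664.GU

/-!
P159: lower bound for the weight of a dipole.
-/

set_option linter.all false

open MeasureTheory Filter Topology
open scoped BigOperators

namespace Vale.Agent.P159.UJ.H733

open Vale.Agent.P159 Vale.Agent.P159.UJ

theorem prod_rho_mono {b : ℝ} (hb : 0 ≤ b) (l : ℕ) {X Y : Finset (ℤ × ℤ)} (h : X ⊆ Y)
    (θ : Ginf) : ∏ k ∈ Y, rho b l (cor l k) θ ≤ ∏ k ∈ X, rho b l (cor l k) θ := by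
  rw [← Finset.prod_sdiff h]
  have h1 : ∏ k ∈ Y \ X, rho b l (cor l k) θ ≤ 1 :=
    Finset.prod_le_one (fun k _ => (rho_pos _ _ _ _).le) fun k _ => rho_le_one hb _ _ _
  have h2 : 0 < ∏ k ∈ X, rho b l (cor l k) θ := Finset.prod_pos fun k _ => rho_pos _ _ _ _
  nlinarith only [h1, h2]

/-- one core of the dipole -/
theorem dip_core {b B : ℝ} (hb : 0 < b) (hbB : b ≤ B) {l m K M : ℕ} (hs : 2 ≤ l * m)
    (hK : 2 ≤ K) (hy : -Real.log (yy b (l * m)) ≤ (K : ℝ) ^ 2) {p : ℕ × ℕ} (hp1 : p.1 < M)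
    (hp2 : p.2 < M) {v η : Ginf}
    (hv : rho b (l * m) (cnr l m K M p.1 p.2) v = yy b (l * m))
    (hη : Real.exp (-(16 * b / (K : ℝ) ^ 2)) ≤ rho b (l * m) (cnr l m K M p.1 p.2) η) :
    Real.exp (-(1 + 32 * B)) * yy b (l * m) ≤
      rho b (l * m) (cnr l m K M p.1 p.2) (v + η) := by
  have hy0 : 0 < yy b (l * m) := by rw [← hv]; exact rho_pos _ _ _ _
  have hK' : (2 : ℝ) ≤ K := by exact_mod_cast hK
  have hK2 : (1 : ℝ) ≤ (K : ℝ) ^ 2 := by nlinarith only [hK']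
  have h := rho_conv hb.le (l * m) (cnr l m K M p.1 p.2) v η hη (n := K ^ 2)
    (Nat.one_le_pow _ _ (by omega))
  rw [hv] at h
  push_cast at h
  rw [← Real.log_le_log_iff (by positivity) (rho_pos _ _ _ _),
    Real.log_mul (Real.exp_pos _).ne' hy0.ne', Real.log_exp]
  refine le_trans ?_ h
  have h1 : (1 + 1 / (K : ℝ) ^ 2) * Real.log (yy b (l * m)) =
      Real.log (yy b (l * m)) - (-Real.log (yy b (l * m))) / (K : ℝ) ^ 2 := by
    field_simp
    ring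
  have h2 : (-Real.log (yy b (l * m))) / (K : ℝ) ^ 2 ≤ 1 := by
    rw [div_le_one (by positivity)]
    exact hy
  have h3 : 16 * b / (K : ℝ) ^ 2 * ((K : ℝ) ^ 2 + 1) ≤ 32 * B := by
    rw [div_mul_eq_mul_div, div_le_iff₀ (by positivity)]
    nlinarith only [hbB, hK2, hb]
  rw [h1]
  linarith only [h2, h3]

/-- lower bound for the weight of a dipole -/
theorem dip_lower (B : ℝ) (hB : 0 < B) : ∃ C2 CG : ℝ, 1 ≤ C2 ∧ 1 ≤ CG ∧ ∀ b : ℝ, 0 < b → b ≤ B →
    ∀ l m K M : ℕ, 1 ≤ l → 2 ≤ K → CG * (NN K M : ℝ) ^ 2 ≤ (m : ℝ) →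
      -Real.log (yy b (l * m)) ≤ (K : ℝ) ^ 2 → ∀ p q : ℕ × ℕ, p ≠ q → p.1 < M → p.2 < M →
      q.1 < M → q.2 < M →
      Real.exp (-(4 * Real.pi * stiff l b * Real.log (NN K M)) - C2) * yy b (l * m) ^ 2 ≤
        Rr b (blQ m K M {p, q}) (sdQ l m) (cnQ l m K M)
          (alp l m K M q.1 q.2 - alp l m K M p.1 p.2) 0 := by
  obtain ⟨C2, CG, hC2, hCG, hg⟩ := H664.g_U B hB
  refine ⟨4 * (B * C2 / 2 + 1) + 2 * (1 + 32 * B), max CG 2, by nlinarith only [hB, hC2],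
    hCG.trans (le_max_left _ _), ?_⟩
  intro b hb hbB l m K M hl hK hm hy p q hpq hp1 hp2 hq1 hq2
  have hN1 : (1 : ℝ) ≤ (NN K M : ℝ) := by
    have : 1 ≤ NN K M := by unfold NN; omega
    exact_mod_cast this
  have hm1 : CG * (NN K M : ℝ) ^ 2 ≤ (m : ℝ) :=
    le_trans (mul_le_mul_of_nonneg_right (le_max_left _ _) (by positivity)) hm
  have hm2 : (2 : ℝ) ≤ (m : ℝ) := by
    have h2 : 2 * (NN K M : ℝ) ^ 2 ≤ (m : ℝ) :=
      le_trans (mul_le_mul_of_nonneg_right (le_max_right _ _) (by positivity)) hm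
    nlinarith only [h2, hN1]
  have hm2' : 2 ≤ m := by exact_mod_cast hm2
  have hs : 2 ≤ l * m := hm2'.trans (Nat.le_mul_of_pos_left _ hl)
  have hy0 : 0 < yy b (l * m) := div_pos (WB_pos _ _ _ _) (WB_pos _ _ _ _)
  -- one vortex outside of its core
  have one : ∀ u : ℕ × ℕ, u.1 < M → u.2 < M → u ∈ ({p, q} : Finset (ℕ × ℕ)) →
      Real.exp (-(Real.pi * stiff l b * Real.log (NN K M)) - (B * C2 / 2 + 1)) ≤
        ∏ k ∈ outQ m K M {p, q}, rho b l (cor l k) (alp l m K M u.1 u.2) := by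
    intro u hu1 hu2 hu
    have h := hg b hb hbB l K M hl (by omega) m u.1 u.2 hu1 hu2 hm1
    rw [h3_core hs (by omega) hu1 hu2] at h
    exact (le_of_mul_le_mul_right h hy0).trans
      (prod_rho_mono hb.le l (outQ_sub_outer hu) (alp l m K M u.1 u.2))
  have hp0 := one p hp1 hp2 (by simp)
  have hq0 := one q hq1 hq2 (by simp)
  obtain ⟨E, hE⟩ : ∃ E, E = Real.exp (-(Real.pi * stiff l b * Real.log (NN K M)) -
    (B * C2 / 2 + 1)) := ⟨_, rfl⟩
  rw [← hE] at hp0 hq0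
  have hE0 : 0 < E := by rw [hE]; exact Real.exp_pos _
  -- the cells
  have hcells : E ^ 2 * E ^ 2 ≤ ∏ k ∈ outQ m K M {p, q}, rho b l (cor l k)
      (alp l m K M q.1 q.2 - alp l m K M p.1 p.2) := by
    have h1 : (∏ k ∈ outQ m K M {p, q}, rho b l (cor l k) (alp l m K M q.1 q.2)) ^ 2 *
        (∏ k ∈ outQ m K M {p, q}, rho b l (cor l k) (alp l m K M p.1 p.2)) ^ 2 ≤
        ∏ k ∈ outQ m K M {p, q}, rho b l (cor l k)
          (alp l m K M q.1 q.2 - alp l m K M p.1 p.2) := by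
      rw [← Finset.prod_pow, ← Finset.prod_pow, ← Finset.prod_mul_distrib]
      exact Finset.prod_le_prod (fun k _ => mul_nonneg (sq_nonneg _) (sq_nonneg _))
        fun k _ => rho_sub hb.le _ _ _ _
    refine le_trans ?_ h1
    exact mul_le_mul (pow_le_pow_left₀ hE0.le hq0 2) (pow_le_pow_left₀ hE0.le hp0 2)
      (sq_nonneg _) (sq_nonneg _)
  -- the cores
  have hvp : rho b (l * m) (cnr l m K M p.1 p.2) (-alp l m K M p.1 p.2) = yy b (l * m) := by
    rw [rho_neg]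
    unfold rho
    exact h3_core hs (by omega) hp1 hp2
  have hvq : rho b (l * m) (cnr l m K M q.1 q.2) (alp l m K M q.1 q.2) = yy b (l * m) := by
    unfold rho
    exact h3_core hs (by omega) hq1 hq2
  have hcp := dip_core hb hbB hs hK hy hp1 hp2 hvp (rho_other hb.le hs hK hpq hp1 hp2)
  have hηq : Real.exp (-(16 * b / (K : ℝ) ^ 2)) ≤
      rho b (l * m) (cnr l m K M q.1 q.2) (-alp l m K M p.1 p.2) := by
    rw [rho_neg]
    exact rho_other hb.le hs hK hpq.symm hq1 hq2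
  have hcq := dip_core hb hbB hs hK hy hq1 hq2 hvq hηq
  have e1 : -alp l m K M p.1 p.2 + alp l m K M q.1 q.2 =
      alp l m K M q.1 q.2 - alp l m K M p.1 p.2 := by abel
  have e2 : alp l m K M q.1 q.2 + -alp l m K M p.1 p.2 =
      alp l m K M q.1 q.2 - alp l m K M p.1 p.2 := by abel
  rw [e1] at hcp
  rw [e2] at hcq
  have hRr : Rr b (blQ m K M {p, q}) (sdQ l m) (cnQ l m K M)
      (alp l m K M q.1 q.2 - alp l m K M p.1 p.2) 0 =
      (rho b (l * m) (cnr l m K M p.1 p.2) (alp l m K M q.1 q.2 - alp l m K M p.1 p.2) *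
       rho b (l * m) (cnr l m K M q.1 q.2) (alp l m K M q.1 q.2 - alp l m K M p.1 p.2)) *
      ∏ k ∈ outQ m K M {p, q}, rho b l (cor l k)
          (alp l m K M q.1 q.2 - alp l m K M p.1 p.2) := by
    unfold Rr blQ rho
    rw [Finset.prod_disjSum, Finset.prod_pair hpq]
    simp only [sdQ, cnQ, zero_add]
  rw [hRr]
  have e3 : Real.exp (-(4 * Real.pi * stiff l b * Real.log (NN K M)) -
      (4 * (B * C2 / 2 + 1) + 2 * (1 + 32 * B))) * yy b (l * m) ^ 2 =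
      ((Real.exp (-(1 + 32 * B)) * yy b (l * m)) * (Real.exp (-(1 + 32 * B)) * yy b (l * m))) *
      (E ^ 2 * E ^ 2) := by
    have e4 : Real.exp (-(4 * Real.pi * stiff l b * Real.log (NN K M)) -
      (4 * (B * C2 / 2 + 1) + 2 * (1 + 32 * B))) =
      Real.exp (-(1 + 32 * B)) * Real.exp (-(1 + 32 * B)) * (E ^ 2 * E ^ 2) := by
      rw [hE, ← pow_add, ← Real.exp_nat_mul, ← Real.exp_add, ← Real.exp_add]
      congr 1
      push_cast
      ring
    rw [e4]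
    ring
  rw [e3]
  have hEy : 0 ≤ Real.exp (-(1 + 32 * B)) * yy b (l * m) :=
    mul_nonneg (Real.exp_pos _).le hy0.le
  refine mul_le_mul (mul_le_mul hcp hcq hEy (rho_pos _ _ _ _).le) hcells
    (mul_nonneg (sq_nonneg _) (sq_nonneg _)) ?_
  exact mul_nonneg (rho_pos _ _ _ _).le (rho_pos _ _ _ _).le

end Vale.Agent.P159.UJ.H733
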