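import Vale.Agent.P159.H733.Aff

/-!
P159: the drop of the stiffness between the side of the cells and the side of the big block is at
least the square of the vortex ratio up to a power of `Λ`, where `Λ²` is of the order of the
logarithm of the inverse of the vortex ratio.
-/

set_option linter.all false

open MeasureTheory Filter Topology
open scoped BigOperators

namespace Vale.Agent.P159.UJ.H733

open Vale.Agent.P159 Vale.Agent.P159.UJ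

/-- final computation -/
theorem drop_num {q a0 K0 Λ K A1 δ h X : ℝ} {N : ℕ} (hΛ : 1 ≤ Λ) (hq : 0 ≤ q)
    (hK : K = K0 * Λ) (hK1 : 0 < K) (hA1 : 0 < A1) (hN : (N : ℝ) = Λ ^ 2)
    (h1 : a0 + 4 ≤ q * K0 ^ 2) (h2 : Real.exp (-(a0 * Λ ^ 2)) ≤ h) (hX0 : 0 ≤ X)
    (hX : X ≤ Real.exp (-(a0 + 4)))
    (hm : h ≤ 4 * (A1 * K * δ + 2 * Real.exp (-(q * K ^ 2)) + X ^ N)) :
    h / (8 * A1 * K) ≤ δ := by
  have hΛ2 : (1 : ℝ) ≤ Λ ^ 2 := one_le_pow₀ hΛ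
  have e0 : Real.exp (-4) ≤ 1 / 32 := by
    rw [Real.exp_neg, one_div]
    apply inv_anti₀ (by norm_num)
    have h3 : Real.exp 4 = Real.exp 1 ^ 4 := by
      rw [← Real.exp_nat_mul]; norm_num
    rw [h3]
    have h4 := Real.exp_one_gt_d9
    have h5 : (2.7 : ℝ) ^ 4 ≤ Real.exp 1 ^ 4 := pow_le_pow_left₀ (by norm_num)
      (by linarith only [h4]) 4
    have h6 : (32 : ℝ) ≤ (2.7 : ℝ) ^ 4 := by norm_num
    exact h6.trans h5
  have e1 : Real.exp (-((a0 + 4) * Λ ^ 2)) ≤ 1 / 32 * h := by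
    have : -((a0 + 4) * Λ ^ 2) ≤ -4 + -(a0 * Λ ^ 2) := by nlinarith only [hΛ2]
    calc Real.exp (-((a0 + 4) * Λ ^ 2)) ≤ Real.exp (-4 + -(a0 * Λ ^ 2)) := Real.exp_le_exp.2 this
      _ = Real.exp (-4) * Real.exp (-(a0 * Λ ^ 2)) := Real.exp_add _ _
      _ ≤ 1 / 32 * h := mul_le_mul e0 h2 (Real.exp_pos _).le (by norm_num)
  have e2 : Real.exp (-(q * K ^ 2)) ≤ 1 / 32 * h := by
    refine le_trans (Real.exp_le_exp.2 ?_) e1
    rw [hK]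
    nlinarith only [h1, hΛ2]
  have e3 : X ^ N ≤ 1 / 32 * h := by
    refine le_trans ?_ e1
    calc X ^ N ≤ Real.exp (-(a0 + 4)) ^ N := pow_le_pow_left₀ hX0 hX N
      _ = Real.exp (-((a0 + 4) * Λ ^ 2)) := by
          rw [← Real.exp_nat_mul, hN]
          congr 1
          ring
  have e4 : h / 2 ≤ 4 * (A1 * K * δ) := by linarith only [hm, e2, e3, (Real.exp_pos _).le.trans h2]
  rw [div_le_iff₀ (by positivity)]
  linarith only [e4]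

/-- lower bound of the drop of the stiffness -/
theorem p_low (B t0 : ℝ) (hB : 0 < B) (ht0 : 0 < t0) : ∃ (K0 A p : ℕ) (c : ℝ), 1 ≤ K0 ∧ 1 ≤ A ∧
    0 < c ∧ ∀ b : ℝ, 0 < b → b ≤ B → ∀ l κ m : ℕ, 1 ≤ l → A * (2 ^ κ) ^ 4 ≤ m →
      t0 ≤ stiff l b → -Real.log (yy b (l * m)) ≤ ((2 : ℝ) ^ κ) ^ 2 / 8 →
      c * yy b (l * m) ^ 2 / ((2 : ℝ) ^ κ) ^ p ≤
        stiff l b - stiff (l * m * NN (K0 * 2 ^ κ) 2) b := by
  obtain ⟨C2, CG, hC2, hCG, hlow⟩ := dip_lower B hB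
  obtain ⟨C0, C, hC0, hC, hup⟩ := dip_upper B hB
  obtain ⟨q, hq⟩ : ∃ q : ℝ, q = t0 ^ 2 / (256 * B) := ⟨_, rfl⟩
  have hq0 : 0 < q := by rw [hq]; positivity
  have hpi := Real.pi_pos
  obtain ⟨K0, hK0⟩ := exists_nat_ge ((72 * Real.pi * B + C2 + 5) / q + C0 + 2)
  have hK0a : (72 * Real.pi * B + C2 + 5) / q ≤ K0 := by linarith only [hK0, hC0]
  have hK0q : 0 ≤ (72 * Real.pi * B + C2 + 5) / q := by positivity
  have hK0b : C0 ≤ (K0 : ℝ) := by linarith only [hK0, hK0q]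
  have hK0c : (2 : ℝ) ≤ (K0 : ℝ) := by linarith only [hK0b, hC0]
  have hK02 : 2 ≤ K0 := by exact_mod_cast hK0c
  obtain ⟨a0, ha0⟩ : ∃ a0 : ℝ, a0 = 1 / 4 + 4 * Real.pi * B * (17 * K0 + 1) + C2 := ⟨_, rfl⟩
  have hqK : a0 + 4 ≤ q * (K0 : ℝ) ^ 2 := by
    rw [div_le_iff₀ hq0] at hK0a
    have h1 : (72 * Real.pi * B + C2 + 5) * 1 ≤ (72 * Real.pi * B + C2 + 5) * K0 :=
      mul_le_mul_of_nonneg_left (by linarith only [hK0c]) (by positivity)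
    have h2 : (72 * Real.pi * B + C2 + 5) * K0 ≤ K0 * q * K0 :=
      mul_le_mul_of_nonneg_right hK0a (by positivity)
    have h3 : (0 : ℝ) ≤ (C2 + 5) * (K0 - 1) :=
      mul_nonneg (by linarith only [hC2]) (by linarith only [hK0c])
    have h4 : (0 : ℝ) ≤ Real.pi * B * (K0 - 1) :=
      mul_nonneg (by positivity) (by linarith only [hK0c])
    rw [ha0]
    nlinarith only [h2, h3, h4]
  obtain ⟨P, hP⟩ := exists_nat_ge (4 * Real.pi * B)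
  obtain ⟨A1, hA1⟩ : ∃ A1 : ℝ, A1 = 18496 * (1 / t0 ^ 2 + C0 / t0) := ⟨_, rfl⟩
  have hA10 : 0 < A1 := by rw [hA1]; positivity
  obtain ⟨G, hG⟩ : ∃ G : ℝ, G = 13872 * C * C0 ^ 2 / t0 := ⟨_, rfl⟩
  have hG0 : 0 < G := by rw [hG]; positivity
  obtain ⟨A, hA⟩ := exists_nat_ge (CG * (17 * K0) ^ 2 + 2 * C0 + G * K0 * Real.exp (a0 + 4))
  have hA2 : (0 : ℝ) ≤ CG * (17 * K0) ^ 2 := by positivity
  have hA3 : (0 : ℝ) ≤ G * K0 * Real.exp (a0 + 4) := by positivity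
  have hA4 : (1 : ℝ) ≤ (A : ℝ) := by linarith only [hA, hA2, hA3, hC0]
  refine ⟨K0, A, P + 1, Real.exp (-C2) / ((17 * K0) ^ P * (8 * A1 * K0)), by omega,
    by exact_mod_cast hA4, by positivity, ?_⟩
  intro b hb hbB l κ m hl hm ht hy
  obtain ⟨Λ, hΛd⟩ : ∃ Λ : ℝ, Λ = (2 : ℝ) ^ κ := ⟨_, rfl⟩
  have hΛ : 1 ≤ Λ := by rw [hΛd]; exact one_le_pow₀ (by norm_num)
  have hmR : (A : ℝ) * Λ ^ 4 ≤ (m : ℝ) := by
    rw [hΛd]
    exact_mod_cast hm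
  have hKd : ((K0 * 2 ^ κ : ℕ) : ℝ) = K0 * Λ := by rw [hΛd]; push_cast; ring
  have hK2 : 2 ≤ K0 * 2 ^ κ := hK02.trans (Nat.le_mul_of_pos_right _ (by positivity))
  have hKR : (2 : ℝ) ≤ ((K0 * 2 ^ κ : ℕ) : ℝ) := by exact_mod_cast hK2
  have hNR : ((NN (K0 * 2 ^ κ) 2 : ℕ) : ℝ) = 16 * (K0 * Λ) + 1 := by
    rw [NN_cast, hKd]; push_cast; ring
  have hN17 : ((NN (K0 * 2 ^ κ) 2 : ℕ) : ℝ) ≤ 17 * K0 * Λ := by
    rw [hNR]
    rw [hKd] at hKR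
    linarith only [hKR]
  have hN1 : (1 : ℝ) ≤ ((NN (K0 * 2 ^ κ) 2 : ℕ) : ℝ) := by
    rw [hNR]
    rw [hKd] at hKR
    linarith only [hKR]
  have hΛ2 : 1 ≤ Λ ^ 2 := one_le_pow₀ hΛ
  have hΛ24 : Λ ^ 2 ≤ Λ ^ 4 := pow_le_pow_right₀ hΛ (by norm_num)
  have hΛ14 : Λ ≤ Λ ^ 4 := by
    calc Λ = Λ ^ 1 := (pow_one _).symm
      _ ≤ Λ ^ 4 := pow_le_pow_right₀ hΛ (by norm_num)
  -- conditions
  have m1 : CG * (NN (K0 * 2 ^ κ) 2 : ℝ) ^ 2 ≤ (m : ℝ) := by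
    have h1 : (NN (K0 * 2 ^ κ) 2 : ℝ) ^ 2 ≤ (17 * K0 * Λ) ^ 2 :=
      pow_le_pow_left₀ (by linarith only [hN1]) hN17 2
    calc CG * (NN (K0 * 2 ^ κ) 2 : ℝ) ^ 2 ≤ CG * (17 * K0 * Λ) ^ 2 :=
          mul_le_mul_of_nonneg_left h1 (by linarith only [hCG])
      _ = CG * (17 * K0) ^ 2 * Λ ^ 2 := by ring
      _ ≤ CG * (17 * K0) ^ 2 * Λ ^ 4 := mul_le_mul_of_nonneg_left hΛ24 (by positivity)
      _ ≤ A * Λ ^ 4 := mul_le_mul_of_nonneg_right (by linarith only [hA, hA3, hC0])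
          (by positivity)
      _ ≤ m := hmR
  have m2 : 2 * C0 * (2 : ℝ) ^ κ ≤ (m : ℝ) := by
    rw [← hΛd]
    calc 2 * C0 * Λ ≤ 2 * C0 * Λ ^ 4 := mul_le_mul_of_nonneg_left hΛ14 (by positivity)
      _ ≤ A * Λ ^ 4 := mul_le_mul_of_nonneg_right (by linarith only [hA, hA2, hA3])
          (by positivity)
      _ ≤ m := hmR
  have hm0 : (0 : ℝ) < m := by
    have : 0 < 2 * C0 * (2 : ℝ) ^ κ := by positivity
    linarith only [this, m2]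
  have m3 : G * (Λ ^ 3 * (K0 * Λ) / m) ≤ Real.exp (-(a0 + 4)) := by
    have e : G * (Λ ^ 3 * (K0 * Λ) / m) = G * K0 * Λ ^ 4 / m := by ring
    rw [e, div_le_iff₀ hm0, Real.exp_neg]
    have h1 : G * K0 * Real.exp (a0 + 4) * Λ ^ 4 ≤ m := by
      refine le_trans (mul_le_mul_of_nonneg_right ?_ (by positivity)) hmR
      linarith only [hA, hA2, hC0]
    have h2 := Real.exp_pos (a0 + 4)
    rw [inv_mul_eq_div, le_div_iff₀ h2]
    linarith only [h1]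
  have hK1 : -Real.log (yy b (l * m)) ≤ ((K0 * 2 ^ κ : ℕ) : ℝ) ^ 2 := by
    rw [hKd]
    rw [← hΛd] at hy
    have h1 : (1 : ℝ) ≤ (K0 : ℝ) ^ 2 := by nlinarith only [hK0c]
    have h2 : Λ ^ 2 ≤ (K0 * Λ) ^ 2 := by
      rw [mul_pow]
      nlinarith only [h1, hΛ2]
    linarith only [hy, h2, hΛ2]
  have hy0 : 0 < yy b (l * m) := div_pos (WB_pos _ _ _ _) (WB_pos _ _ _ _)
  -- lower and upper bound
  have L1 := hlow b hb hbB l m (K0 * 2 ^ κ) 2 hl hK2 m1 hK1 (0, 0) (0, 1) (by simp) (by norm_num)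
    (by norm_num) (by norm_num) (by norm_num)
  have U1 := hup t0 ht0 b hb hbB l m (K0 * 2 ^ κ) κ hl
    (hK0b.trans (by exact_mod_cast Nat.le_mul_of_pos_right _ (by positivity))) m2 ht
  simp only at L1
  have LU := L1.trans U1
  rw [← hA1, ← hG, hKd] at LU
  have eq1 : t0 ^ 2 * (K0 * Λ) ^ 2 / (256 * B) = q * (K0 * Λ) ^ 2 := by
    rw [hq]; ring
  rw [eq1, ← hΛd] at LU
  obtain ⟨δ, hδ⟩ : ∃ δ, δ = stiff l b - stiff (l * m * NN (K0 * 2 ^ κ) 2) b := ⟨_, rfl⟩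
  rw [← hδ] at LU ⊢
  obtain ⟨h, hh⟩ : ∃ h, h = Real.exp (-(4 * Real.pi * stiff l b *
    Real.log (NN (K0 * 2 ^ κ) 2)) - C2) * yy b (l * m) ^ 2 := ⟨_, rfl⟩
  rw [← hh] at LU
  have hSB : stiff l b ≤ B := (h3_stiff_le hb hl).trans hbB
  have hS0 : 0 ≤ stiff l b := ht0.le.trans ht
  have hlogN : 0 ≤ Real.log (NN (K0 * 2 ^ κ) 2) := Real.log_nonneg hN1
  have hlogN2 : Real.log (NN (K0 * 2 ^ κ) 2) ≤ (17 * K0 + 1) * Λ ^ 2 := by
    have h1 : Real.log (NN (K0 * 2 ^ κ) 2) ≤ Real.log (17 * K0 * Λ) :=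
      Real.log_le_log (by linarith only [hN1]) hN17
    rw [Real.log_mul (by positivity) (by positivity)] at h1
    have h2 := Real.log_le_self (by positivity : (0 : ℝ) ≤ 17 * K0)
    have h3 := Real.log_le_self (by linarith only [hΛ] : (0 : ℝ) ≤ Λ)
    have h4 : Λ ≤ Λ ^ 2 := by nlinarith only [hΛ]
    nlinarith only [h1, h2, h3, h4, hΛ2, hK0c]
  have hS4 : 4 * Real.pi * stiff l b * Real.log (NN (K0 * 2 ^ κ) 2) ≤
      4 * Real.pi * B * Real.log (NN (K0 * 2 ^ κ) 2) :=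
    mul_le_mul_of_nonneg_right (mul_le_mul_of_nonneg_left hSB (by positivity)) hlogN
  have hlow2 : Real.exp (-(a0 * Λ ^ 2)) ≤ h := by
    have e1 : yy b (l * m) ^ 2 = Real.exp (2 * Real.log (yy b (l * m))) := by
      rw [two_mul, Real.exp_add, Real.exp_log hy0, pow_two]
    rw [hh, e1, ← Real.exp_add, Real.exp_le_exp]
    rw [← hΛd] at hy
    have h5 : 4 * Real.pi * B * Real.log (NN (K0 * 2 ^ κ) 2) ≤
        4 * Real.pi * B * ((17 * K0 + 1) * Λ ^ 2) :=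
      mul_le_mul_of_nonneg_left hlogN2 (by positivity)
    have h6 : C2 ≤ C2 * Λ ^ 2 := by nlinarith only [hC2, hΛ2]
    rw [ha0]
    nlinarith only [h5, h6, hy, hS4]
  have hN2 : ((2 ^ (2 * κ) : ℕ) : ℝ) = Λ ^ 2 := by
    rw [hΛd]; push_cast; ring
  have hfin := drop_num (q := q) (a0 := a0) (K0 := K0) (Λ := Λ) (K := K0 * Λ) (A1 := A1) (δ := δ)
    (h := h) (X := G * (Λ ^ 3 * (K0 * Λ) / m)) (N := 2 ^ (2 * κ)) hΛ hq0.le rfl (by positivity)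
    hA10 hN2 hqK hlow2 (by positivity) m3 LU
  refine le_trans ?_ hfin
  -- the constant
  have hh2 : Real.exp (-C2) * yy b (l * m) ^ 2 / (17 * K0 * Λ) ^ P ≤ h := by
    have e1 : h = Real.exp (-C2) * yy b (l * m) ^ 2 *
        Real.exp (-(4 * Real.pi * stiff l b * Real.log (NN (K0 * 2 ^ κ) 2))) := by
      rw [hh, sub_eq_add_neg, Real.exp_add]
      ring
    rw [e1, div_eq_mul_inv]
    refine mul_le_mul_of_nonneg_left ?_ (by positivity)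
    have e2 : ((17 * K0 * Λ) ^ P)⁻¹ = Real.exp (-(P * Real.log (17 * K0 * Λ))) := by
      rw [Real.exp_neg, Real.exp_nat_mul, Real.exp_log (by positivity)]
    rw [e2, Real.exp_le_exp, neg_le_neg_iff]
    have h1 : Real.log (NN (K0 * 2 ^ κ) 2) ≤ Real.log (17 * K0 * Λ) :=
      Real.log_le_log (by linarith only [hN1]) hN17
    refine hS4.trans (mul_le_mul hP h1 hlogN (by positivity))
  have e3 : Real.exp (-C2) / ((17 * (K0 : ℝ)) ^ P * (8 * A1 * K0)) * yy b (l * m) ^ 2 /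
      ((2 : ℝ) ^ κ) ^ (P + 1) =
      Real.exp (-C2) * yy b (l * m) ^ 2 / (17 * K0 * Λ) ^ P / (8 * A1 * (K0 * Λ)) := by
    rw [← hΛd]
    have hK00 : (K0 : ℝ) ≠ 0 := by linarith only [hK0c]
    have hΛ0 : Λ ≠ 0 := by linarith only [hΛ]
    rw [mul_pow (17 * (K0 : ℝ)) Λ P, pow_succ Λ P]
    field_simp
  rw [e3]
  exact div_le_div_of_nonneg_right hh2 (by positivity)

end Vale.Agent.P159.UJ.H733
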