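import Vale.Agent.P159.H733.TailP
import Vale.Agent.P159.H733.Dip

/-!
P159: lower bound of the drop of the stiffness by the square of the vortex ratio.
-/

set_option linter.all false

open MeasureTheory Filter Topology
open scoped BigOperators

namespace Vale.Agent.P159.UJ.H733

open Vale.Agent.P159 Vale.Agent.P159.UJ

/-- the three small terms of the tail bound -/
theorem tail_num {t0 B b C0 C Λ K s m l N δ c : ℝ} {n : ℕ} (ht0 : 0 < t0) (hb : 0 < b)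
    (hbB : b ≤ B)
    (hC0 : 1 ≤ C0) (hC : 1 ≤ C) (hΛ : 1 ≤ Λ) (hK : 1 ≤ K) (hl : 1 ≤ l) (hm : 1 ≤ m)
    (hs : s = l * m) (hN : 0 ≤ N) (hN17 : N ≤ 17 * K) (hδ : 0 ≤ δ) (hc : c ≤ 2 * m ^ 2)
    (hn : (n : ℝ) = m * N) :
    64 / (t0 * K * s) ^ 2 * ((s * N) ^ 2 * δ) +
      2 * (Real.exp (-(t0 * K / (16 * B * s) * (t0 * K * s) / 8)) *
        Real.exp ((t0 * K / (16 * B * s)) ^ 2 / 2 * (c * (b * l ^ 2)))) +
      8 / (t0 * K * s) * (4 * (2 * C0 / s) * ((s * N) ^ 2 * δ)) ≤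
    18496 * (1 / t0 ^ 2 + C0 / t0) * K * δ + 2 * Real.exp (-(t0 ^ 2 * K ^ 2 / (256 * B))) ∧
      8 / (t0 * K * s) * ((n : ℝ) ^ 2 * (C * (Λ ^ 3 * (l ^ 2 * (2 * C0 * l / s ^ 2) +
        l ^ 3 * (2 * C0 / s) ^ 2)))) ≤ 13872 * C * C0 ^ 2 / t0 * (Λ ^ 3 * K / m) := by
  have hB : 0 < B := lt_of_lt_of_le hb hbB
  have hs0 : 0 < s := by rw [hs]; positivity
  have hK0 : 0 < K := by linarith only [hK]
  have hm0 : 0 < m := by linarith only [hm]
  have hl0 : 0 < l := by linarith only [hl]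
  have hN2 : N ^ 2 ≤ 289 * K ^ 2 := by nlinarith only [hN, hN17, hK]
  have h1 : 64 / (t0 * K * s) ^ 2 * ((s * N) ^ 2 * δ) ≤ 18496 / t0 ^ 2 * K * δ := by
    have e : 64 / (t0 * K * s) ^ 2 * ((s * N) ^ 2 * δ) = 64 / t0 ^ 2 * (N ^ 2 / K ^ 2) * δ := by
      field_simp
    rw [e]
    have h2 : N ^ 2 / K ^ 2 ≤ 289 * K := by
      rw [div_le_iff₀ (by positivity)]
      nlinarith only [hN2, hK, mul_nonneg hK0.le (sq_nonneg K), sq_nonneg K]
    have h3 : 64 / t0 ^ 2 * (N ^ 2 / K ^ 2) ≤ 64 / t0 ^ 2 * (289 * K) :=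
      mul_le_mul_of_nonneg_left h2 (by positivity)
    refine (mul_le_mul_of_nonneg_right h3 hδ).trans (le_of_eq ?_)
    ring
  have h3 : 8 / (t0 * K * s) * (4 * (2 * C0 / s) * ((s * N) ^ 2 * δ)) ≤
      18496 * (C0 / t0) * K * δ := by
    have e : 8 / (t0 * K * s) * (4 * (2 * C0 / s) * ((s * N) ^ 2 * δ)) =
        64 * C0 / t0 * (N ^ 2 / K) * δ := by
      field_simp
      ring
    rw [e]
    have h2 : N ^ 2 / K ≤ 289 * K := by
      rw [div_le_iff₀ (by positivity)]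
      linarith only [hN2]
    have h3 : 64 * C0 / t0 * (N ^ 2 / K) ≤ 64 * C0 / t0 * (289 * K) :=
      mul_le_mul_of_nonneg_left h2 (by positivity)
    refine (mul_le_mul_of_nonneg_right h3 hδ).trans (le_of_eq ?_)
    ring
  have h2 : Real.exp (-(t0 * K / (16 * B * s) * (t0 * K * s) / 8)) *
        Real.exp ((t0 * K / (16 * B * s)) ^ 2 / 2 * (c * (b * l ^ 2))) ≤
      Real.exp (-(t0 ^ 2 * K ^ 2 / (256 * B))) := by
    rw [← Real.exp_add, Real.exp_le_exp]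
    have e1 : t0 * K / (16 * B * s) * (t0 * K * s) / 8 = 2 * (t0 ^ 2 * K ^ 2 / (256 * B)) := by
      field_simp
      ring
    have h4 : c * (b * l ^ 2) ≤ 2 * m ^ 2 * (B * l ^ 2) := by
      have : b * l ^ 2 ≤ B * l ^ 2 := mul_le_mul_of_nonneg_right hbB (by positivity)
      calc c * (b * l ^ 2) ≤ 2 * m ^ 2 * (b * l ^ 2) :=
            mul_le_mul_of_nonneg_right hc (by positivity)
        _ ≤ _ := mul_le_mul_of_nonneg_left this (by positivity)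
    have h5 := mul_le_mul_of_nonneg_left h4
      (by positivity : 0 ≤ (t0 * K / (16 * B * s)) ^ 2 / 2)
    have e2 : (t0 * K / (16 * B * s)) ^ 2 / 2 * (2 * m ^ 2 * (B * l ^ 2)) =
        t0 ^ 2 * K ^ 2 / (256 * B) := by
      rw [hs]
      field_simp
      ring
    rw [e2] at h5
    rw [e1]
    linarith only [h5]
  have h4 : 8 / (t0 * K * s) * ((n : ℝ) ^ 2 * (C * (Λ ^ 3 * (l ^ 2 * (2 * C0 * l / s ^ 2) +
        l ^ 3 * (2 * C0 / s) ^ 2)))) ≤ 13872 * C * C0 ^ 2 / t0 * (Λ ^ 3 * K / m) := by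
    have h5 : l ^ 2 * (2 * C0 * l / s ^ 2) + l ^ 3 * (2 * C0 / s) ^ 2 ≤
        6 * C0 ^ 2 * (l ^ 3 / s ^ 2) := by
      have e : l ^ 2 * (2 * C0 * l / s ^ 2) + l ^ 3 * (2 * C0 / s) ^ 2 =
          (2 * C0 + 4 * C0 ^ 2) * (l ^ 3 / s ^ 2) := by
        field_simp
        ring
      rw [e]
      exact mul_le_mul_of_nonneg_right (by nlinarith only [hC0]) (by positivity)
    have h6 : 8 / (t0 * K * s) * ((n : ℝ) ^ 2 * (C * (Λ ^ 3 * (l ^ 2 * (2 * C0 * l / s ^ 2) +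
        l ^ 3 * (2 * C0 / s) ^ 2)))) ≤
        8 / (t0 * K * s) * ((m * N) ^ 2 * (C * (Λ ^ 3 * (6 * C0 ^ 2 * (l ^ 3 / s ^ 2))))) := by
      rw [hn]
      gcongr
    refine h6.trans ?_
    have e3 : 8 / (t0 * K * s) * ((m * N) ^ 2 * (C * (Λ ^ 3 * (6 * C0 ^ 2 * (l ^ 3 / s ^ 2))))) =
        48 * C * C0 ^ 2 / t0 * (Λ ^ 3 * (N ^ 2 / K) / m) := by
      rw [hs]
      field_simp
      ring
    rw [e3]
    have h7 : N ^ 2 / K ≤ 289 * K := by
      rw [div_le_iff₀ (by positivity)]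
      linarith only [hN2]
    have h8 : 48 * C * C0 ^ 2 / t0 * (Λ ^ 3 * (N ^ 2 / K) / m) ≤
        48 * C * C0 ^ 2 / t0 * (Λ ^ 3 * (289 * K) / m) := by
      gcongr
    refine h8.trans (le_of_eq ?_)
    ring
  have e : 18496 * (1 / t0 ^ 2 + C0 / t0) * K * δ =
      18496 / t0 ^ 2 * K * δ + 18496 * (C0 / t0) * K * δ := by ring
  refine ⟨?_, h4⟩
  rw [e]
  linarith only [h1, h2, h3]

end Vale.Agent.P159.UJ.H733
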