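import Vale.Agent.P159.H640.Dt16

/-!
P159 / START of V (contract H316/St1), part 2 (helper733): the real numbers of one window.
-/

namespace Vale.Agent.P159.H733.Pt

noncomputable section

variable {e T ρ z z' y d d' g E E' Δ M : ℝ}

/-- powers of `e` with a gap -/
lemma pq {δ A α β : ℝ} (he : 0 < e) (he1 : e ≤ 1) (hA0 : 0 ≤ A) (hA : A * e ^ δ ≤ 1)
    (h : β + δ ≤ α) (hz : 0 ≤ z) : A * (z * e ^ α) ≤ z * e ^ β := by
  have h1 : e ^ α ≤ e ^ (β + δ) := Real.rpow_le_rpow_of_exponent_ge he he1 h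
  rw [Real.rpow_add he] at h1
  have hb : 0 ≤ e ^ β := Real.rpow_nonneg he.le _
  calc A * (z * e ^ α) ≤ A * (z * (e ^ β * e ^ δ)) :=
        mul_le_mul_of_nonneg_left (mul_le_mul_of_nonneg_left h1 hz) hA0
    _ = z * e ^ β * (A * e ^ δ) := by ring
    _ ≤ z * e ^ β * 1 := mul_le_mul_of_nonneg_left hA (mul_nonneg hz hb)
    _ = _ := mul_one _

/-- the sizes of one window: `T = thp`, `z, z'` old and new activity -/
structure Sw (e T ρ z z' : ℝ) : Prop where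
  e0 : 0 < e
  e1 : e ≤ 1 / 2
  T0 : 0 < T
  T1 : T ≤ 1 / 1000
  ρ0 : 0 ≤ ρ
  ρ1 : ρ ≤ 1 / 8000
  big : 10 ^ 6 * e ^ (T / 10 ^ 8) ≤ 1
  z0 : 0 < z
  z0' : 0 < z'
  up : z' ≤ 6 * (z * e ^ (-(T / 10 ^ 7)))
  lo : z * e ^ (T / 10 ^ 7) ≤ 6 * z'

namespace Sw

variable (h : Sw e T ρ z z')

include h

lemma e11 : e ≤ 1 := by linarith [h.e1]

lemma pz {α β : ℝ} (hab : β + T / 10 ^ 8 ≤ α) : 10 ^ 6 * (z * e ^ α) ≤ z * e ^ β :=
  pq h.e0 h.e11 (by norm_num) h.big hab h.z0.le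

lemma half {u : ℝ} (hu1 : u ≤ 1) : e ^ u ≤ 2 * (e / 2) ^ u := by
  have h1 : (e / 2) ^ u = e ^ u * (1 / 2 : ℝ) ^ u := by
    rw [div_eq_mul_one_div, Real.mul_rpow h.e0.le (by norm_num)]
  have h2 : (1 / 2 : ℝ) ≤ (1 / 2 : ℝ) ^ u := by
    have := Real.rpow_le_rpow_of_exponent_ge (x := (1 / 2 : ℝ)) (by norm_num) (by norm_num) hu1
    rwa [Real.rpow_one] at this
  rw [h1]
  have h3 := mul_le_mul_of_nonneg_left h2 (Real.rpow_nonneg h.e0.le u)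
  linarith

/-- lower bound of the new scale -/
lemma rhs {u : ℝ} (hu1 : u ≤ 1) :
    z * e ^ (u + T / 10 ^ 7) ≤ 12 * (z' * (e / 2) ^ u) := by
  have h1 := h.half hu1
  have h2 : 0 ≤ (e / 2) ^ u := Real.rpow_nonneg (by linarith [h.e0]) _
  calc z * e ^ (u + T / 10 ^ 7) = (z * e ^ (T / 10 ^ 7)) * e ^ u := by
        rw [add_comm, Real.rpow_add h.e0]; ring
    _ ≤ (6 * z') * e ^ u := mul_le_mul_of_nonneg_right h.lo (Real.rpow_nonneg h.e0.le _)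
    _ ≤ (6 * z') * (2 * (e / 2) ^ u) :=
        mul_le_mul_of_nonneg_left h1 (by linarith [h.z0'])
    _ = _ := by ring

/-- the new upper bound of the activity -/
lemma up_pow {u u' : ℝ} (hz : z ≤ e ^ u) (hu : u' + T / 10 ^ 6 ≤ u) (hu1 : u' ≤ 1) : z' ≤ (e / 2) ^ u' := by
  have h1 := h.half hu1
  have hT := h.T0
  have h2 : z * e ^ (-(T / 10 ^ 7)) ≤ e ^ (u - T / 10 ^ 7) := by
    rw [sub_eq_add_neg, Real.rpow_add h.e0]
    exact mul_le_mul_of_nonneg_right hz (Real.rpow_nonneg h.e0.le _)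
  have h3 := pq (z := 1) h.e0 h.e11 (by norm_num) h.big (α := u - T / 10 ^ 7) (β := u')
    (by linarith) zero_le_one
  rw [one_mul, one_mul] at h3
  have h4 := h.up
  have h5 : 0 ≤ e ^ (u - T / 10 ^ 7) := Real.rpow_nonneg h.e0.le _
  linarith

/-- the deviation -/
lemma dev (hy : y = e ^ (-(T / 50)) * z) (hy1 : y ≤ 1) (hM : e ^ (-T) ≤ M)
    (hΔ : Δ ≤ z * e ^ d) (hΔ0 : 0 ≤ Δ) (hE : E ≤ z * e ^ E')
    (hd' : d' ≤ d + T / 200) (h78 : d' ≤ 7 / 8) (hdE : d' + 3 / 1000 ≤ E')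
    (hdg : d' + 3 / 1000 ≤ 1 / 2 + g) :
    M ^ (-(3 / 4) : ℝ) * Δ + (e ^ (-ρ)) ^ 3 * (2 * E + y * e ^ (1 / 2 + g))
      + (e ^ (-ρ)) ^ 2 * ((z + z') * e ^ (22 / 25 : ℝ)) + (e * y) ^ 2 ≤ z' * (e / 2) ^ d' := by
  have he := h.e0
  have hT := h.T0
  have hT1 := h.T1
  have hρ1 := h.ρ1
  have hρ0 := h.ρ0
  have hz0 := h.z0
  have hrhs := h.rhs (u := d') (by linarith)
  have q3 : (e ^ (-ρ)) ^ 3 = e ^ (-(3 * ρ)) := by
    rw [← Real.rpow_natCast, ← Real.rpow_mul he.le]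
    congr 1
    push_cast
    ring
  have q2 : (e ^ (-ρ)) ^ 2 = e ^ (-(2 * ρ)) := by
    rw [← Real.rpow_natCast, ← Real.rpow_mul he.le]
    congr 1
    push_cast
    ring
  have hM0 : 0 < e ^ (-T) := Real.rpow_pos_of_pos he _
  -- the five terms
  have t1 : M ^ (-(3 / 4) : ℝ) * Δ ≤ z * e ^ (d + 3 / 4 * T) := by
    have h1 : M ^ (-(3 / 4) : ℝ) ≤ e ^ (3 / 4 * T) := by
      have h2 := Real.rpow_le_rpow_of_nonpos hM0 hM (show (-(3 / 4) : ℝ) ≤ 0 by norm_num)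
      rw [← Real.rpow_mul he.le] at h2
      refine h2.trans (le_of_eq ?_)
      congr 1
      ring
    calc M ^ (-(3 / 4) : ℝ) * Δ ≤ e ^ (3 / 4 * T) * (z * e ^ d) :=
          mul_le_mul h1 hΔ hΔ0 (Real.rpow_nonneg he.le _)
      _ = z * e ^ (d + 3 / 4 * T) := by rw [Real.rpow_add he]; ring
  have t2 : (e ^ (-ρ)) ^ 3 * (2 * E) ≤ 2 * (z * e ^ (E' - 3 * ρ)) := by
    rw [q3]
    calc e ^ (-(3 * ρ)) * (2 * E) ≤ e ^ (-(3 * ρ)) * (2 * (z * e ^ E')) :=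
          mul_le_mul_of_nonneg_left (by linarith) (Real.rpow_nonneg he.le _)
      _ = 2 * (z * e ^ (E' - 3 * ρ)) := by rw [sub_eq_add_neg, Real.rpow_add he]; ring
  have t3 : (e ^ (-ρ)) ^ 3 * (y * e ^ (1 / 2 + g)) = z * e ^ (1 / 2 + g - 3 * ρ - T / 50) := by
    rw [q3, hy, show 1 / 2 + g - 3 * ρ - T / 50 = -(3 * ρ) + (-(T / 50) + (1 / 2 + g)) by ring,
      Real.rpow_add he (-(3 * ρ)), Real.rpow_add he (-(T / 50))]
    ring
  have t4 : (e ^ (-ρ)) ^ 2 * ((z + z') * e ^ (22 / 25 : ℝ))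
      ≤ 7 * (z * e ^ (22 / 25 - 2 * ρ - T / 10 ^ 7)) := by
    have h1 : z ≤ z * e ^ (-(T / 10 ^ 7)) :=
      le_mul_of_one_le_right hz0.le
        (Real.one_le_rpow_of_pos_of_le_one_of_nonpos he h.e11 (by linarith))
    have h2 : z + z' ≤ 7 * (z * e ^ (-(T / 10 ^ 7))) := by linarith [h.up]
    rw [q2]
    calc e ^ (-(2 * ρ)) * ((z + z') * e ^ (22 / 25 : ℝ))
        ≤ e ^ (-(2 * ρ)) * ((7 * (z * e ^ (-(T / 10 ^ 7)))) * e ^ (22 / 25 : ℝ)) :=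
          mul_le_mul_of_nonneg_left (mul_le_mul_of_nonneg_right h2 (Real.rpow_nonneg he.le _))
            (Real.rpow_nonneg he.le _)
      _ = 7 * (z * e ^ (22 / 25 - 2 * ρ - T / 10 ^ 7)) := by
        rw [show 22 / 25 - 2 * ρ - T / 10 ^ 7 = -(2 * ρ) + (-(T / 10 ^ 7) + 22 / 25) by ring,
          Real.rpow_add he (-(2 * ρ)), Real.rpow_add he (-(T / 10 ^ 7))]
        ring
  have t5 : (e * y) ^ 2 ≤ z * e ^ (2 - T / 50) := by
    have hy0 : 0 ≤ y := by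
      rw [hy]
      exact mul_nonneg (Real.rpow_nonneg he.le _) hz0.le
    have e2 : e ^ (2 : ℝ) = e ^ 2 := by exact_mod_cast Real.rpow_natCast e 2
    calc (e * y) ^ 2 = e ^ 2 * (y * y) := by ring
      _ ≤ e ^ 2 * (y * 1) := mul_le_mul_of_nonneg_left (mul_le_mul_of_nonneg_left hy1 hy0)
          (by positivity)
      _ = z * e ^ (2 - T / 50) := by
        rw [hy, sub_eq_add_neg, Real.rpow_add he, e2]
        ring
  have p1 := h.pz (α := d + 3 / 4 * T) (β := d' + T / 10 ^ 7) (by linarith)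
  have p2 := h.pz (α := E' - 3 * ρ) (β := d' + T / 10 ^ 7) (by linarith)
  have p3 := h.pz (α := 1 / 2 + g - 3 * ρ - T / 50) (β := d' + T / 10 ^ 7) (by linarith)
  have p4 := h.pz (α := 22 / 25 - 2 * ρ - T / 10 ^ 7) (β := d' + T / 10 ^ 7) (by linarith)
  have p5 := h.pz (α := 2 - T / 50) (β := d' + T / 10 ^ 7) (by linarith)
  have r0 : 0 < z * e ^ (d' + T / 10 ^ 7) := mul_pos hz0 (Real.rpow_pos_of_pos he _)
  rw [mul_add ((e ^ (-ρ)) ^ 3), t3]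
  linarith

/-- the error of the functional -/
lemma err (hy : y = e ^ (-(T / 50)) * z) (h1 : E' + 1 / 500 ≤ 22 / 25)
    (h2 : E' + 1 / 500 ≤ 1 / 2 + g) :
    y * ((e ^ (-ρ)) ^ 5 * max (e ^ (22 / 25 : ℝ)) (e ^ (1 / 2 + g))) ≤ z' * (e / 2) ^ E' := by
  have he := h.e0
  have hT := h.T0
  have hT1 := h.T1
  have hρ1 := h.ρ1
  have hρ0 := h.ρ0
  have hz0 := h.z0
  have hrhs := h.rhs (u := E') (by linarith)
  have q5 : (e ^ (-ρ)) ^ 5 = e ^ (-(5 * ρ)) := by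
    rw [← Real.rpow_natCast, ← Real.rpow_mul he.le]
    congr 1
    push_cast
    ring
  have hm : max (e ^ (22 / 25 : ℝ)) (e ^ (1 / 2 + g)) ≤ e ^ (E' + 1 / 500) :=
    max_le (Real.rpow_le_rpow_of_exponent_ge he h.e11 h1)
      (Real.rpow_le_rpow_of_exponent_ge he h.e11 h2)
  have t1 : y * ((e ^ (-ρ)) ^ 5 * max (e ^ (22 / 25 : ℝ)) (e ^ (1 / 2 + g)))
      ≤ z * e ^ (E' + 1 / 500 - 5 * ρ - T / 50) := by
    rw [q5, hy]
    calc e ^ (-(T / 50)) * z * (e ^ (-(5 * ρ)) * max (e ^ (22 / 25 : ℝ)) (e ^ (1 / 2 + g)))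
        ≤ e ^ (-(T / 50)) * z * (e ^ (-(5 * ρ)) * e ^ (E' + 1 / 500)) :=
          mul_le_mul_of_nonneg_left (mul_le_mul_of_nonneg_left hm (Real.rpow_nonneg he.le _))
            (mul_nonneg (Real.rpow_nonneg he.le _) hz0.le)
      _ = _ := by
        rw [show E' + 1 / 500 - 5 * ρ - T / 50 = -(T / 50) + (-(5 * ρ) + (E' + 1 / 500)) by ring,
          Real.rpow_add he (-(T / 50)), Real.rpow_add he (-(5 * ρ))]
        ring
  have p1 := h.pz (α := E' + 1 / 500 - 5 * ρ - T / 50) (β := E' + T / 10 ^ 7) (by linarith)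
  have r0 : 0 < z * e ^ (E' + T / 10 ^ 7) := mul_pos hz0 (Real.rpow_pos_of_pos he _)
  linarith

end Sw

/-- the distance of the new activity to the bare growth -/
lemma dist_num {w θ : ℝ} (he : 0 < e) (he1 : e ≤ 1 / 2) (hT : 0 < T) (hT1 : T ≤ 1 / 1000)
    (big : 10 ^ 6 * e ^ (T / 10 ^ 8) ≤ 1) (hz0 : 0 < z) (hM0 : 0 < M) (hM : M ≤ 2 * e ^ (-T))
    (hy : y = e ^ (-(T / 50)) * z) (hy1 : y ≤ 1) (hΔ : Δ ≤ z * e ^ d) (hd : T / 2 ≤ d)
    (hθ : |θ| ≤ 1 / 10 ^ 7 * w) (hw : w ≤ Real.log 2 - T * Real.log e) :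
    M ^ ((1 : ℝ) / 10) * (2 * Δ + 8 * (z * e ^ (22 / 25 : ℝ)) + (e * y) ^ 2)
      + 2 * z * Real.exp θ * e ^ (87 / 100 : ℝ) ≤ z * Real.exp θ / 2 := by
  have he11 : e ≤ 1 := by linarith
  have hMr : M ^ ((1 : ℝ) / 10) ≤ 2 * e ^ (-(T / 10)) := by
    have h1 := Real.rpow_le_rpow hM0.le hM (show (0 : ℝ) ≤ 1 / 10 by norm_num)
    rw [Real.mul_rpow (by norm_num) (Real.rpow_nonneg he.le _), ← Real.rpow_mul he.le] at h1
    refine h1.trans ?_
    have h2 : (2 : ℝ) ^ ((1 : ℝ) / 10) ≤ 2 := by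
      have := Real.rpow_le_rpow_of_exponent_le (x := (2 : ℝ)) (by norm_num)
        (show (1 : ℝ) / 10 ≤ 1 by norm_num)
      rwa [Real.rpow_one] at this
    have h3 : -T * (1 / 10) = -(T / 10) := by ring
    rw [h3]
    exact mul_le_mul_of_nonneg_right h2 (Real.rpow_nonneg he.le _)
  have hMr0 : 0 ≤ M ^ ((1 : ℝ) / 10) := Real.rpow_nonneg hM0.le _
  have hG : e ^ (T / 10 ^ 7) ≤ 2 * Real.exp θ := by
    obtain ⟨h3, h4⟩ := abs_le.1 hθ
    have hl2 := Real.log_two_gt_d9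
    rw [Real.rpow_def_of_pos he]
    have h5 : (2 : ℝ) * Real.exp θ = Real.exp (Real.log 2 + θ) := by
      rw [Real.exp_add, Real.exp_log (by norm_num)]
    rw [h5]
    refine Real.exp_le_exp.2 ?_
    have h6 : 1 / 10 ^ 7 * w ≤ 1 / 10 ^ 7 * (Real.log 2 - T * Real.log e) :=
      mul_le_mul_of_nonneg_left hw (by norm_num)
    linarith
  have hE : 0 < Real.exp θ := Real.exp_pos θ
  have hy0 : 0 ≤ y := by
    rw [hy]
    exact mul_nonneg (Real.rpow_nonneg he.le _) hz0.le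
  have pz : ∀ {α β : ℝ}, β + T / 10 ^ 8 ≤ α → 10 ^ 6 * (z * e ^ α) ≤ z * e ^ β :=
    fun hab => pq he he11 (by norm_num) big hab hz0.le
  have hS0 : 0 ≤ 8 * (z * e ^ (22 / 25 : ℝ)) + (e * y) ^ 2 := by positivity
  have hS : 2 * Δ + 8 * (z * e ^ (22 / 25 : ℝ)) + (e * y) ^ 2
      ≤ 2 * (z * e ^ d) + 8 * (z * e ^ (22 / 25 : ℝ)) + z * e ^ (2 - T / 50) := by
    have e2 : e ^ (2 : ℝ) = e ^ 2 := by exact_mod_cast Real.rpow_natCast e 2
    have t5 : (e * y) ^ 2 ≤ z * e ^ (2 - T / 50) := by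
      calc (e * y) ^ 2 = e ^ 2 * (y * y) := by ring
        _ ≤ e ^ 2 * (y * 1) := mul_le_mul_of_nonneg_left (mul_le_mul_of_nonneg_left hy1 hy0)
            (by positivity)
        _ = z * e ^ (2 - T / 50) := by
          rw [hy, sub_eq_add_neg, Real.rpow_add he, e2]
          ring
    linarith
  have hS2 : 0 ≤ 2 * (z * e ^ d) + 8 * (z * e ^ (22 / 25 : ℝ)) + z * e ^ (2 - T / 50) := by
    positivity
  have k1 : M ^ ((1 : ℝ) / 10) * (2 * Δ + 8 * (z * e ^ (22 / 25 : ℝ)) + (e * y) ^ 2)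
      ≤ 4 * (z * e ^ (d - T / 10)) + 16 * (z * e ^ (22 / 25 - T / 10))
        + 2 * (z * e ^ (2 - T / 50 - T / 10)) := by
    calc M ^ ((1 : ℝ) / 10) * (2 * Δ + 8 * (z * e ^ (22 / 25 : ℝ)) + (e * y) ^ 2)
        ≤ M ^ ((1 : ℝ) / 10) * (2 * (z * e ^ d) + 8 * (z * e ^ (22 / 25 : ℝ))
            + z * e ^ (2 - T / 50)) := mul_le_mul_of_nonneg_left hS hMr0
      _ ≤ (2 * e ^ (-(T / 10))) * (2 * (z * e ^ d) + 8 * (z * e ^ (22 / 25 : ℝ))
            + z * e ^ (2 - T / 50)) := mul_le_mul_of_nonneg_right hMr hS2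
      _ = _ := by
        rw [sub_eq_add_neg d, sub_eq_add_neg (22 / 25 : ℝ), sub_eq_add_neg (2 - T / 50),
          Real.rpow_add he d, Real.rpow_add he (22 / 25), Real.rpow_add he (2 - T / 50)]
        ring
  have p1 := pz (α := d - T / 10) (β := T / 10 ^ 7) (by linarith)
  have p2 := pz (α := 22 / 25 - T / 10) (β := T / 10 ^ 7) (by linarith)
  have p3 := pz (α := 2 - T / 50 - T / 10) (β := T / 10 ^ 7) (by linarith)
  have p4 : 10 ^ 6 * (z * Real.exp θ * e ^ (87 / 100 : ℝ)) ≤ z * Real.exp θ * e ^ (0 : ℝ) :=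
    pq he he11 (by norm_num) big (by linarith) (by positivity)
  rw [Real.rpow_zero, mul_one] at p4
  have k2 : z * e ^ (T / 10 ^ 7) ≤ z * (2 * Real.exp θ) := mul_le_mul_of_nonneg_left hG hz0.le
  have k3 : 0 < z * Real.exp θ := mul_pos hz0 hE
  linarith

/-! ### the exponents -/

section exps

variable {j : ℝ}

lemma exp_facts (hT : 0 < T) (hT1 : T ≤ 1 / 1000) (hj : 0 ≤ j) :
    min (7 / 8) (T / 2 + (j + 1) * (T / 200)) ≤ min (7 / 8) (T / 2 + j * (T / 200)) + T / 200 ∧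
    T / 2 ≤ min (7 / 8) (T / 2 + j * (T / 200)) ∧
    min (7 / 8) (T / 2 + (j + 1) * (T / 200)) + 3 / 1000
      ≤ min (439 / 500) (48 / 100 + j * (T / 200)) ∧
    min (7 / 8) (T / 2 + (j + 1) * (T / 200)) + 3 / 1000 ≤ 1 / 2 + min (1 / 2) (j * (T / 200)) ∧
    min (439 / 500) (48 / 100 + (j + 1) * (T / 200)) + 1 / 500 ≤ 22 / 25 ∧
    min (439 / 500) (48 / 100 + (j + 1) * (T / 200)) + 1 / 500
      ≤ 1 / 2 + min (1 / 2) (j * (T / 200)) ∧
    0 ≤ min (7 / 8) (T / 2 + (j + 1) * (T / 200)) ∧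
    0 ≤ min (439 / 500) (48 / 100 + (j + 1) * (T / 200)) := by
  have h0 : 0 ≤ j * (T / 200) := by positivity
  have hx : (j + 1) * (T / 200) = j * (T / 200) + T / 200 := by ring
  rw [hx]
  generalize j * (T / 200) = q at h0
  refine ⟨?_, ?_, ?_, ?_, ?_, ?_, ?_, ?_⟩
  · rcases min_cases (7 / 8 : ℝ) (T / 2 + q) with h | h <;>
      rcases min_cases (7 / 8 : ℝ) (T / 2 + (q + T / 200)) with h' | h' <;> linarith
  · exact le_min (by linarith) (by linarith)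
  · rcases min_cases (439 / 500 : ℝ) (48 / 100 + q) with h | h <;>
      rcases min_cases (7 / 8 : ℝ) (T / 2 + (q + T / 200)) with h' | h' <;> linarith
  · rcases min_cases (1 / 2 : ℝ) q with h | h <;>
      rcases min_cases (7 / 8 : ℝ) (T / 2 + (q + T / 200)) with h' | h' <;> linarith
  · have := min_le_left (439 / 500 : ℝ) (48 / 100 + (q + T / 200))
    linarith
  · rcases min_cases (1 / 2 : ℝ) q with h | h <;>
      rcases min_cases (439 / 500 : ℝ) (48 / 100 + (q + T / 200)) with h' | h' <;> linarith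
  · exact le_min (by norm_num) (by linarith)
  · exact le_min (by norm_num) (by linarith)

end exps

end

end Vale.Agent.P159.H733.Pt
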