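import Vale.Agent.P159.H733.Pt1
import Vale.Agent.P159.H733.Vt11
import Vale.Agent.P159.H316.St1

/-!
P159 / START of V (contract H316/St1), part 2 (helper733): one window `e -> e / 2`.
-/

set_option linter.unusedSectionVars false

namespace Vale.Agent.P159.H733.Pt

open Filter Topology
open Vale.Agent.P159.H864 (yt)
open Vale.Agent.P159.H972 (Par Good YBn FL StepP' tn lg lg_anti)
open Vale.Agent.P159.H801 (Ev)
open Vale.Agent.P159.H415 (CI)
open Vale.Agent.P159.H43 (CHB)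
open Vale.Agent.P159.H889 (Cx Cw SV TV VB lam nu Dc QP Mw hS CH2 VSs lam_pos lam_exp Mw_pow)
open Vale.Agent.P159.H316

noncomputable section

/-- the numbers of the parameter -/
structure Nu (P : Par) (c1 C1 : ℝ) : Prop where
  T1 : P.thp ≤ 1 / 1000
  ρ1 : P.th + 4 * P.q0 * P.thp ≤ 1 / 8000
  c0 : 0 < c1
  C24 : 24 ≤ C1
  th1 : P.th ≤ 1
  q3 : 3 ≤ P.q0
  xt : 2 * P.thp ≤ P.x1
  big : ∀ e, 0 < e → e ≤ P.es → 10 ^ 6 * e ^ (P.thp / 10 ^ 8) ≤ 1
  w40 : ∀ e, 0 < e → e ≤ P.es → 40 * C1 ≤ P.w e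
  zl : ∀ e, 0 < e → e ≤ P.es → 2 + (P.w e : ℝ) ≤ (2 ^ c1 - 1) * e ^ (-c1)

variable {P : Par} {b C1 c1 A1 : ℝ} {a : ℕ → ℝ} {N0 n m s : ℕ} {e y u : ℝ} {ζ ζ' : ℂ} {Δ E : ℝ}

lemma tt_e1 (hes : e ≤ P.es) : e ≤ 1 / 2 := hes.trans P.es1

/-- **the context of a state** -/
theorem cxA (hN : Nu P c1 C1) (hb1 : P.b1 ≤ b) (hb2 : b ≤ P.b2) (hn : 4 ≤ n) (G : Good P b n e)
    (e0 : 0 < e) (es : e ≤ P.es) (z0 : ζ ≠ 0) (hu : 525 / 1000 ≤ u) (zu : ‖ζ‖ ≤ e ^ u)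
    (zl : Real.log (1 / ‖ζ‖) ≤ e ^ (-c1))
    (vz : ∀ r, n + P.kE e ≤ r → yt (2 ^ r) b (4 * tn n) ≤ e ^ (-(P.thp / 100)) * ‖ζ‖)
    (s1 : 1 / 2 * (e * yr P e ζ) ^ (69 / 64 * C1) ≤ lam n s)
    (s2 : lam n s ≤ (e * yr P e ζ) ^ (69 / 64 * C1))
    (dx : -Real.log (e * ‖ζ‖) ≤ 1 / (16 * C1) * n) :
    Cx P b C1 c1 n s e (yr P e ζ) ∧ ‖ζ‖ ≤ yr P e ζ ∧ yr P e ζ ≤ 1 ∧ 0 < ‖ζ‖ := by
  have hT := P.thp0
  have hT1 := hN.T1
  have hC := hN.C24
  have he1 : e ≤ 1 := by linarith [tt_e1 es]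
  have hz : 0 < ‖ζ‖ := norm_pos_iff.2 z0
  have hp : 0 < e ^ (-(P.thp / 50)) := Real.rpow_pos_of_pos e0 _
  have hp1 : 1 ≤ e ^ (-(P.thp / 50)) :=
    Real.one_le_rpow_of_pos_of_le_one_of_nonpos e0 he1 (by linarith)
  have hy : yr P e ζ = e ^ (-(P.thp / 50)) * ‖ζ‖ := rfl
  have hy0 : 0 < yr P e ζ := by rw [hy]; positivity
  have hzy : ‖ζ‖ ≤ yr P e ζ := by rw [hy]; exact le_mul_of_one_le_left hz.le hp1
  have hyu : yr P e ζ ≤ e ^ (13 / 25 : ℝ) := by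
    rw [hy]
    calc e ^ (-(P.thp / 50)) * ‖ζ‖ ≤ e ^ (-(P.thp / 50)) * e ^ u :=
          mul_le_mul_of_nonneg_left zu hp.le
      _ = e ^ (-(P.thp / 50) + u) := (Real.rpow_add e0 _ _).symm
      _ ≤ _ := Real.rpow_le_rpow_of_exponent_ge e0 he1 (by linarith)
  have hy1 : yr P e ζ ≤ 1 := hyu.trans (Real.rpow_le_one e0.le he1 (by norm_num))
  have hx0 : 0 < e * yr P e ζ := mul_pos e0 hy0
  have hx12 : e * yr P e ζ ≤ 1 / 2 := by
    calc e * yr P e ζ ≤ 1 / 2 * 1 := mul_le_mul (tt_e1 es) hy1 hy0.le (by norm_num)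
      _ = 1 / 2 := by norm_num
  have hx1 : e * yr P e ζ ≤ 1 := by linarith
  refine ⟨⟨G, hb1, hb2, e0, es, hy0, ?_, ?_, ?_, ?_, ?_, ?_⟩, hzy, hy1, hz⟩
  · have h1 := Real.rpow_le_rpow hy0.le hyu (show (0 : ℝ) ≤ 39 / 20 by norm_num)
    rw [← Real.rpow_mul e0.le] at h1
    refine h1.trans ?_
    have h2 := Real.rpow_le_rpow_of_exponent_ge e0 he1 (show (1 : ℝ) ≤ 13 / 25 * (39 / 20) by
      norm_num)
    rwa [Real.rpow_one] at h2
  · refine le_trans ?_ zl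
    refine Real.log_le_log (by positivity) ?_
    exact one_div_le_one_div_of_le hz hzy
  · intro r hr
    refine (vz r hr.1).trans ?_
    rw [hy, ← mul_assoc, ← Real.rpow_add e0]
    exact mul_le_mul_of_nonneg_right
      (Real.rpow_le_rpow_of_exponent_ge e0 he1 (by linarith)) hz.le
  · refine le_trans ?_ s1
    have h1 : (e * yr P e ζ) ^ (9 / 8 * C1)
        = (e * yr P e ζ) ^ (3 / 64 * C1) * (e * yr P e ζ) ^ (69 / 64 * C1) := by
      rw [← Real.rpow_add hx0]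
      congr 1
      ring
    have h2 : (e * yr P e ζ) ^ (3 / 64 * C1) ≤ 1 / 2 := by
      have h3 := Real.rpow_le_rpow_of_exponent_ge hx0 hx1 (show (1 : ℝ) ≤ 3 / 64 * C1 by linarith)
      rw [Real.rpow_one] at h3
      exact h3.trans hx12
    rw [h1]
    exact mul_le_mul_of_nonneg_right h2 (Real.rpow_nonneg hx0.le _)
  · exact s2.trans (Real.rpow_le_rpow_of_exponent_ge hx0 hx1 (by linarith))
  · -- `n ≤ 2 s`
    have hl2 := Real.log_two_gt_d9
    have hez : 0 < e * ‖ζ‖ := mul_pos e0 hz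
    have h1 := Real.log_le_log (by positivity) s1
    rw [Real.log_mul (by norm_num) (Real.rpow_pos_of_pos hx0 _).ne', Real.log_rpow hx0] at h1
    have h2 : Real.log (lam n s) = ((s : ℝ) - n) * Real.log 2 := by
      rw [lam_exp, Real.log_exp]
      unfold H889.Lg
      ring
    have h3 : Real.log (1 / 2 : ℝ) = -Real.log 2 := by
      rw [one_div, Real.log_inv]
    have h4 : Real.log (e * ‖ζ‖) ≤ Real.log (e * yr P e ζ) :=
      Real.log_le_log hez (mul_le_mul_of_nonneg_left hzy e0.le)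
    have h5 : -(69 / 1024 * (n : ℝ)) ≤ 69 / 64 * C1 * Real.log (e * yr P e ζ) := by
      have h6 : -(1 / (16 * C1) * n) ≤ Real.log (e * yr P e ζ) := by linarith
      have h7 := mul_le_mul_of_nonneg_left h6 (show 0 ≤ 69 / 64 * C1 by linarith)
      have h8 : 69 / 64 * C1 * -(1 / (16 * C1) * (n : ℝ)) = -(69 / 1024 * (n : ℝ)) := by
        have : C1 ≠ 0 := by linarith
        field_simp
        ring
      rw [h8] at h7
      exact h7
    rw [h2, h3] at h1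
    have hn4 : (4 : ℝ) ≤ n := by exact_mod_cast hn
    have h9 : ((n : ℝ) - s) * Real.log 2 ≤ Real.log 2 + 69 / 1024 * n := by
      have : ((s : ℝ) - n) * Real.log 2 = -(((n : ℝ) - s) * Real.log 2) := by ring
      linarith
    have h10 : (n : ℝ) ≤ 2 * s := by
      by_contra hc
      push Not at hc
      have h11 : (n : ℝ) / 2 < (n : ℝ) - s := by linarith
      have h12 : (n : ℝ) / 2 * Real.log 2 < ((n : ℝ) - s) * Real.log 2 :=
        mul_lt_mul_of_pos_right h11 (by linarith)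
      nlinarith
    exact_mod_cast h10

/-! ### logarithms of the activity -/

/-- the new activity from its distance to the bare growth -/
lemma log_of {θ : ℝ} (hζ : ζ ≠ 0)
    (h : ‖ζ' - ζ * ((Real.exp θ : ℝ) : ℂ)‖ ≤ ‖ζ‖ * Real.exp θ / 2) :
    ζ' ≠ 0 ∧ |Real.log ‖ζ'‖ - Real.log ‖ζ‖ - θ| ≤ 1 := by
  have hz : 0 < ‖ζ‖ := norm_pos_iff.2 hζ
  have hx : ‖ζ * ((Real.exp θ : ℝ) : ℂ)‖ = ‖ζ‖ * Real.exp θ := by
    rw [norm_mul, Complex.norm_real, Real.norm_eq_abs, abs_of_pos (Real.exp_pos _)]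
  have h1 := norm_sub_norm_le (ζ * ((Real.exp θ : ℝ) : ℂ)) ζ'
  rw [norm_sub_rev, hx] at h1
  have h2 := norm_sub_norm_le ζ' (ζ * ((Real.exp θ : ℝ) : ℂ))
  rw [hx] at h2
  have hg : 0 < ‖ζ‖ * Real.exp θ := mul_pos hz (Real.exp_pos _)
  have lo : ‖ζ‖ * Real.exp θ / 2 ≤ ‖ζ'‖ := by linarith
  have up : ‖ζ'‖ ≤ 2 * (‖ζ‖ * Real.exp θ) := by linarith
  have hz' : 0 < ‖ζ'‖ := lt_of_lt_of_le (by linarith) lo
  refine ⟨norm_pos_iff.1 hz', ?_⟩
  have e1 : Real.log (‖ζ‖ * Real.exp θ) = Real.log ‖ζ‖ + θ := by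
    rw [Real.log_mul hz.ne' (Real.exp_pos _).ne', Real.log_exp]
  have l1 := Real.log_le_log (by linarith) lo
  rw [Real.log_div hg.ne' (by norm_num), e1] at l1
  have l2 := Real.log_le_log hz' up
  rw [Real.log_mul (by norm_num) hg.ne', e1] at l2
  have := Real.log_two_lt_d9
  rw [abs_le]
  constructor <;> linarith

lemma w_lo (e0 : 0 < e) : e ^ (-P.thp) ≤ (2 : ℝ) ^ P.w e := Vt.lg_ge e0

lemma w_up (e0 : 0 < e) (he1 : e ≤ 1) : (2 : ℝ) ^ P.w e ≤ 2 * e ^ (-P.thp) :=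
  Vt.lg_up P.thp0.le e0 he1

/-- `w log 2 ≤ log 2 + thp log (1/e)` -/
lemma w_logu (e0 : 0 < e) (he1 : e ≤ 1) :
    (P.w e : ℝ) * Real.log 2 ≤ Real.log 2 - P.thp * Real.log e := by
  have h1 := Real.log_le_log (by positivity) (w_up (P := P) e0 he1)
  rw [Real.log_pow, Real.log_mul (by norm_num) (Real.rpow_pos_of_pos e0 _).ne',
    Real.log_rpow e0] at h1
  linarith

/-- the sizes of one window -/
lemma sw_of (hN : Nu P c1 C1) (e0 : 0 < e) (es : e ≤ P.es) {θ : ℝ} (hζ : ζ ≠ 0) (hζ' : ζ' ≠ 0)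
    (h : |Real.log ‖ζ'‖ - Real.log ‖ζ‖ - θ| ≤ 1)
    (hθ : |θ| ≤ 1 / 10 ^ 7 * (P.w e * Real.log 2)) :
    Sw e P.thp (P.th + 4 * P.q0 * P.thp) ‖ζ‖ ‖ζ'‖ := by
  have hT := P.thp0
  have hth := P.th0
  have he1 : e ≤ 1 := by linarith [tt_e1 es]
  have hz : 0 < ‖ζ‖ := norm_pos_iff.2 hζ
  have hz' : 0 < ‖ζ'‖ := norm_pos_iff.2 hζ'
  have hw := w_logu (P := P) e0 he1
  have hl2 := Real.log_two_lt_d9
  obtain ⟨h1, h2⟩ := abs_le.1 h
  obtain ⟨h3, h4⟩ := abs_le.1 hθ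
  have h6 : (6 : ℝ) = Real.exp (Real.log 6) := (Real.exp_log (by norm_num)).symm
  have hl6 : 11 / 10 ≤ Real.log 6 := by
    rw [Real.le_log_iff_exp_le (by norm_num)]
    have h7 : Real.exp (11 / 10) = Real.exp 1 * Real.exp (1 / 10) := by
      rw [← Real.exp_add]; norm_num
    have h8 : Real.exp (1 / 10) ≤ 2 := by
      have := Real.exp_bound_div_one_sub_of_interval (x := 1 / 10) (by norm_num) (by norm_num)
      norm_num at this ⊢
      linarith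
    have h9 := Real.exp_one_lt_d9
    rw [h7]
    nlinarith [Real.exp_pos (1 / 10 : ℝ)]
  refine ⟨e0, tt_e1 es, hT, hN.T1, by positivity, hN.ρ1, hN.big e e0 es, hz, hz', ?_, ?_⟩
  · rw [← Real.log_le_log_iff hz' (by positivity), Real.log_mul (by norm_num) (by positivity),
      Real.log_mul hz.ne' (by positivity), Real.log_rpow e0]
    linarith
  · rw [← Real.log_le_log_iff (by positivity) (by positivity), Real.log_mul (by norm_num) hz'.ne',
      Real.log_mul hz.ne' (by positivity), Real.log_rpow e0]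
    linarith

/-! ### the cells -/

lemma cells2 {β x x' : ℝ} {n m s : ℕ} (hx : 0 < x) (hx' : 0 < x')
    (h2 : lam n s ≤ x ^ β) (hxx : β * (Real.log x - Real.log x') ≤ ((m : ℝ) - n) * Real.log 2)
    (hv : β * (-Real.log x') ≤ (m : ℝ) * Real.log 2) :
    ∃ s' : ℕ, s ≤ s' ∧ 1 / 2 * x' ^ β ≤ lam m s' ∧ lam m s' ≤ x' ^ β := by
  have hl2 := Real.log_two_gt_d9
  have hl20 : 0 < Real.log 2 := by linarith
  obtain ⟨v, hvd⟩ : ∃ v : ℝ, v = m + β * Real.log x' / Real.log 2 := ⟨_, rfl⟩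
  have hvl : v * Real.log 2 = m * Real.log 2 + β * Real.log x' := by
    rw [hvd]
    field_simp
  have hv0 : 0 ≤ v := by
    have : 0 ≤ v * Real.log 2 := by
      rw [hvl]
      linarith
    exact nonneg_of_mul_nonneg_left this hl20
  have hf1 : ((⌊v⌋₊ : ℕ) : ℝ) ≤ v := Nat.floor_le hv0
  have hf2 : v < (⌊v⌋₊ : ℝ) + 1 := Nat.lt_floor_add_one v
  have hlam : ∀ (j i : ℕ), Real.log (lam j i) = ((i : ℝ) - j) * Real.log 2 := by
    intro j i
    rw [lam_exp, Real.log_exp]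
    unfold H889.Lg
    ring
  refine ⟨⌊v⌋₊, ?_, ?_, ?_⟩
  · refine Nat.le_floor ?_
    have h3 := Real.log_le_log (lam_pos n s) h2
    rw [hlam, Real.log_rpow hx] at h3
    have h4 : (s : ℝ) * Real.log 2 ≤ v * Real.log 2 := by
      rw [hvl]
      linarith
    exact le_of_mul_le_mul_right h4 hl20
  · rw [← Real.log_le_log_iff (by positivity) (lam_pos _ _), hlam,
      Real.log_mul (by norm_num) (by positivity), Real.log_rpow hx', one_div, Real.log_inv]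
    have h4 : (v - 1 - m) * Real.log 2 ≤ ((⌊v⌋₊ : ℝ) - m) * Real.log 2 :=
      mul_le_mul_of_nonneg_right (by linarith) hl20.le
    refine le_trans (le_of_eq ?_) h4
    have : (v - 1 - m) * Real.log 2 = v * Real.log 2 - Real.log 2 - m * Real.log 2 := by ring
    rw [this, hvl]
    ring
  · rw [← Real.log_le_log_iff (lam_pos _ _) (Real.rpow_pos_of_pos hx' _), hlam,
      Real.log_rpow hx']
    have h4 : ((⌊v⌋₊ : ℝ) - m) * Real.log 2 ≤ (v - m) * Real.log 2 :=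
      mul_le_mul_of_nonneg_right (by linarith) hl20.le
    refine h4.trans (le_of_eq ?_)
    rw [sub_mul, hvl]
    ring

end

end Vale.Agent.P159.H733.Pt
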