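import Vale.Agent.P159.H733.Pt2

/-!
P159 / START of V (contract H316/St1), part 2 (helper733): `Step2`.
-/

set_option linter.unusedSectionVars false

namespace Vale.Agent.P159.H733.Pt

open Filter Topology
open Vale.Agent.P159.H864 (yt)
open Vale.Agent.P159.H972 (Par Good YBn FL StepP' tn lg lg_anti)
open Vale.Agent.P159.H801 (Ev)
open Vale.Agent.P159.H415 (CI)
open Vale.Agent.P159.H43 (CHB)
open Vale.Agent.P159.H889 (Cx Cw SV TV VB lam nu Dc QP Mw hS CH2 VSs lam_pos lam_exp Mw_pow)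
open Vale.Agent.P159.H316

noncomputable section

variable {P : Par} {b C1 c1 A1 : ℝ} {a : ℕ → ℝ} {N0 n m s : ℕ} {e y u : ℝ} {ζ ζ' : ℂ} {Δ E : ℝ}

/-- the torus of the step is a torus of the state -/
lemma tv_step (hN : Nu P c1 C1) (e0 : 0 < e) (es : e ≤ P.es) :
    TV P n e (n + P.w e + P.kE (e / 2)) := by
  have he1 : e ≤ 1 := by linarith [tt_e1 es]
  have h1 : P.kE e ≤ P.kE (e / 2) := lg_anti P.th0.le (by linarith) (by linarith)
  have h2 : P.kE (e / 2) ≤ P.kE e + 1 := H972.lg_half' P.th0 hN.th1 e0 le_rfl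
  have hw : 1 ≤ P.w e := H972.w1 e0 es
  have hq := hN.q3
  constructor
  · omega
  · have h3 : 1 * (4 * P.w e) ≤ (P.q0 - 2) * (4 * P.w e) := Nat.mul_le_mul_right _ (by omega)
    omega

/-- everything known about the new activity -/
structure Na (P : Par) (c1 C1 : ℝ) (n : ℕ) (e : ℝ) (ζ ζ' : ℂ) : Prop where
  z' : ζ' ≠ 0
  sw : Sw e P.thp (P.th + 4 * P.q0 * P.thp) ‖ζ‖ ‖ζ'‖
  lo : Real.log ‖ζ‖ - Real.log ‖ζ'‖ ≤ 1 + 1 / (64 * C1) * (P.w e * Real.log 2)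
  lw : Real.log ‖ζ‖ - Real.log ‖ζ'‖ ≤ 1 + P.w e

/-- the new activity -/
theorem na_of (hN : Nu P c1 C1) (hax : AX a C1 N0) (hn : N0 ≤ n) (e0 : 0 < e) (es : e ≤ P.es)
    (z0 : ζ ≠ 0) (hy1 : yr P e ζ ≤ 1) {d : ℝ} (hd : P.thp / 2 ≤ d) (hΔ : Δ ≤ ‖ζ‖ * e ^ d)
    (h : ‖ζ' - ζ * (G0 (a n) n (n + P.w e) : ℂ)‖ ≤
        Mw n (n + P.w e) ^ (1 / 10 : ℝ) * (2 * Δ + 8 * (‖ζ‖ * hS e) + (e * yr P e ζ) ^ 2)
          + 2 * ‖ζ‖ * G0 (a n) n (n + P.w e) * e ^ (87 / 100 : ℝ)) :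
    Na P c1 C1 n e ζ ζ' := by
  have he1 : e ≤ 1 := by linarith [tt_e1 es]
  have hz : 0 < ‖ζ‖ := norm_pos_iff.2 z0
  obtain ⟨θ, hθd⟩ : ∃ θ : ℝ, θ = (2 - Real.pi / a n) * (((n + P.w e : ℕ) : ℝ) - n) * Real.log 2 :=
    ⟨_, rfl⟩
  have hG : G0 (a n) n (n + P.w e) = Real.exp θ := by rw [hθd]; rfl
  have hl2 := Real.log_two_gt_d9
  have hl2' := Real.log_two_lt_d9
  have hwl : 0 ≤ (P.w e : ℝ) * Real.log 2 := by positivity
  have hθa : |θ| = |2 - Real.pi / a n| * (P.w e * Real.log 2) := by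
    rw [hθd, Nat.cast_add, add_sub_cancel_left, mul_assoc, abs_mul, abs_of_nonneg hwl]
  have hθ1 : |θ| ≤ 1 / 10 ^ 7 * (P.w e * Real.log 2) := by
    rw [hθa]
    exact mul_le_mul_of_nonneg_right (hax n hn).1 hwl
  have hθ2 : |θ| ≤ 1 / (64 * C1) * (P.w e * Real.log 2) := by
    rw [hθa]
    exact mul_le_mul_of_nonneg_right (hax n hn).2 hwl
  have hM : Mw n (n + P.w e) = 2 ^ P.w e := by
    rw [Mw_pow (Nat.le_add_right _ _), Nat.add_sub_cancel_left]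
  rw [hG] at h
  have hnum := dist_num (M := Mw n (n + P.w e)) (y := yr P e ζ) (Δ := Δ) (d := d) e0 (tt_e1 es)
    P.thp0 hN.T1 (hN.big e e0 es) hz (by rw [hM]; positivity) (by rw [hM]; exact w_up e0 he1) rfl
    hy1 hΔ hd hθ1 (w_logu e0 he1)
  obtain ⟨h1, h2⟩ := log_of z0 (h.trans hnum)
  have hsw := sw_of hN e0 es z0 h1 h2 hθ1
  obtain ⟨g1, g2⟩ := abs_le.1 h2
  obtain ⟨g3, g4⟩ := abs_le.1 hθ2
  obtain ⟨g5, g6⟩ := abs_le.1 hθ1
  refine ⟨h1, hsw, by linarith, ?_⟩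
  have hw0 : (0 : ℝ) ≤ P.w e := Nat.cast_nonneg _
  have h3 : 1 / 10 ^ 7 * ((P.w e : ℝ) * Real.log 2) ≤ P.w e := by nlinarith
  linarith

/-- `Good` at the new level -/
lemma good_new (hN : Nu P c1 C1) (hI : In2 P b a C1 c1 A1 N0) (hn : N0 ≤ n)
    {j : ℕ} (S : S2J P b C1 c1 A1 j n s e ζ Δ E) (hu : 53 / 100 ≤ uJ P j) (hz : 0 < ‖ζ‖) :
    Good P b (n + P.w e) (e / 2) := by
  have hT := P.thp0
  have hT1 := hN.T1
  have e0 := S.e0
  have es := S.es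
  have he1 : e ≤ 1 := by linarith [tt_e1 es]
  have hyb := hI.yb n e (e ^ (-(P.thp / 100)) * ‖ζ‖) hn e0 es S.G
    (mul_pos (Real.rpow_pos_of_pos e0 _) hz) ?_ (S.vz _ le_rfl)
  · have hY2 : (e ^ (-(P.thp / 200)) * (e ^ (-(P.thp / 100)) * ‖ζ‖)) ^ 2
        ≤ e ^ (53 / 50 - 3 / 100 * P.thp) := by
      have h1 : e ^ (-(P.thp / 200)) * (e ^ (-(P.thp / 100)) * ‖ζ‖)
          ≤ e ^ (53 / 100 - 3 / 200 * P.thp) := by
        rw [show 53 / 100 - 3 / 200 * P.thp = -(P.thp / 200) + (-(P.thp / 100) + 53 / 100) by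
          ring, Real.rpow_add e0, Real.rpow_add e0 (-(P.thp / 100))]
        refine mul_le_mul_of_nonneg_left (mul_le_mul_of_nonneg_left ?_
          (Real.rpow_nonneg e0.le _)) (Real.rpow_nonneg e0.le _)
        exact S.zu.trans (Real.rpow_le_rpow_of_exponent_ge e0 he1 hu)
      have h2 := pow_le_pow_left₀ (by positivity) h1 2
      refine h2.trans (le_of_eq ?_)
      rw [← Real.rpow_natCast, ← Real.rpow_mul e0.le]
      congr 1
      push_cast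
      ring
    have hYe : (e ^ (-(P.thp / 200)) * (e ^ (-(P.thp / 100)) * ‖ζ‖)) ^ 2 ≤ e := by
      refine hY2.trans ?_
      have h1 := Real.rpow_le_rpow_of_exponent_ge e0 he1
        (show (1 : ℝ) ≤ 53 / 50 - 3 / 100 * P.thp by linarith)
      rwa [Real.rpow_one] at h1
    have hst := hI.stp n (n + P.w e) e _ hn S.G hyb hYe es le_rfl (by omega)
    have hmax : e ^ (-(1 / 40) : ℝ)
        * (e ^ (-(P.thp / 200)) * (e ^ (-(P.thp / 100)) * ‖ζ‖)) ^ 2 ≤ e / 2 := by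
      have h1 := mul_le_mul_of_nonneg_left hY2 (Real.rpow_nonneg e0.le (-(1 / 40) : ℝ))
      rw [← Real.rpow_add e0] at h1
      have h2 := pq (z := 1) (α := -(1 / 40) + (53 / 50 - 3 / 100 * P.thp)) (β := 1) e0 he1
        (by norm_num) (hN.big e e0 es) (by linarith) zero_le_one
      rw [one_mul, one_mul, Real.rpow_one] at h2
      have h3 : 0 ≤ e ^ (-(1 / 40) + (53 / 50 - 3 / 100 * P.thp)) := Real.rpow_nonneg e0.le _
      linarith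
    rw [max_eq_left hmax] at hst
    exact hst
  · -- the size of the number
    have h1 : e ^ (-(P.thp / 100)) * ‖ζ‖ ≤ e ^ (1 / 4 : ℝ) := by
      calc e ^ (-(P.thp / 100)) * ‖ζ‖ ≤ e ^ (-(P.thp / 100)) * e ^ (53 / 100 : ℝ) :=
            mul_le_mul_of_nonneg_left (S.zu.trans (Real.rpow_le_rpow_of_exponent_ge e0 he1 hu))
              (Real.rpow_nonneg e0.le _)
        _ = e ^ (-(P.thp / 100) + 53 / 100) := (Real.rpow_add e0 _ _).symm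
        _ ≤ _ := Real.rpow_le_rpow_of_exponent_ge e0 he1 (by linarith)
    have h2 : 0 ≤ e ^ (1 / 4 : ℝ) := Real.rpow_nonneg e0.le _
    linarith

/-- the background at the new level -/
lemma vz_new (hN : Nu P c1 C1) (hI : In2 P b a C1 c1 A1 N0) (hn : N0 ≤ n)
    {j : ℕ} (S : S2J P b C1 c1 A1 j n s e ζ Δ E) (hX : Cx P b C1 c1 n s e (yr P e ζ))
    (hzy : ‖ζ‖ ≤ yr P e ζ) (hz : 0 < ‖ζ‖) (W : Cw P n (n + P.w e) e (e / 2))
    (hG' : Good P b (n + P.w e) (e / 2)) (x2 : P.thp / 2 ≤ dJ P j)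
    (heJ : eJ P j = min (439 / 500) (48 / 100 + j * (P.thp / 200)))
    (sw : Sw e P.thp (P.th + 4 * P.q0 * P.thp) ‖ζ‖ ‖ζ'‖) :
    ∀ r, n + P.w e + P.kE (e / 2) ≤ r →
      yt (2 ^ r) b (4 * tn (n + P.w e)) ≤ (e / 2) ^ (-(P.thp / 100)) * ‖ζ'‖ := by
  have hT := P.thp0
  have hT1 := hN.T1
  have e0 := S.e0
  have es := S.es
  have he1 : e ≤ 1 := by linarith [tt_e1 es]
  have hz' := sw.z0'
  have he2 : 0 < e / 2 := by linarith
  intro r hr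
  have hp := hI.pers n (n + P.w e) s e (e / 2) (yr P e ζ) ζ Δ E hn hX W le_rfl hG' S.sv S.Δ0 S.E0
    ?_ ?_ ?_ ?_ ?_ r hr
  · refine hp.trans ?_
    have h1 := sw.pz (α := -(P.thp / 400)) (β := -(P.thp / 100) + P.thp / 10 ^ 7) (by linarith)
    have h2 : e ^ (-(P.thp / 100)) ≤ (e / 2) ^ (-(P.thp / 100)) :=
      Real.rpow_le_rpow_of_nonpos he2 (by linarith) (by linarith)
    have h3 : ‖ζ‖ * e ^ (-(P.thp / 100) + P.thp / 10 ^ 7)
        ≤ 6 * (e ^ (-(P.thp / 100)) * ‖ζ'‖) := by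
      rw [Real.rpow_add e0]
      calc ‖ζ‖ * (e ^ (-(P.thp / 100)) * e ^ (P.thp / 10 ^ 7))
          = e ^ (-(P.thp / 100)) * (‖ζ‖ * e ^ (P.thp / 10 ^ 7)) := by ring
        _ ≤ e ^ (-(P.thp / 100)) * (6 * ‖ζ'‖) :=
            mul_le_mul_of_nonneg_left sw.lo (Real.rpow_nonneg e0.le _)
        _ = _ := by ring
    have h4 := mul_le_mul_of_nonneg_right h2 hz'.le
    have h5 : 0 ≤ ‖ζ‖ * e ^ (-(P.thp / 400)) := mul_nonneg hz.le (Real.rpow_nonneg e0.le _)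
    have h6 : 0 ≤ e ^ (-(P.thp / 100)) * ‖ζ'‖ := mul_nonneg (Real.rpow_nonneg e0.le _) hz'.le
    rw [mul_comm]
    linarith
  · -- the deviation
    have h1 : (2 : ℝ) ^ ((((n + P.w e : ℕ) : ℝ) - n) / 4) ≤ 2 * e ^ (-(P.thp / 4)) := by
      rw [Nat.cast_add, add_sub_cancel_left, div_eq_mul_one_div,
        Real.rpow_mul (by norm_num), Real.rpow_natCast]
      have h2 := Real.rpow_le_rpow (by positivity) (w_up (P := P) e0 he1)
        (show (0 : ℝ) ≤ 1 / 4 by norm_num)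
      refine h2.trans ?_
      rw [Real.mul_rpow (by norm_num) (Real.rpow_nonneg e0.le _), ← Real.rpow_mul e0.le]
      have h3 : (2 : ℝ) ^ ((1 : ℝ) / 4) ≤ 2 := by
        have := Real.rpow_le_rpow_of_exponent_le (x := (2 : ℝ)) (by norm_num)
          (show (1 : ℝ) / 4 ≤ 1 by norm_num)
        rwa [Real.rpow_one] at this
      have h4 : -P.thp * (1 / 4) = -(P.thp / 4) := by ring
      rw [h4]
      exact mul_le_mul_of_nonneg_right h3 (Real.rpow_nonneg e0.le _)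
    have h5 := sw.pz (α := dJ P j - P.thp / 4) (β := 0) (by linarith)
    rw [Real.rpow_zero, mul_one] at h5
    calc (2 : ℝ) ^ ((((n + P.w e : ℕ) : ℝ) - n) / 4) * Δ
        ≤ (2 * e ^ (-(P.thp / 4))) * (‖ζ‖ * e ^ dJ P j) :=
          mul_le_mul h1 S.dv S.Δ0 (by positivity)
      _ = 2 * (‖ζ‖ * e ^ (dJ P j - P.thp / 4)) := by
          rw [sub_eq_add_neg, Real.rpow_add e0]; ring
      _ ≤ ‖ζ‖ := by
          have h6 : 0 ≤ ‖ζ‖ * e ^ (dJ P j - P.thp / 4) :=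
            mul_nonneg hz.le (Real.rpow_nonneg e0.le _)
          linarith
  · refine S.er.trans ?_
    rw [mul_comm]
    refine mul_le_mul_of_nonneg_right (Real.rpow_le_rpow_of_exponent_ge e0 he1 ?_) hz.le
    rw [heJ]
    exact le_min (by norm_num) (by have : 0 ≤ (j : ℝ) * (P.thp / 200) := by positivity
                                   linarith)
  · exact mul_le_mul_of_nonneg_right
      (Real.rpow_le_rpow_of_exponent_ge e0 he1 (by linarith)) hz.le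
  · refine le_trans ?_ hzy
    exact mul_le_of_le_one_left hz.le (Real.rpow_le_one e0.le he1 (by norm_num))
  · intro r' hr'
    refine (S.vz r' hr'.1).trans ?_
    exact mul_le_mul_of_nonneg_right
      (Real.rpow_le_rpow_of_exponent_ge e0 he1 (by linarith)) hz.le

/-- the size against the level -/
lemma dx_new (hN : Nu P c1 C1) (e0 : 0 < e) (es : e ≤ P.es) (hz : 0 < ‖ζ‖) (hz' : 0 < ‖ζ'‖)
    (dx : -Real.log (e * ‖ζ‖) ≤ 1 / (16 * C1) * n)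
    (lo : Real.log ‖ζ‖ - Real.log ‖ζ'‖ ≤ 1 + 1 / (64 * C1) * (P.w e * Real.log 2)) :
    -Real.log (e / 2 * ‖ζ'‖) ≤ 1 / (16 * C1) * ((n + P.w e : ℕ) : ℝ) := by
  have hC := hN.C24
  have hC0 : 0 < C1 := by linarith
  have hw40 := hN.w40 e e0 es
  have hl2 := Real.log_two_gt_d9
  have hl2' := Real.log_two_lt_d9
  have he2 : 0 < e / 2 := by linarith
  have hlz : Real.log (e / 2 * ‖ζ'‖) = Real.log e - Real.log 2 + Real.log ‖ζ'‖ := by
    rw [Real.log_mul he2.ne' hz'.ne', Real.log_div e0.ne' (by norm_num)]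
  have hloz : Real.log (e * ‖ζ‖) = Real.log e + Real.log ‖ζ‖ := Real.log_mul e0.ne' hz.ne'
  have hloC : C1 * (Real.log ‖ζ‖ - Real.log ‖ζ'‖) ≤ C1 + 1 / 64 * (P.w e * Real.log 2) := by
    have h1 := mul_le_mul_of_nonneg_left lo hC0.le
    refine h1.trans (le_of_eq ?_)
    field_simp
  have h1 := dx
  rw [hloz] at h1
  rw [hlz]
  have h2 : C1 * (-(Real.log e + Real.log ‖ζ‖)) ≤ 1 / 16 * n := by
    have h3 := mul_le_mul_of_nonneg_left h1 hC0.le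
    refine h3.trans (le_of_eq ?_)
    field_simp
  have h4 : C1 * (-(Real.log e - Real.log 2 + Real.log ‖ζ'‖))
      ≤ 1 / 16 * ((n + P.w e : ℕ) : ℝ) := by
    push_cast
    have h5 : C1 * (-(Real.log e - Real.log 2 + Real.log ‖ζ'‖))
        = C1 * (-(Real.log e + Real.log ‖ζ‖)) + C1 * Real.log 2
          + C1 * (Real.log ‖ζ‖ - Real.log ‖ζ'‖) := by ring
    rw [h5]
    have h6 : C1 * Real.log 2 ≤ C1 * 1 := mul_le_mul_of_nonneg_left (by linarith) hC0.le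
    have h7 : (P.w e : ℝ) * Real.log 2 ≤ P.w e * (7 / 10) :=
      mul_le_mul_of_nonneg_left (by linarith) (Nat.cast_nonneg _)
    linarith
  have h8 : 1 / (16 * C1) * ((n + P.w e : ℕ) : ℝ) = (1 / 16 * ((n + P.w e : ℕ) : ℝ)) / C1 := by
    field_simp
  rw [h8, le_div_iff₀ hC0]
  linarith

/-- the new cells -/
lemma cell_new (hN : Nu P c1 C1) (e0 : 0 < e) (es : e ≤ P.es) (hz : 0 < ‖ζ‖) (hz' : 0 < ‖ζ'‖)
    (x0 : 0 < e * yr P e ζ) (s2 : lam n s ≤ (e * yr P e ζ) ^ (69 / 64 * C1))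
    (dx' : -Real.log (e / 2 * ‖ζ'‖) ≤ 1 / (16 * C1) * ((n + P.w e : ℕ) : ℝ))
    (lo : Real.log ‖ζ‖ - Real.log ‖ζ'‖ ≤ 1 + 1 / (64 * C1) * (P.w e * Real.log 2)) :
    ∃ s', s ≤ s' ∧ 1 / 2 * (e / 2 * yr P (e / 2) ζ') ^ (69 / 64 * C1) ≤ lam (n + P.w e) s' ∧
      lam (n + P.w e) s' ≤ (e / 2 * yr P (e / 2) ζ') ^ (69 / 64 * C1) := by
  have hT := P.thp0
  have hT1 := hN.T1
  have he1 : e ≤ 1 := by linarith [tt_e1 es]
  have hC := hN.C24
  have hC0 : 0 < C1 := by linarith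
  have hw40 := hN.w40 e e0 es
  have hl2 := Real.log_two_gt_d9
  have hl2' := Real.log_two_lt_d9
  have he2 : 0 < e / 2 := by linarith
  have hlz : Real.log (e / 2 * ‖ζ'‖) = Real.log e - Real.log 2 + Real.log ‖ζ'‖ := by
    rw [Real.log_mul he2.ne' hz'.ne', Real.log_div e0.ne' (by norm_num)]
  have hyr' : yr P (e / 2) ζ' = (e / 2) ^ (-(P.thp / 50)) * ‖ζ'‖ := rfl
  have hyr : yr P e ζ = e ^ (-(P.thp / 50)) * ‖ζ‖ := rfl
  have hx' : 0 < e / 2 * yr P (e / 2) ζ' := by rw [hyr']; positivity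
  have hlx' : Real.log (e / 2 * yr P (e / 2) ζ') = Real.log (e / 2) + (-(P.thp / 50) *
      Real.log (e / 2) + Real.log ‖ζ'‖) := by
    rw [hyr', Real.log_mul he2.ne' (by positivity), Real.log_mul (by positivity) hz'.ne',
      Real.log_rpow he2]
  have hlx : Real.log (e * yr P e ζ) = Real.log e + (-(P.thp / 50) *
      Real.log e + Real.log ‖ζ‖) := by
    rw [hyr, Real.log_mul e0.ne' (by positivity), Real.log_mul (by positivity) hz.ne',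
      Real.log_rpow e0]
  have hle2 : Real.log (e / 2) = Real.log e - Real.log 2 := Real.log_div e0.ne' (by norm_num)
  have hle0 : Real.log e ≤ 0 := Real.log_nonpos e0.le he1
  refine cells2 (β := 69 / 64 * C1) (x := e * yr P e ζ)
    (x' := e / 2 * yr P (e / 2) ζ') (n := n) (m := n + P.w e) (s := s) x0 hx' s2 ?_ ?_
  · rw [hlx, hlx', hle2]
    push_cast
    have h1 : Real.log e + (-(P.thp / 50) * Real.log e + Real.log ‖ζ‖)
        - (Real.log e - Real.log 2 + (-(P.thp / 50) * (Real.log e - Real.log 2)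
          + Real.log ‖ζ'‖)) = Real.log 2 - P.thp / 50 * Real.log 2
            + (Real.log ‖ζ‖ - Real.log ‖ζ'‖) := by ring
    rw [h1]
    have h2 : 0 ≤ C1 * (P.thp / 50 * Real.log 2) := by positivity
    have h3 : C1 * Real.log 2 ≤ C1 * 1 := mul_le_mul_of_nonneg_left (by linarith) hC0.le
    have h4 : 40 * C1 * Real.log 2 ≤ (P.w e : ℝ) * Real.log 2 :=
      mul_le_mul_of_nonneg_right hw40 (by linarith)
    have h5 : C1 * (6 / 10) ≤ C1 * Real.log 2 := mul_le_mul_of_nonneg_left (by linarith) hC0.le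
    have h6 : 69 / 64 * C1 * (Real.log 2 - P.thp / 50 * Real.log 2
        + (Real.log ‖ζ‖ - Real.log ‖ζ'‖)) = 69 / 64 * (C1 * Real.log 2)
          - 69 / 64 * (C1 * (P.thp / 50 * Real.log 2))
          + 69 / 64 * (C1 * (Real.log ‖ζ‖ - Real.log ‖ζ'‖)) := by ring
    rw [h6]
    have h7 : ((n : ℝ) + P.w e - n) * Real.log 2 = P.w e * Real.log 2 := by ring
    rw [h7]
    have h8 : C1 * (Real.log ‖ζ‖ - Real.log ‖ζ'‖) ≤ C1 + 1 / 64 * (P.w e * Real.log 2) := by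
      have h9 := mul_le_mul_of_nonneg_left lo hC0.le
      refine h9.trans (le_of_eq ?_)
      field_simp
    linarith
  · rw [hlx', hle2]
    have h1 := mul_le_mul_of_nonneg_left dx' hC0.le
    have h2 : C1 * (1 / (16 * C1) * ((n + P.w e : ℕ) : ℝ)) = 1 / 16 * ((n + P.w e : ℕ) : ℝ) := by
      field_simp
    rw [h2, hlz] at h1
    have h3 : 0 ≤ C1 * (-(P.thp / 50) * (Real.log e - Real.log 2)) := by
      have : 0 ≤ -(P.thp / 50) * (Real.log e - Real.log 2) :=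
        mul_nonneg_of_nonpos_of_nonpos (by linarith) (by linarith)
      positivity
    have h4 : 69 / 64 * C1 * -(Real.log e - Real.log 2 + (-(P.thp / 50) *
        (Real.log e - Real.log 2) + Real.log ‖ζ'‖))
        = 69 / 64 * (C1 * -(Real.log e - Real.log 2 + Real.log ‖ζ'‖))
          - 69 / 64 * (C1 * (-(P.thp / 50) * (Real.log e - Real.log 2))) := by ring
    rw [h4]
    have h5 : (0 : ℝ) ≤ ((n + P.w e : ℕ) : ℝ) := Nat.cast_nonneg _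
    have h6 : ((n + P.w e : ℕ) : ℝ) * (6 / 10) ≤ ((n + P.w e : ℕ) : ℝ) * Real.log 2 :=
      mul_le_mul_of_nonneg_left (by linarith) h5
    linarith

/-- the new reference number against the old one -/
lemma y1_new (hN : Nu P c1 C1) (e0 : 0 < e) (es : e ≤ P.es)
    (sw : Sw e P.thp (P.th + 4 * P.q0 * P.thp) ‖ζ‖ ‖ζ'‖) :
    e ^ (1 / 100 : ℝ) * yr P e ζ ≤ yr P (e / 2) ζ' ∧
      e ^ (1 / 100 : ℝ) * yr P (e / 2) ζ' ≤ yr P e ζ := by
  have hT := P.thp0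
  have hT1 := hN.T1
  have he1 : e ≤ 1 := by linarith [tt_e1 es]
  have hz := sw.z0
  have hz' := sw.z0'
  have he2 : 0 < e / 2 := by linarith
  have hyr' : yr P (e / 2) ζ' = (e / 2) ^ (-(P.thp / 50)) * ‖ζ'‖ := rfl
  have hyr : yr P e ζ = e ^ (-(P.thp / 50)) * ‖ζ‖ := rfl
  have hy1a : e ^ (1 / 100 : ℝ) * yr P e ζ ≤ yr P (e / 2) ζ' := by
    rw [hyr, hyr']
    have h1 : e ^ (-(P.thp / 50)) ≤ (e / 2) ^ (-(P.thp / 50)) :=
      Real.rpow_le_rpow_of_nonpos he2 (by linarith) (by linarith)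
    have h2 := sw.pz (α := 1 / 100) (β := P.thp / 10 ^ 7) (by linarith)
    have h3 := sw.lo
    have h4 : ‖ζ‖ * e ^ (1 / 100 : ℝ) ≤ ‖ζ'‖ := by
      have : 0 ≤ ‖ζ‖ * e ^ (1 / 100 : ℝ) := mul_nonneg hz.le (Real.rpow_nonneg e0.le _)
      linarith
    calc e ^ (1 / 100 : ℝ) * (e ^ (-(P.thp / 50)) * ‖ζ‖)
        = e ^ (-(P.thp / 50)) * (‖ζ‖ * e ^ (1 / 100 : ℝ)) := by ring
      _ ≤ (e / 2) ^ (-(P.thp / 50)) * ‖ζ'‖ := mul_le_mul h1 h4
          (mul_nonneg hz.le (Real.rpow_nonneg e0.le _)) (Real.rpow_nonneg he2.le _)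
  have hy1b : e ^ (1 / 100 : ℝ) * yr P (e / 2) ζ' ≤ yr P e ζ := by
    rw [hyr, hyr']
    have h1 : (e / 2) ^ (-(P.thp / 50)) ≤ 2 * e ^ (-(P.thp / 50)) := by
      have h2 : (e / 2) ^ (-(P.thp / 50)) = 2 ^ (P.thp / 50) * e ^ (-(P.thp / 50)) := by
        rw [div_eq_mul_inv, Real.mul_rpow e0.le (by norm_num), Real.inv_rpow (by norm_num),
          Real.rpow_neg (by norm_num : (0 : ℝ) ≤ 2), inv_inv, mul_comm]
      have h3 : (2 : ℝ) ^ (P.thp / 50) ≤ 2 := by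
        have := Real.rpow_le_rpow_of_exponent_le (x := (2 : ℝ)) (by norm_num)
          (show P.thp / 50 ≤ 1 by linarith)
        rwa [Real.rpow_one] at this
      rw [h2]
      exact mul_le_mul_of_nonneg_right h3 (Real.rpow_nonneg e0.le _)
    have h2 := sw.pz (α := 1 / 100 - P.thp / 10 ^ 7) (β := 0) (by linarith)
    rw [Real.rpow_zero, mul_one] at h2
    have h4 : e ^ (1 / 100 : ℝ) * ‖ζ'‖ ≤ 6 * (‖ζ‖ * e ^ (1 / 100 - P.thp / 10 ^ 7)) := by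
      rw [sub_eq_add_neg, Real.rpow_add e0]
      calc e ^ (1 / 100 : ℝ) * ‖ζ'‖ ≤ e ^ (1 / 100 : ℝ) * (6 * (‖ζ‖ * e ^ (-(P.thp / 10 ^ 7)))) :=
            mul_le_mul_of_nonneg_left sw.up (Real.rpow_nonneg e0.le _)
        _ = _ := by ring
    have h5 : 2 * (e ^ (1 / 100 : ℝ) * ‖ζ'‖) ≤ ‖ζ‖ := by
      have : 0 ≤ ‖ζ‖ * e ^ (1 / 100 - P.thp / 10 ^ 7) :=
        mul_nonneg hz.le (Real.rpow_nonneg e0.le _)
      linarith
    calc e ^ (1 / 100 : ℝ) * ((e / 2) ^ (-(P.thp / 50)) * ‖ζ'‖)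
        = (e / 2) ^ (-(P.thp / 50)) * (e ^ (1 / 100 : ℝ) * ‖ζ'‖) := by ring
      _ ≤ (2 * e ^ (-(P.thp / 50))) * (e ^ (1 / 100 : ℝ) * ‖ζ'‖) :=
          mul_le_mul_of_nonneg_right h1 (mul_nonneg (Real.rpow_nonneg e0.le _) hz'.le)
      _ = e ^ (-(P.thp / 50)) * (2 * (e ^ (1 / 100 : ℝ) * ‖ζ'‖)) := by ring
      _ ≤ e ^ (-(P.thp / 50)) * ‖ζ‖ :=
          mul_le_mul_of_nonneg_left h5 (Real.rpow_nonneg e0.le _)
  exact ⟨hy1a, hy1b⟩

/-- the old reference number against the window -/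
lemma y15_new (hN : Nu P c1 C1) (e0 : 0 < e) (es : e ≤ P.es)
    (sw : Sw e P.thp (P.th + 4 * P.q0 * P.thp) ‖ζ‖ ‖ζ'‖) :
    yr P e ζ ≤ (2 : ℝ) ^ (1 / 5 * ((n + P.w e - n : ℕ) : ℝ)) * ‖ζ'‖ := by
  have hT := P.thp0
  have hT1 := hN.T1
  have he1 : e ≤ 1 := by linarith [tt_e1 es]
  have hz := sw.z0
  have hz' := sw.z0'
  have hyr : yr P e ζ = e ^ (-(P.thp / 50)) * ‖ζ‖ := rfl
  rw [Nat.add_sub_cancel_left, mul_comm (1 / 5 : ℝ), Real.rpow_mul (by norm_num),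
    Real.rpow_natCast]
  have h1 : e ^ (-(P.thp / 5)) ≤ ((2 : ℝ) ^ P.w e) ^ (1 / 5 : ℝ) := by
    have h2 := Real.rpow_le_rpow (Real.rpow_nonneg e0.le _) (w_lo (P := P) e0)
      (show (0 : ℝ) ≤ 1 / 5 by norm_num)
    rw [← Real.rpow_mul e0.le] at h2
    refine le_trans (le_of_eq ?_) h2
    congr 1
    ring
  have h3 : ‖ζ‖ ≤ 6 * (e ^ (-(P.thp / 10 ^ 7)) * ‖ζ'‖) := by
    have h4 := mul_le_mul_of_nonneg_left sw.lo (Real.rpow_nonneg e0.le (-(P.thp / 10 ^ 7)))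
    have h5 : e ^ (-(P.thp / 10 ^ 7)) * (‖ζ‖ * e ^ (P.thp / 10 ^ 7)) = ‖ζ‖ := by
      rw [mul_left_comm, ← Real.rpow_add e0, neg_add_cancel, Real.rpow_zero, mul_one]
    rw [h5] at h4
    linarith
  have h6 := pq (z := ‖ζ'‖) (α := -(P.thp / 50) - P.thp / 10 ^ 7) (β := -(P.thp / 5)) e0 he1
    (by norm_num) (hN.big e e0 es) (by linarith) hz'.le
  have h7 : 0 ≤ ‖ζ'‖ * e ^ (-(P.thp / 50) - P.thp / 10 ^ 7) :=
    mul_nonneg hz'.le (Real.rpow_nonneg e0.le _)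
  rw [hyr]
  calc e ^ (-(P.thp / 50)) * ‖ζ‖
      ≤ e ^ (-(P.thp / 50)) * (6 * (e ^ (-(P.thp / 10 ^ 7)) * ‖ζ'‖)) :=
        mul_le_mul_of_nonneg_left h3 (Real.rpow_nonneg e0.le _)
    _ = 6 * (‖ζ'‖ * e ^ (-(P.thp / 50) - P.thp / 10 ^ 7)) := by
        rw [sub_eq_add_neg, Real.rpow_add e0]; ring
    _ ≤ ‖ζ'‖ * e ^ (-(P.thp / 5)) := by linarith
    _ ≤ _ := by
        rw [mul_comm]
        exact mul_le_mul_of_nonneg_right h1 hz'.le

/-- the exponents of the window number `j` -/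
structure Jn (P : Par) (j : ℕ) : Prop where
  d1 : dJ P (j + 1) ≤ dJ P j + P.thp / 200
  d2 : P.thp / 2 ≤ dJ P j
  d3 : dJ P (j + 1) + 3 / 1000 ≤ eJ P j
  d4 : dJ P (j + 1) + 3 / 1000 ≤ 1 / 2 + gJ P j
  d78 : dJ P (j + 1) ≤ 7 / 8
  e1 : eJ P (j + 1) + 1 / 500 ≤ 22 / 25
  e2 : eJ P (j + 1) + 1 / 500 ≤ 1 / 2 + gJ P j
  g0 : 0 ≤ gJ P j
  g1 : gJ P j ≤ 1 / 2
  g3 : gJ P (j + 1) ≤ gJ P j + P.thp / 200
  g4 : 0 ≤ gJ P (j + 1)
  g5 : gJ P (j + 1) ≤ 1 / 2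
  u0 : 53 / 100 ≤ uJ P j
  u1 : 525 / 1000 ≤ uJ P (j + 1)
  u2 : uJ P (j + 1) + P.thp / 10 ^ 6 ≤ uJ P j
  u3 : uJ P (j + 1) ≤ 1
  b1 : -(P.thp / 10) ≤ gB P j
  b2 : gB P (j + 1) ≤ 2
  b3 : gB P (j + 1) ≤ gB P j + P.thp / 400

lemma jn_of {j : ℕ} (hN : Nu P c1 C1) (hj : (j : ℝ) * P.thp ≤ 1000) : Jn P j := by
  have hT := P.thp0
  have hT1 := hN.T1
  have hj0 : (0 : ℝ) ≤ j := Nat.cast_nonneg j
  obtain ⟨x1, x2, x3, x4, x5, x6, x7, x8⟩ := exp_facts hT hT1 hj0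
  have hdJ : dJ P j = min (7 / 8) (P.thp / 2 + j * (P.thp / 200)) := rfl
  have hdJ' : dJ P (j + 1) = min (7 / 8) (P.thp / 2 + ((j : ℝ) + 1) * (P.thp / 200)) := by
    unfold dJ; push_cast; rfl
  have hgJ : gJ P j = min (1 / 2) (j * (P.thp / 200)) := rfl
  have heJ : eJ P j = min (439 / 500) (48 / 100 + j * (P.thp / 200)) := rfl
  have heJ' : eJ P (j + 1) = min (439 / 500) (48 / 100 + ((j : ℝ) + 1) * (P.thp / 200)) := by
    unfold eJ; push_cast; rfl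
  have hgJ' : gJ P (j + 1) = min (1 / 2) (((j : ℝ) + 1) * (P.thp / 200)) := by
    unfold gJ; push_cast; rfl
  rw [← hdJ, ← hdJ'] at x1
  rw [← hdJ] at x2
  rw [← hdJ', ← heJ] at x3
  rw [← hdJ', ← hgJ] at x4
  rw [← heJ'] at x5
  rw [← heJ', ← hgJ] at x6
  have huj : uJ P j = 531 / 1000 - j * (P.thp / 10 ^ 6) := rfl
  have huj' : uJ P (j + 1) = 531 / 1000 - ((j : ℝ) + 1) * (P.thp / 10 ^ 6) := by
    unfold uJ; push_cast; rfl
  have hgB : gB P j = min 2 ((j : ℝ) * (P.thp / 400) - P.thp / 10) := rfl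
  have hgB' : gB P (j + 1) = min 2 (((j : ℝ) + 1) * (P.thp / 400) - P.thp / 10) := by
    unfold gB; push_cast; rfl
  have hjT : 0 ≤ (j : ℝ) * P.thp := by positivity
  have r1 : (j : ℝ) * (P.thp / 10 ^ 6) = (j : ℝ) * P.thp / 10 ^ 6 := by ring
  have r2 : ((j : ℝ) + 1) * (P.thp / 10 ^ 6) = (j : ℝ) * P.thp / 10 ^ 6 + P.thp / 10 ^ 6 := by ring
  have r3 : (j : ℝ) * (P.thp / 400) = (j : ℝ) * P.thp / 400 := by ring
  have r4 : ((j : ℝ) + 1) * (P.thp / 400) = (j : ℝ) * P.thp / 400 + P.thp / 400 := by ring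
  have r5 : (j : ℝ) * (P.thp / 200) = (j : ℝ) * P.thp / 200 := by ring
  have r6 : ((j : ℝ) + 1) * (P.thp / 200) = (j : ℝ) * P.thp / 200 + P.thp / 200 := by ring
  refine ⟨x1, x2, x3, x4, min_le_left _ _, x5, x6, ?_, min_le_left _ _, ?_, ?_, min_le_left _ _, ?_,
    ?_, ?_, ?_, ?_, min_le_left _ _, ?_⟩
  · rw [hgJ, r5]
    exact le_min (by norm_num) (by linarith)
  · rw [hgJ, hgJ', r5, r6]
    rcases min_cases (1 / 2 : ℝ) ((j : ℝ) * P.thp / 200) with h | h <;>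
      rcases min_cases (1 / 2 : ℝ) ((j : ℝ) * P.thp / 200 + P.thp / 200) with h' | h' <;>
      linarith
  · rw [hgJ', r6]
    exact le_min (by norm_num) (by linarith)
  · rw [huj, r1]; linarith
  · rw [huj', r2]; linarith
  · rw [huj, huj', r1, r2]; linarith
  · rw [huj', r2]; linarith
  · rw [hgB, r3]
    exact le_min (by linarith) (by linarith)
  · rw [hgB, hgB', r3, r4]
    rcases min_cases (2 : ℝ) ((j : ℝ) * P.thp / 400 - P.thp / 10) with h | h <;>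
      rcases min_cases (2 : ℝ) ((j : ℝ) * P.thp / 400 + P.thp / 400 - P.thp / 10) with h' | h' <;>
      linarith

/-- the facts of the new state -/
structure Nf (P : Par) (b C1 c1 A1 : ℝ) (j n s : ℕ) (e : ℝ) (ζ ζ' : ℂ) (Δ E : ℝ) (s' : ℕ) :
    Prop where
  X : Cx P b C1 c1 n s e (yr P e ζ)
  zy : ‖ζ‖ ≤ yr P e ζ
  y1 : yr P e ζ ≤ 1
  W : Cw P n (n + P.w e) e (e / 2)
  G' : Good P b (n + P.w e) (e / 2)
  z' : ζ' ≠ 0
  sw : Sw e P.thp (P.th + 4 * P.q0 * P.thp) ‖ζ‖ ‖ζ'‖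
  zu : ‖ζ'‖ ≤ (e / 2) ^ uJ P (j + 1)
  zl : Real.log (1 / ‖ζ'‖) ≤ (e / 2) ^ (-c1)
  vz : ∀ r, n + P.w e + P.kE (e / 2) ≤ r →
      yt (2 ^ r) b (4 * tn (n + P.w e)) ≤ (e / 2) ^ (-(P.thp / 100)) * ‖ζ'‖
  s1 : 1 / 2 * (e / 2 * yr P (e / 2) ζ') ^ (69 / 64 * C1) ≤ lam (n + P.w e) s'
  s2 : lam (n + P.w e) s' ≤ (e / 2 * yr P (e / 2) ζ') ^ (69 / 64 * C1)
  dx : -Real.log (e / 2 * ‖ζ'‖) ≤ 1 / (16 * C1) * ((n + P.w e : ℕ) : ℝ)
  X' : Cx P b C1 c1 (n + P.w e) s' (e / 2) (yr P (e / 2) ζ')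
  zy' : ‖ζ'‖ ≤ yr P (e / 2) ζ'
  sv : SV P b A1 (n + P.w e) s' (e / 2) ζ' (Mw n (n + P.w e) ^ (-(3 / 4) : ℝ) * Δ
            + QP P e ^ 3 * (2 * E + yr P e ζ * e ^ (1 / 2 + gJ P j))
            + QP P e ^ 2 * ((‖ζ‖ + ‖ζ'‖) * hS e) + (e * yr P e ζ) ^ 2)
          (yr P e ζ * (QP P e ^ 5 * max (hS e) (e ^ (1 / 2 + gJ P j))))

/-- **the new state of one window** -/
theorem nf_of (hN : Nu P c1 C1) (hI : In2 P b a C1 c1 A1 N0) (hN4 : 4 ≤ N0) (hn : N0 ≤ n) {j : ℕ}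
    (J : Jn P j) (S : S2J P b C1 c1 A1 j n s e ζ Δ E) :
    ∃ (s' : ℕ) (ζ' : ℂ), Nf P b C1 c1 A1 j n s e ζ ζ' Δ E s' := by
  have hT := P.thp0
  have hT1 := hN.T1
  have hC := hN.C24
  have hC0 : 0 < C1 := by linarith
  have e0 := S.e0
  have es := S.es
  have he1 : e ≤ 1 := by linarith [tt_e1 es]
  have hn4 : 4 ≤ n := hN4.trans hn
  obtain ⟨hX, hzy, hy1, hz⟩ := cxA hN hI.b1 hI.b2 hn4 S.G e0 es S.z0
    (show 525 / 1000 ≤ uJ P j by linarith [J.u0]) S.zu S.zl S.vz S.s1 S.s2 S.dx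
  have hzle : ‖ζ‖ ≤ 1 := hzy.trans hy1
  have hw1 : 1 ≤ P.w e := H972.w1 e0 es
  have W : Cw P n (n + P.w e) e (e / 2) := by
    refine ⟨le_rfl, ?_, by linarith, by omega, by omega⟩
    have h1 := Real.rpow_le_rpow_of_exponent_ge e0 he1 (show (19 / 20 : ℝ) ≤ 1 by norm_num)
    rw [Real.rpow_one] at h1
    linarith
  have es' : e / 2 ≤ P.es := by linarith
  have hG' : Good P b (n + P.w e) (e / 2) := good_new hN hI hn S J.u0 hz
  have tv := tv_step (n := n) hN e0 es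
  have hΔ2 : Δ ≤ 2 := by
    refine S.dv.trans ?_
    have h1 : e ^ dJ P j ≤ 1 := Real.rpow_le_one e0.le he1 (by linarith [J.d2])
    have h2 := mul_le_mul hzle h1 (Real.rpow_nonneg e0.le _) zero_le_one
    linarith
  obtain ⟨ζ', k1, k2⟩ := hI.gs n (n + P.w e) s e (e / 2) (yr P e ζ) (gJ P j) ζ Δ E hn hX W J.g0
    J.g1 S.ch S.z0 hzle hΔ2 S.E0 (SV_V1 S.sv tv)
  have hA := na_of hN hI.ax hn e0 es S.z0 hy1 J.d2 S.dv k1
  have sw := hA.sw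
  have hz' := sw.z0'
  have he2 : 0 < e / 2 := by linarith
  have zu' : ‖ζ'‖ ≤ (e / 2) ^ uJ P (j + 1) := sw.up_pow S.zu J.u2 J.u3
  have zl' : Real.log (1 / ‖ζ'‖) ≤ (e / 2) ^ (-c1) := by
    have h1 := hN.zl e e0 es
    have h2 : (e / 2) ^ (-c1) = 2 ^ c1 * e ^ (-c1) := by
      rw [div_eq_mul_inv, Real.mul_rpow e0.le (by norm_num), Real.inv_rpow (by norm_num),
        Real.rpow_neg (by norm_num : (0 : ℝ) ≤ 2), inv_inv, mul_comm]
    have h3 := S.zl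
    rw [one_div, Real.log_inv] at h3 ⊢
    rw [h2]
    have h4 := hA.lw
    rw [sub_mul, one_mul] at h1
    linarith
  have vz' := vz_new hN hI hn S hX hzy hz W hG' J.d2 rfl sw
  have dx' := dx_new (n := n) hN e0 es hz hz' S.dx hA.lo
  obtain ⟨s', hss, s1', s2'⟩ := cell_new hN e0 es hz hz' hX.x0 S.s2 dx' hA.lo
  obtain ⟨hX', hzy', hy1', -⟩ := cxA hN hI.b1 hI.b2 (by omega) hG' he2 es' hA.z' J.u1 zu' zl' vz'
    s1' s2' dx'
  obtain ⟨hy1a, hy1b⟩ := y1_new hN e0 es sw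
  exact ⟨s', ζ', hX, hzy, hy1, W, hG', hA.z', sw, zu', zl', vz', s1', s2', dx', hX', hzy',
    k2 s' _ hX' hy1a hy1b hss⟩

/-- the context of `CHS`, `CBS` -/
lemma ci_new {j s' : ℕ} {y' : ℝ} (S : S2J P b C1 c1 A1 j n s e ζ Δ E)
    (F : Nf P b C1 c1 A1 j n s e ζ ζ' Δ E s')
    (tv : TV P n e (n + P.w e + P.kE (e / 2)))
    (h14 : yr P e ζ ≤ (2 : ℝ) ^ (1 / 5 * ((n + P.w e - n : ℕ) : ℝ)) * y')
    (hy' : ‖ζ'‖ ≤ y') (hye : y' ^ (39 / 20 : ℝ) ≤ e / 2) :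
    CI P b c1 n (n + P.w e) e (e / 2) (yr P e ζ) y' := by
  have hT := P.thp0
  have e0 := S.e0
  have es := S.es
  have he1 : e ≤ 1 := by linarith [tt_e1 es]
  have he2 : 0 < e / 2 := by linarith
  have es' : e / 2 ≤ P.es := by linarith
  have hz := F.sw.z0
  have hz' := F.sw.z0'
  have hy'0 : 0 < y' := hz'.trans_le hy'
  refine ⟨e0, es, le_rfl, es', F.W.w1, F.W.w2, S.G, F.G', F.X.y0, hy'0, F.X.y1, hye, ?_, ?_, ?_,
    ?_⟩
  · refine le_trans ?_ F.zl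
    exact Real.log_le_log (by positivity) (one_div_le_one_div_of_le hz' hy')
  · refine (S.vz _ tv.1).trans ?_
    exact mul_le_mul (Real.rpow_le_rpow_of_exponent_ge e0 he1 (by linarith)) F.zy hz.le
      (Real.rpow_nonneg e0.le _)
  · intro r hr
    refine (F.vz r hr.1).trans ?_
    exact mul_le_mul (Real.rpow_le_rpow_of_exponent_ge he2 (by linarith) (by linarith)) hy' hz'.le
      (Real.rpow_nonneg he2.le _)
  · refine h14.trans (mul_le_mul_of_nonneg_right ?_ hy'0.le)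
    refine Real.rpow_le_rpow_of_exponent_le (by norm_num) ?_
    exact mul_le_mul_of_nonneg_right (by norm_num) (Nat.cast_nonneg _)

/-- **one window of the second part** -/
theorem step2_of (hN : Nu P c1 C1) (hI : In2 P b a C1 c1 A1 N0) (hN4 : 4 ≤ N0) :
    Step2 P b C1 c1 A1 N0 := by
  intro j n s e ζ Δ E hn hj S
  have J := jn_of hN hj
  obtain ⟨s', ζ', F⟩ := nf_of hN hI hN4 hn J S
  have e0 := S.e0
  have es := S.es
  have he1 : e ≤ 1 := by linarith [tt_e1 es]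
  have he2 : 0 < e / 2 := by linarith
  have es' : e / 2 ≤ P.es := by linarith
  have sw := F.sw
  have hz' := sw.z0'
  have tv := tv_step (n := n) hN e0 es
  have h15 : yr P e ζ ≤ (2 : ℝ) ^ (1 / 5 * ((n + P.w e - n : ℕ) : ℝ)) * ‖ζ'‖ :=
    y15_new hN e0 es sw
  have h14 : ∀ y', ‖ζ'‖ ≤ y' →
      yr P e ζ ≤ (2 : ℝ) ^ (1 / 5 * ((n + P.w e - n : ℕ) : ℝ)) * y' :=
    fun y' hy' => h15.trans (mul_le_mul_of_nonneg_left hy' (by positivity))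
  have ci : ∀ y', ‖ζ'‖ ≤ y' → y' ^ (39 / 20 : ℝ) ≤ e / 2 →
      CI P b c1 n (n + P.w e) e (e / 2) (yr P e ζ) y' :=
    fun y' h1 h2 => ci_new S F tv (h14 y' h1) h1 h2
  have hz39 : ‖ζ'‖ ^ (39 / 20 : ℝ) ≤ e / 2 :=
    (Real.rpow_le_rpow hz'.le F.zy' (by norm_num)).trans F.X'.y1
  have chn : ∀ y', ‖ζ'‖ ≤ y' → y' ^ (39 / 20 : ℝ) ≤ e / 2 →
      CH2 P b (n + P.w e) (e / 2) (y' * (e / 2) ^ gJ P (j + 1)) := fun y' h1 h2 =>
    hI.chs.1 n (n + P.w e) e (e / 2) (yr P e ζ) y' (gJ P j) (gJ P (j + 1)) (ci y' h1 h2) J.g4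
      J.g5 J.g3 S.ch
  have cbn : ∀ y', ‖ζ'‖ ≤ y' → y' ^ (39 / 20 : ℝ) ≤ e / 2 →
      CHB P b (n + P.w e) (e / 2) (y' ^ (2 - P.x1 / 50) + y' * (e / 2) ^ gB P (j + 1)) :=
    fun y' h1 h2 => hI.cbs.1 n (n + P.w e) e (e / 2) (yr P e ζ) y' (gB P j) (gB P (j + 1))
      (ci y' h1 h2) F.W.hi (h14 y' h1) J.b1 J.b2 J.b3 S.chb
  have hMlo : e ^ (-P.thp) ≤ Mw n (n + P.w e) := by
    rw [Mw_pow (Nat.le_add_right _ _), Nat.add_sub_cancel_left]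
    exact w_lo e0
  have hyr : yr P e ζ = e ^ (-(P.thp / 50)) * ‖ζ‖ := rfl
  have hdev := sw.dev (y := yr P e ζ) (d := dJ P j) (d' := dJ P (j + 1)) (g := gJ P j)
    (E' := eJ P j) (M := Mw n (n + P.w e)) hyr F.y1 hMlo S.dv S.Δ0 S.er J.d1 J.d78 J.d3 J.d4
  have herr := sw.err (y := yr P e ζ) (E' := eJ P (j + 1)) (g := gJ P j) hyr J.e1 J.e2
  have hQ0 : 0 ≤ QP P e := Real.rpow_nonneg e0.le _
  have hh0 : 0 ≤ hS e := Real.rpow_nonneg e0.le _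
  have hM0 : 0 ≤ Mw n (n + P.w e) := (H889.Mw_pos _ _).le
  refine ⟨s', ζ', _, _, ⟨F.G', he2, es', F.z', F.zu, F.zl, F.vz, F.s1, F.s2, F.dx,
    chn _ F.zy' F.X'.y1, cbn _ F.zy' F.X'.y1, F.sv, ?_, ?_, hdev, herr⟩, chn _ le_rfl hz39,
    cbn _ le_rfl hz39⟩
  · have h1 := S.Δ0
    have h2 := S.E0
    have h3 := F.X.y0.le
    have h4 : 0 ≤ e ^ (1 / 2 + gJ P j) := Real.rpow_nonneg e0.le _
    have h5 : 0 ≤ Mw n (n + P.w e) ^ (-(3 / 4) : ℝ) := Real.rpow_nonneg hM0 _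
    positivity
  · have h3 := F.X.y0.le
    have h4 : 0 ≤ max (hS e) (e ^ (1 / 2 + gJ P j)) := le_max_of_le_left hh0
    positivity

end

end Vale.Agent.P159.H733.Pt
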