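import Vale.Agent.P159.H733.TilQ
import Vale.Agent.P159.T1.NC.H664.YLow

/-!
P159: ratios of block weights: convexity in the presence of a smooth perturbation; the dipole on
its two cores.
-/

set_option linter.all false

open MeasureTheory Filter Topology
open scoped BigOperators

namespace Vale.Agent.P159.UJ.H733

open Vale.Agent.P159 Vale.Agent.P159.UJ

/-- ratio of the weight of a block to its largest value -/
noncomputable def rho (b : ℝ) (s : ℕ) (c : ℤ × ℤ) (θ : Ginf) : ℝ := WB b s c θ / WB b s c 0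

theorem rho_pos (b : ℝ) (s : ℕ) (c : ℤ × ℤ) (θ : Ginf) : 0 < rho b s c θ :=
  div_pos (WB_pos _ _ _ _) (WB_pos _ _ _ _)

theorem rho_le_one {b : ℝ} (hb : 0 ≤ b) (s : ℕ) (c : ℤ × ℤ) (θ : Ginf) : rho b s c θ ≤ 1 := by
  unfold rho
  rw [div_le_one (WB_pos _ _ _ _)]
  exact WB_le hb s c θ

theorem rho_neg (b : ℝ) (s : ℕ) (c : ℤ × ℤ) (θ : Ginf) : rho b s c (-θ) = rho b s c θ := by
  unfold rho
  rw [WB_neg]

theorem rho_four {b : ℝ} (hb : 0 ≤ b) (s : ℕ) (c : ℤ × ℤ) (x y : Ginf) :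
    rho b s c x ^ 2 * rho b s c y ^ 2 ≤ rho b s c (x + y) * rho b s c (x - y) := by
  have h := WB_four hb s c x y
  have h0 := WB_pos b s c 0
  unfold rho
  rw [div_pow, div_pow, div_mul_div_comm, div_mul_div_comm, div_le_div_iff₀ (by positivity)
    (by positivity)]
  have e1 : WB b s c (x + y) * WB b s c (x - y) * (WB b s c 0 ^ 2 * WB b s c 0 ^ 2) =
    (WB b s c (x + y) * WB b s c (x - y) * WB b s c 0 ^ 2) * (WB b s c 0 * WB b s c 0) := by ring
  rw [e1]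
  exact mul_le_mul_of_nonneg_right h (by positivity)

theorem rho_sub {b : ℝ} (hb : 0 ≤ b) (s : ℕ) (c : ℤ × ℤ) (x y : Ginf) :
    rho b s c x ^ 2 * rho b s c y ^ 2 ≤ rho b s c (x - y) := by
  refine (rho_four hb s c x y).trans ?_
  have h1 := rho_le_one hb s c (x + y)
  have h2 := (rho_pos b s c (x - y)).le
  nlinarith only [h1, h2]

/-- convexity up to a small error -/
theorem conv_seq (a : ℕ → ℝ) {lam : ℝ} (h : ∀ j, 2 * a (j + 1) - 2 * lam ≤ a j + a (j + 2))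
    (n : ℕ) : ((n : ℝ) + 1) * a 1 - lam * (n * (n + 1)) ≤ n * a 0 + a (n + 1) := by
  have h1 : ∀ j : ℕ, a 1 - a 0 - 2 * lam * j ≤ a (j + 1) - a j := by
    intro j
    induction j with
    | zero => simp
    | succ j ih =>
      have := h j
      push_cast
      linarith only [this, ih]
  induction n with
  | zero => simp
  | succ n ih =>
    have h2 := h1 (n + 1)
    push_cast at h2 ⊢
    nlinarith only [ih, h2]

/-- the weight of a configuration plus a smooth one -/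
theorem rho_conv {b : ℝ} (hb : 0 ≤ b) (s : ℕ) (c : ℤ × ℤ) (v η : Ginf) {lam : ℝ}
    (hη : Real.exp (-lam) ≤ rho b s c η) {n : ℕ} (hn : 1 ≤ n) :
    (1 + 1 / (n : ℝ)) * Real.log (rho b s c v) - lam * (n + 1) ≤
      Real.log (rho b s c (v + η)) := by
  set a : ℕ → ℝ := fun j => Real.log (rho b s c (v + η - (j : ℕ) • η)) with ha
  have hw : -lam ≤ Real.log (rho b s c η) := by
    rw [Real.le_log_iff_exp_le (rho_pos _ _ _ _)]
    exact hη
  have hc : ∀ j, 2 * a (j + 1) - 2 * lam ≤ a j + a (j + 2) := by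
    intro j
    have h := rho_four hb s c (v + η - (j + 1 : ℕ) • η) η
    have e1 : v + η - (j + 1 : ℕ) • η + η = v + η - (j : ℕ) • η := by
      rw [succ_nsmul]; abel
    have e2 : v + η - (j + 1 : ℕ) • η - η = v + η - (j + 2 : ℕ) • η := by
      rw [succ_nsmul, succ_nsmul, succ_nsmul]; abel
    rw [e1, e2] at h
    have h1 := Real.log_le_log (by have := rho_pos b s c (v + η - (j + 1 : ℕ) • η)
                                   have := rho_pos b s c η
                                   positivity) h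
    rw [Real.log_mul (pow_pos (rho_pos _ _ _ _) 2).ne' (pow_pos (rho_pos _ _ _ _) 2).ne',
      Real.log_mul (rho_pos _ _ _ _).ne' (rho_pos _ _ _ _).ne', Real.log_pow, Real.log_pow] at h1
    push_cast at h1
    show 2 * Real.log (rho b s c (v + η - (j + 1 : ℕ) • η)) - 2 * lam ≤
      Real.log (rho b s c (v + η - (j : ℕ) • η)) + Real.log (rho b s c (v + η - (j + 2 : ℕ) • η))
    linarith only [h1, hw]
  have h := conv_seq a hc n
  have a0 : a 0 = Real.log (rho b s c (v + η)) := by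
    simp only [ha, zero_smul, sub_zero]
  have a1 : a 1 = Real.log (rho b s c v) := by
    simp only [ha, one_smul, add_sub_cancel_right]
  have an : a (n + 1) ≤ 0 := Real.log_nonpos (rho_pos _ _ _ _).le (rho_le_one hb _ _ _)
  rw [a0, a1] at h
  have hn' : (1 : ℝ) ≤ n := by exact_mod_cast hn
  have h2 : (n : ℝ) * ((1 + 1 / (n : ℝ)) * Real.log (rho b s c v) - lam * (n + 1)) ≤
      n * Real.log (rho b s c (v + η)) := by
    have e : (n : ℝ) * ((1 + 1 / (n : ℝ)) * Real.log (rho b s c v) - lam * (n + 1)) =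
        ((n : ℝ) + 1) * Real.log (rho b s c v) - lam * (n * (n + 1)) := by
      field_simp
    rw [e]
    linarith only [h, an]
  exact le_of_mul_le_mul_left h2 (by linarith only [hn'])

/-- lower bound for the weight of a configuration with small increments -/
theorem rho_smooth {b : ℝ} (hb : 0 ≤ b) {s : ℕ} {c : ℤ × ℤ} {θ : Ginf} {t : BI s → ℝ} {Y : ℝ}
    (ht : ∀ e, ((t e : ℝ) : T) = θ (c + bu e) - θ (c + bv e)) (hY : ∀ e, |t e| ≤ Y) :
    Real.exp (-(b * ((s : ℝ) ^ 2 * Y ^ 2))) ≤ rho b s c θ := by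
  have h0 : ∀ e : BI s, (((0 : BI s → ℝ) e : ℝ) : T) = (0 : Ginf) (c + bu e) -
      (0 : Ginf) (c + bv e) := by
    intro e
    simp
  unfold rho
  rw [WB_eq ht, WB_eq h0]
  refine le_trans ?_ (lowerZ muInf (fun _ => b / 2) (chi0 s) pi_div2 (fun _ => by positivity) _)
  rw [Real.exp_le_exp]
  have h1 := H664.QQ_le_energy hb s t
  have h2 : ∑ e, t e ^ 2 ≤ 4 * (s : ℝ) ^ 2 * Y ^ 2 := by
    calc ∑ e, t e ^ 2 ≤ ∑ _e : BI s, Y ^ 2 := Finset.sum_le_sum fun e _ => by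
          rw [← sq_abs]
          exact pow_le_pow_left₀ (abs_nonneg _) (hY e) 2
      _ = 4 * (s : ℝ) ^ 2 * Y ^ 2 := by
          rw [Finset.sum_const, Finset.card_univ, nsmul_eq_mul]
          congr 1
          simp only [Fintype.card_prod, Fintype.card_fin, Fintype.card_bool]
          push_cast
          ring
  have h3 := mul_le_mul_of_nonneg_left h2 (by positivity : 0 ≤ b / 2)
  linarith only [h1, h3]

/-! ### a vortex on the core of another vortex -/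

/-- value of the vortex function of `q` on the core of `p` -/
theorem wf_core {l m K M : ℕ} (hs : 2 ≤ l * m) (hK : 1 ≤ K) {p : ℕ × ℕ} (q : ℕ × ℕ)
    (hp1 : p.1 < M) (hp2 : p.2 < M)
    {y : ℤ × ℤ} (h1 : 0 ≤ y.1) (h2 : y.1 ≤ (l * m : ℕ)) (h3 : 0 ≤ y.2) (h4 : y.2 ≤ (l * m : ℕ)) :
    wf (l * m * NN K M) (pos (l * m) K q.1 q.2) (cnr l m K M p.1 p.2 + y) =
      ⟨((l * m : ℕ) : ℝ) * K * ((p.1 : ℝ) - q.1) + (y.1 - ctr (l * m)),
        ((l * m : ℕ) : ℝ) * K * ((p.2 : ℝ) - q.2) + (y.2 - ctr (l * m))⟩ := by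
  have hL : 0 < l * m * NN K M := by
    have : 0 < NN K M := by unfold NN; omega
    positivity
  have g1 : (0 : ℝ) ≤ y.1 := by exact_mod_cast h1
  have g2 : (y.1 : ℝ) ≤ (l * m : ℕ) := by exact_mod_cast h2
  have g3 : (0 : ℝ) ≤ y.2 := by exact_mod_cast h3
  have g4 : (y.2 : ℝ) ≤ (l * m : ℕ) := by exact_mod_cast h4
  unfold cnr
  have e1 : (((cor l (ccell m K M p.1 p.2) + y).1 : ℤ) : ℝ) =
      ((l * m : ℕ) : ℝ) * (4 * K * M + K * p.1) + y.1 := by
    rw [Prod.fst_add, Int.cast_add, cor_ccell1]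
  have e2 : (((cor l (ccell m K M p.1 p.2) + y).2 : ℤ) : ℝ) =
      ((l * m : ℕ) : ℝ) * (4 * K * M + K * p.2) + y.2 := by
    rw [Prod.snd_add, Int.cast_add, cor_ccell2]
  have hk : kk (l * m * NN K M) (cor l (ccell m K M p.1 p.2) + y) = 1 := by
    apply kk_eq_one hL
    · rw [e1]; exact one_coord hs hK hp1 g1 g2
    · rw [e2]; exact one_coord hs hK hp2 g3 g4
  unfold wf
  rw [hk]
  apply Complex.ext
  · simp only [zc, cc, pos, Complex.sub_re, Complex.mul_re, Complex.ofReal_re, Complex.ofReal_im,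
      Complex.zero_re, Complex.zero_im]
    rw [e1, ctr_big]
    ring
  · simp only [zc, cc, pos, Complex.sub_im, Complex.mul_im, Complex.ofReal_re, Complex.ofReal_im,
      Complex.zero_re, Complex.zero_im]
    rw [e2, ctr_big]
    ring

theorem wf_core_ge {l m K M : ℕ} (hs : 2 ≤ l * m) (hK : 2 ≤ K) {p q : ℕ × ℕ} (hpq : p ≠ q)
    (hp1 : p.1 < M) (hp2 : p.2 < M)
    {y : ℤ × ℤ} (h1 : 0 ≤ y.1) (h2 : y.1 ≤ (l * m : ℕ)) (h3 : 0 ≤ y.2) (h4 : y.2 ≤ (l * m : ℕ)) :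
    (K : ℝ) * ((l * m : ℕ) : ℝ) / 2 ≤
      ‖wf (l * m * NN K M) (pos (l * m) K q.1 q.2) (cnr l m K M p.1 p.2 + y)‖ := by
  rw [wf_core hs (by omega) q hp1 hp2 h1 h2 h3 h4]
  have g1 : (0 : ℝ) ≤ y.1 := by exact_mod_cast h1
  have g2 : (y.1 : ℝ) ≤ (l * m : ℕ) := by exact_mod_cast h2
  have g3 : (0 : ℝ) ≤ y.2 := by exact_mod_cast h3
  have g4 : (y.2 : ℝ) ≤ (l * m : ℕ) := by exact_mod_cast h4
  have hs' : (2 : ℝ) ≤ ((l * m : ℕ) : ℝ) := by exact_mod_cast hs
  have hK' : (2 : ℝ) ≤ K := by exact_mod_cast hK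
  have c1 := ctr_ge (l * m)
  have c2 := ctr_le (l * m)
  have key : ∀ (u v : ℕ) (t : ℝ), u ≠ v → 0 ≤ t → t ≤ ((l * m : ℕ) : ℝ) →
      (K : ℝ) * ((l * m : ℕ) : ℝ) / 2 ≤
        |((l * m : ℕ) : ℝ) * K * ((u : ℝ) - v) + (t - ctr (l * m))| := by
    intro u v t huv ht1 ht2
    have hsK : 0 ≤ ((l * m : ℕ) : ℝ) * K := by positivity
    have hsK2 : ((l * m : ℕ) : ℝ) + 1 ≤ ((l * m : ℕ) : ℝ) * K := by nlinarith only [hs', hK']
    rcases lt_or_gt_of_ne huv with h | h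
    · have h5 : (u : ℝ) + 1 ≤ v := by exact_mod_cast h
      have h6 : ((l * m : ℕ) : ℝ) * K * ((u : ℝ) - v) ≤ -(((l * m : ℕ) : ℝ) * K) := by
        nlinarith only [h5, hsK]
      rw [abs_of_nonpos (by linarith only [h6, hsK2, ht2, c1])]
      linarith only [h6, hsK2, ht2, c1]
    · have h5 : (v : ℝ) + 1 ≤ u := by exact_mod_cast h
      have h6 : ((l * m : ℕ) : ℝ) * K ≤ ((l * m : ℕ) : ℝ) * K * ((u : ℝ) - v) := by
        nlinarith only [h5, hsK]
      rw [abs_of_nonneg (by linarith only [h6, hsK2, ht1, c2])]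
      linarith only [h6, hsK2, ht1, c2]
  by_cases h : p.1 = q.1
  · have h5 : p.2 ≠ q.2 := fun h6 => hpq (Prod.ext h h6)
    exact (key p.2 q.2 y.2 h5 g3 g4).trans (Complex.abs_im_le_norm
      (⟨_, ((l * m : ℕ) : ℝ) * K * ((p.2 : ℝ) - q.2) + (y.2 - ctr (l * m))⟩ : ℂ))
  · exact (key p.1 q.1 y.1 h g1 g2).trans (Complex.abs_re_le_norm
      (⟨((l * m : ℕ) : ℝ) * K * ((p.1 : ℝ) - q.1) + (y.1 - ctr (l * m)), _⟩ : ℂ))

/-- the weight of a vortex on the core of another vortex -/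
theorem rho_other {b : ℝ} (hb : 0 ≤ b) {l m K M : ℕ} (hs : 2 ≤ l * m) (hK : 2 ≤ K) {p q : ℕ × ℕ}
    (hpq : p ≠ q) (hp1 : p.1 < M) (hp2 : p.2 < M) :
    Real.exp (-(16 * b / (K : ℝ) ^ 2)) ≤
      rho b (l * m) (cnr l m K M p.1 p.2) (alp l m K M q.1 q.2) := by
  have hs' : (2 : ℝ) ≤ ((l * m : ℕ) : ℝ) := by exact_mod_cast hs
  have hK' : (2 : ℝ) ≤ K := by exact_mod_cast hK
  have hr : 0 < (K : ℝ) * ((l * m : ℕ) : ℝ) / 2 := by positivity
  have hnz : ∀ y : ℤ × ℤ, 0 ≤ y.1 → y.1 ≤ (l * m : ℕ) → 0 ≤ y.2 → y.2 ≤ (l * m : ℕ) →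
      (K : ℝ) * ((l * m : ℕ) : ℝ) / 2 ≤
      ‖wf (l * m * NN K M) (pos (l * m) K q.1 q.2) (cnr l m K M p.1 p.2 + y)‖ :=
    fun y h1 h2 h3 h4 => wf_core_ge hs hK hpq hp1 hp2 h1 h2 h3 h4
  have ht : ∀ e : BI (l * m), ((inc (l * m * NN K M) (pos (l * m) K q.1 q.2)
      (cnr l m K M p.1 p.2 + bu e) (cnr l m K M p.1 p.2 + bv e) : ℝ) : T) =
      alp l m K M q.1 q.2 (cnr l m K M p.1 p.2 + bu e) -
        alp l m K M q.1 q.2 (cnr l m K M p.1 p.2 + bv e) := by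
    intro e
    obtain ⟨a1, a2, a3, a4⟩ := bu_range e
    obtain ⟨b1, b2, b3, b4⟩ := bv_range e
    have hu := norm_pos_iff.1 (lt_of_lt_of_le hr (hnz _ a1 a2 a3 a4))
    have hv := norm_pos_iff.1 (lt_of_lt_of_le hr (hnz _ b1 b2 b3 b4))
    unfold inc alp ang
    exact Complex.arg_div_coe_angle hu hv
  have hY : ∀ e : BI (l * m), |inc (l * m * NN K M) (pos (l * m) K q.1 q.2)
      (cnr l m K M p.1 p.2 + bu e) (cnr l m K M p.1 p.2 + bv e)| ≤
      4 / ((K : ℝ) * ((l * m : ℕ) : ℝ)) := by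
    intro e
    obtain ⟨a1, a2, a3, a4⟩ := bu_range e
    obtain ⟨b1, b2, b3, b4⟩ := bv_range e
    have hv := hnz _ b1 b2 b3 b4
    have hD : ‖wf (l * m * NN K M) (pos (l * m) K q.1 q.2) (cnr l m K M p.1 p.2 + bu e) -
        wf (l * m * NN K M) (pos (l * m) K q.1 q.2) (cnr l m K M p.1 p.2 + bv e)‖ ≤ 1 := by
      rw [wf_core hs (by omega) q hp1 hp2 a1 a2 a3 a4,
        wf_core hs (by omega) q hp1 hp2 b1 b2 b3 b4]
      by_cases he : e.2.1 = true
      · have e1 : (bv e).1 = (bu e).1 := by simp [bv, he]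
        have e2 : (bv e).2 = (bu e).2 + 1 := by simp [bv, he]
        have e3 : (⟨((l * m : ℕ) : ℝ) * K * ((p.1 : ℝ) - q.1) + ((bu e).1 - ctr (l * m)),
          ((l * m : ℕ) : ℝ) * K * ((p.2 : ℝ) - q.2) + ((bu e).2 - ctr (l * m))⟩ : ℂ) -
          ⟨((l * m : ℕ) : ℝ) * K * ((p.1 : ℝ) - q.1) + ((bv e).1 - ctr (l * m)),
          ((l * m : ℕ) : ℝ) * K * ((p.2 : ℝ) - q.2) + ((bv e).2 - ctr (l * m))⟩ = -Complex.I := by
          rw [e1, e2]
          apply Complex.ext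
          · simp
          · simp
        rw [e3, norm_neg, Complex.norm_I]
      · have e1 : (bv e).1 = (bu e).1 + 1 := by simp [bv, he]
        have e2 : (bv e).2 = (bu e).2 := by simp [bv, he]
        have e3 : (⟨((l * m : ℕ) : ℝ) * K * ((p.1 : ℝ) - q.1) + ((bu e).1 - ctr (l * m)),
          ((l * m : ℕ) : ℝ) * K * ((p.2 : ℝ) - q.2) + ((bu e).2 - ctr (l * m))⟩ : ℂ) -
          ⟨((l * m : ℕ) : ℝ) * K * ((p.1 : ℝ) - q.1) + ((bv e).1 - ctr (l * m)),
          ((l * m : ℕ) : ℝ) * K * ((p.2 : ℝ) - q.2) + ((bv e).2 - ctr (l * m))⟩ = -1 := by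
          rw [e1, e2]
          apply Complex.ext
          · simp
          · simp
        rw [e3, norm_neg, norm_one]
    have h := g3_far hD hr hv (by nlinarith only [hs', hK'])
    have e4 : 4 * (1 : ℝ) ^ 2 / ((K : ℝ) * ((l * m : ℕ) : ℝ) / 2) ^ 2 =
        (4 / ((K : ℝ) * ((l * m : ℕ) : ℝ))) ^ 2 := by
      field_simp
      ring
    rw [e4] at h
    unfold inc
    exact abs_le_of_sq_le_sq h (by positivity)
  refine le_trans (le_of_eq ?_) (rho_smooth hb ht hY)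
  congr 1
  have : ((l * m : ℕ) : ℝ) ≠ 0 := by linarith only [hs']
  have hK0 : (K : ℝ) ≠ 0 := by linarith only [hK']
  field_simp
  ring

end Vale.Agent.P159.UJ.H733
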