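import Mathlib.Algebra.Order.Chebyshev
import Vale.Agent.P159.H733.CellP

/-!
P159, lower bound of the drop of the stiffness: the tail bound for the total current after a shift,
with exponentially small errors besides the drop of the stiffness.
-/

set_option linter.all false

open MeasureTheory Filter Topology
open scoped BigOperators

namespace Vale.Agent.P159.UJ.H733

open Vale.Agent.P159 Vale.Agent.P159.UJ Vale.Agent.P159.UJ.H664

/-- the expansion of the current of the cells of side `l` with constant `C` -/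
def CellW (b : ℝ) (l : ℕ) (C : ℝ) : Prop := ∀ n : ℕ,
  ∀ k ∈ cells n, ∀ (α : Ginf) (a : BI l → ℝ) (Y R : ℝ) (κ : ℕ), 0 < Y →
    (2 : ℝ) ^ κ * ((l : ℝ) * Y) ≤ 1 → 0 < R →
    (∀ e, ((a e : ℝ) : T) = α (cor l k + bu e) - α (cor l k + bv e)) → (∀ e, |a e| ≤ Y) →
    (∀ e e', hh e = hh e' → |a e - a e'| ≤ R) →
    ∃ Er : Ginf → ℝ, Continuous Er ∧ (∀ x, 0 ≤ Er x) ∧
      Ev b (l * n) 0 (fun x => Er x ^ (2 ^ (2 * κ))) ≤
        (C * (((2 : ℝ) ^ κ) ^ 3 * ((l : ℝ) ^ 2 * R + (l : ℝ) ^ 3 * Y ^ 2))) ^ (2 ^ (2 * κ)) ∧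
      ∀ h : BI l → ℝ, (h = hh ∨ h = vv) → ∀ x,
        |jc b l (cor l k) h (x + α) - jc b l (cor l k) h x -
            stiff l b * ∑ e, 1 / 2 * h e * a e| ≤
          2 * Y * (((l : ℝ) ^ 2 * stiff l b - qc b l (cor l k) hh x) +
            ((l : ℝ) ^ 2 * stiff l b - qc b l (cor l k) vv x)) + Er x

theorem cellW (B : ℝ) (hB : 0 < B) : ∃ C : ℝ, 1 ≤ C ∧ ∀ b : ℝ, 0 < b → b ≤ B → ∀ l : ℕ, 1 ≤ l →
    CellW b l C := by
  obtain ⟨C, hC, h⟩ := cellP B hB
  exact ⟨C, hC, fun b hb hbB l hl n k hk α a Y R κ hY hlY hR ha haY haR =>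
    h b hb hbB l n hl k hk α a Y R κ hY hlY hR ha haY haR⟩

theorem psi_bound4 {d X1 X2 X E3 E4 r : ℝ} (hd : 0 < d) (hr : 0 ≤ r) (h3 : 0 ≤ E3) (h4 : 0 ≤ E4)
    (hX : |X| ≤ E3 + E4) (N : ℕ) :
    psi d (X1 + X2 + X) ≤ (64 / d ^ 2) * X1 ^ 2 + (Real.exp (-(r * d / 8)) * Real.exp (r * X2) +
      Real.exp (-(r * d / 8)) * Real.exp (-r * X2)) + (8 / d) * E3 + ((8 / d) * E4) ^ N := by
  have p1 : 0 ≤ (64 / d ^ 2) * X1 ^ 2 := by positivity
  have p2 : 0 ≤ Real.exp (-(r * d / 8)) * Real.exp (r * X2) := by positivity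
  have p3 : 0 ≤ Real.exp (-(r * d / 8)) * Real.exp (-r * X2) := by positivity
  have p4 : 0 ≤ (8 / d) * E3 := by positivity
  have p5 : 0 ≤ ((8 / d) * E4) ^ N := by positivity
  by_cases h1 : d / 8 ≤ |X1|
  · have : 1 ≤ (64 / d ^ 2) * X1 ^ 2 := by
      rw [← sq_abs X1, div_mul_eq_mul_div, le_div_iff₀ (by positivity)]
      nlinarith only [hd, h1]
    linarith only [p2, p3, p4, p5, this, psi_le_one d (X1 + X2 + X)]
  by_cases h3' : d / 8 ≤ E3
  · have : 1 ≤ (8 / d) * E3 := by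
      rw [div_mul_eq_mul_div, le_div_iff₀ hd]
      linarith only [h3']
    linarith only [p1, p2, p3, p5, this, psi_le_one d (X1 + X2 + X)]
  by_cases h4' : d / 8 ≤ E4
  · have h : 1 ≤ (8 / d) * E4 := by
      rw [div_mul_eq_mul_div, le_div_iff₀ hd]
      linarith only [h4']
    have : 1 ≤ ((8 / d) * E4) ^ N := one_le_pow₀ h
    linarith only [p1, p2, p3, p4, this, psi_le_one d (X1 + X2 + X)]
  by_cases h2 : d / 8 ≤ |X2|
  · rcases le_total 0 X2 with h | h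
    · rw [abs_of_nonneg h] at h2
      have : 1 ≤ Real.exp (-(r * d / 8)) * Real.exp (r * X2) := by
        rw [← Real.exp_add]
        apply Real.one_le_exp
        nlinarith only [hr, h2]
      linarith only [p1, p3, p4, p5, this, psi_le_one d (X1 + X2 + X)]
    · rw [abs_of_nonpos h] at h2
      have : 1 ≤ Real.exp (-(r * d / 8)) * Real.exp (-r * X2) := by
        rw [← Real.exp_add]
        apply Real.one_le_exp
        nlinarith only [hr, h2]
      linarith only [p1, p2, p4, p5, this, psi_le_one d (X1 + X2 + X)]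
  · push Not at h1 h2 h3' h4'
    have a1 := abs_add_le (X1 + X2) X
    have a2 := abs_add_le X1 X2
    rw [psi_zero hd (by linarith only [h1, h2, h3', h4', a1, a2, hX])]
    linarith only [p1, p2, p3, p4, p5]

/-- power of a sum -/
theorem sum_pow_le {ι : Type*} (s : Finset ι) (f : ι → ℝ) (hf : ∀ i ∈ s, 0 ≤ f i) {c : ℝ}
    (hc : (s.card : ℝ) ≤ c) (N : ℕ) :
    (∑ i ∈ s, f i) ^ (N + 1) ≤ c ^ N * ∑ i ∈ s, f i ^ (N + 1) := by
  rcases s.eq_empty_or_nonempty with rfl | hs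
  · simp
  have h := pow_sum_div_card_le_sum_pow hf N
  have hcard : (0 : ℝ) < s.card := by exact_mod_cast hs.card_pos
  rw [div_le_iff₀ (by positivity)] at h
  refine h.trans ?_
  rw [mul_comm]
  refine mul_le_mul_of_nonneg_right (pow_le_pow_left₀ hcard.le hc N) ?_
  exact Finset.sum_nonneg fun i hi => pow_nonneg (hf i hi) _

/-- the tail bound with small errors -/
theorem tail_p {b : ℝ} (hb : 0 < b) {l : ℕ} (hl : 1 ≤ l) {C : ℝ} (hC : 1 ≤ C)
    (hcell : CellW b l C) :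
    ∀ (n : ℕ), 1 ≤ n → ∀ (S : Finset (ℤ × ℤ)), S ⊆ cells n → ∀ (α : Ginf)
      (a : ℤ × ℤ → BI l → ℝ) (Y R : ℝ) (κ : ℕ), 0 < Y → (2 : ℝ) ^ κ * ((l : ℝ) * Y) ≤ 1 → 0 < R →
      (∀ k ∈ cells n \ S, ∀ e, ((a k e : ℝ) : T) = α (cor l k + bu e) - α (cor l k + bv e)) →
      (∀ k ∈ cells n \ S, ∀ e, |a k e| ≤ Y) →
      (∀ k ∈ cells n \ S, ∀ e e', hh e = hh e' → |a k e - a k e'| ≤ R) →
      ∀ (h : BI l → ℝ), (h = hh ∨ h = vv) → ∀ d r : ℝ, 0 < d → 0 ≤ r →
      Ev b (l * n) 0 (fun x => psi d (∑ k ∈ cells n \ S, jc b l (cor l k) h (x + α) -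
        stiff l b * ∑ k ∈ cells n \ S, ∑ e, 1 / 2 * h e * a k e)) ≤
      64 / d ^ 2 * (((l * n : ℕ) : ℝ) ^ 2 * (stiff l b - stiff (l * n) b)) +
      2 * (Real.exp (-(r * d / 8)) * Real.exp (r ^ 2 / 2 * (S.card * (b * (l : ℝ) ^ 2)))) +
      8 / d * (4 * Y * (((l * n : ℕ) : ℝ) ^ 2 * (stiff l b - stiff (l * n) b))) +
      (8 / d * ((n : ℝ) ^ 2 * (C * (((2 : ℝ) ^ κ) ^ 3 * ((l : ℝ) ^ 2 * R + (l : ℝ) ^ 3 * Y ^ 2)))))
        ^ (2 ^ (2 * κ)) := by
  intro n hn S hS α a Y R κ hY hYY hR ha haY haR h hh' d r hd hr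
  obtain ⟨δ, hδ⟩ : ∃ δ, δ = ((l * n : ℕ) : ℝ) ^ 2 * (stiff l b - stiff (l * n) b) := ⟨_, rfl⟩
  rw [← hδ]
  obtain ⟨ε, hε⟩ : ∃ ε, ε = C * (((2 : ℝ) ^ κ) ^ 3 * ((l : ℝ) ^ 2 * R + (l : ℝ) ^ 3 * Y ^ 2)) :=
    ⟨_, rfl⟩
  rw [← hε]
  have hε0 : 0 ≤ ε := by rw [hε]; positivity
  obtain ⟨N, hN⟩ : ∃ N : ℕ, 2 ^ (2 * κ) = N + 1 := ⟨2 ^ (2 * κ) - 1, by
    have : 1 ≤ 2 ^ (2 * κ) := Nat.one_le_two_pow
    omega⟩
  rw [hN]
  set j : ℤ × ℤ → Ginf → ℝ := fun k => jc b l (cor l k) h with hj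
  have cj : ∀ k, Continuous (j k) := fun k => jc_cont b l (cor l k) h
  set Dh : ℤ × ℤ → Ginf → ℝ := fun k x => (l : ℝ) ^ 2 * stiff l b - qc b l (cor l k) hh x
    with hDh
  set Dv : ℤ × ℤ → Ginf → ℝ := fun k x => (l : ℝ) ^ 2 * stiff l b - qc b l (cor l k) vv x
    with hDv
  have cDh : ∀ k, Continuous (Dh k) := fun k => continuous_const.sub (qc_cont b l _ _)
  have cDv : ∀ k, Continuous (Dv k) := fun k => continuous_const.sub (qc_cont b l _ _)
  have pDh : ∀ k x, 0 ≤ Dh k x := fun k x => by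
    have := (qc_le hb.le hl (cor l k) x).1
    simp only [hDh]; linarith
  have pDv : ∀ k x, 0 ≤ Dv k x := fun k x => by
    have := (qc_le hb.le hl (cor l k) x).2
    simp only [hDv]; linarith
  -- second moment of the total current
  have v1 := var_h hb.le hl hn
  have v2 := var_v hb.le hl hn
  rw [← hδ] at v1 v2
  have n1 : 0 ≤ ∑ k ∈ cells n, Ev b (l * n) 0 (Dh k) :=
    Finset.sum_nonneg fun k _ => Ev_nonneg (pDh k)
  have n2 : 0 ≤ ∑ k ∈ cells n, Ev b (l * n) 0 (Dv k) :=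
    Finset.sum_nonneg fun k _ => Ev_nonneg (pDv k)
  have n3 : 0 ≤ Ev b (l * n) 0 (fun θ => (∑ k ∈ cells n, jc b l (cor l k) hh θ) ^ 2) :=
    Ev_nonneg fun _ => sq_nonneg _
  have n4 : 0 ≤ Ev b (l * n) 0 (fun θ => (∑ k ∈ cells n, jc b l (cor l k) vv θ) ^ 2) :=
    Ev_nonneg fun _ => sq_nonneg _
  have w1 : ∑ k ∈ cells n, Ev b (l * n) 0 (Dh k) ≤ δ := by
    have : ∑ k ∈ cells n, Ev b (l * n) 0 (Dh k) = ∑ k ∈ cells n, Ev b (l * n) 0
      (fun θ => (l : ℝ) ^ 2 * stiff l b - qc b l (cor l k) hh θ) := rfl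
    rw [this]; linarith
  have w2 : ∑ k ∈ cells n, Ev b (l * n) 0 (Dv k) ≤ δ := by
    have : ∑ k ∈ cells n, Ev b (l * n) 0 (Dv k) = ∑ k ∈ cells n, Ev b (l * n) 0
      (fun θ => (l : ℝ) ^ 2 * stiff l b - qc b l (cor l k) vv θ) := rfl
    rw [this]; linarith
  have w3 : Ev b (l * n) 0 (fun x => (∑ k ∈ cells n, j k x) ^ 2) ≤ δ := by
    rcases hh' with rfl | rfl
    · have : Ev b (l * n) 0 (fun x => (∑ k ∈ cells n, j k x) ^ 2) =
        Ev b (l * n) 0 (fun θ => (∑ k ∈ cells n, jc b l (cor l k) hh θ) ^ 2) := rfl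
      rw [this]
      have e1 : ∑ k ∈ cells n, Ev b (l * n) 0 (Dh k) = ∑ k ∈ cells n, Ev b (l * n) 0
        (fun θ => (l : ℝ) ^ 2 * stiff l b - qc b l (cor l k) hh θ) := rfl
      rw [e1] at n1
      linarith
    · have : Ev b (l * n) 0 (fun x => (∑ k ∈ cells n, j k x) ^ 2) =
        Ev b (l * n) 0 (fun θ => (∑ k ∈ cells n, jc b l (cor l k) vv θ) ^ 2) := rfl
      rw [this]
      have e1 : ∑ k ∈ cells n, Ev b (l * n) 0 (Dv k) = ∑ k ∈ cells n, Ev b (l * n) 0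
        (fun θ => (l : ℝ) ^ 2 * stiff l b - qc b l (cor l k) vv θ) := rfl
      rw [e1] at n2
      linarith
  -- cell expansion
  have hE : ∀ k : ℤ × ℤ, ∃ E : Ginf → ℝ, Continuous E ∧ (∀ x, 0 ≤ E x) ∧
      Ev b (l * n) 0 (fun x => E x ^ (N + 1)) ≤ ε ^ (N + 1) ∧
      (k ∈ cells n \ S → ∀ x, |j k (x + α) - j k x -
        stiff l b * ∑ e, 1 / 2 * h e * a k e| ≤ 2 * Y * (Dh k x + Dv k x) + E x) := by
    intro k
    by_cases hk : k ∈ cells n \ S
    · obtain ⟨E, h1, h2, h3, h4⟩ := hcell n k (Finset.mem_sdiff.1 hk).1 α (a k) Y R κ hY hYY hR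
        (ha k hk) (haY k hk) (haR k hk)
      rw [← hε, hN] at h3
      exact ⟨E, h1, h2, h3, fun _ x => h4 h hh' x⟩
    · refine ⟨fun _ => 0, continuous_const, fun _ => le_rfl, ?_, fun hk' => absurd hk' hk⟩
      simp only [ne_eq, Nat.add_eq_zero_iff, one_ne_zero, and_false, not_false_eq_true, zero_pow]
      rw [Ev_zero_const]
      positivity
  choose Er cEr pEr mEr bEr using hE
  -- the third and the fourth terms
  set E3 : Ginf → ℝ := fun x => ∑ k ∈ cells n, 2 * Y * (Dh k x + Dv k x) with hE3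
  set E4 : Ginf → ℝ := fun x => ∑ k ∈ cells n, Er k x with hE4
  have cE3 : Continuous E3 := continuous_finsetSum _ fun k _ =>
    continuous_const.mul ((cDh k).add (cDv k))
  have cE4 : Continuous E4 := continuous_finsetSum _ fun k _ => cEr k
  have pE3 : ∀ x, 0 ≤ E3 x := fun x => Finset.sum_nonneg fun k _ => by
    have := pDh k x
    have := pDv k x
    positivity
  have pE4 : ∀ x, 0 ≤ E4 x := fun x => Finset.sum_nonneg fun k _ => pEr k x
  have hsplit : ∀ x, ∑ k ∈ cells n \ S, j k (x + α) -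
      stiff l b * ∑ k ∈ cells n \ S, ∑ e, 1 / 2 * h e * a k e =
      ∑ k ∈ cells n, j k x + (-∑ k ∈ S, j k x) +
        ∑ k ∈ cells n \ S, (j k (x + α) - j k x - stiff l b * ∑ e, 1 / 2 * h e * a k e) := by
    intro x
    rw [Finset.sum_sub_distrib, Finset.sum_sub_distrib, ← Finset.mul_sum]
    have := Finset.sum_sdiff (f := fun k => j k x) hS
    linarith only [this]
  have h34 : ∀ x, |∑ k ∈ cells n \ S, (j k (x + α) - j k x -
      stiff l b * ∑ e, 1 / 2 * h e * a k e)| ≤ E3 x + E4 x := by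
    intro x
    refine (Finset.abs_sum_le_sum_abs _ _).trans ?_
    refine (Finset.sum_le_sum fun k hk => bEr k hk x).trans ?_
    simp only [hE3, hE4]
    rw [← Finset.sum_add_distrib]
    refine Finset.sum_le_sum_of_subset_of_nonneg Finset.sdiff_subset fun k _ _ => ?_
    have := pDh k x
    have := pDv k x
    have := pEr k x
    positivity
  have hpt : ∀ x, psi d (∑ k ∈ cells n \ S, jc b l (cor l k) h (x + α) -
        stiff l b * ∑ k ∈ cells n \ S, ∑ e, 1 / 2 * h e * a k e) ≤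
      (64 / d ^ 2) * (∑ k ∈ cells n, j k x) ^ 2 +
      (Real.exp (-(r * d / 8)) * Real.exp (-r * ∑ k ∈ S, j k x) +
      Real.exp (-(r * d / 8)) * Real.exp (r * ∑ k ∈ S, j k x)) + (8 / d) * E3 x +
      (8 / d) ^ (N + 1) * E4 x ^ (N + 1) := by
    intro x
    have := psi_bound4 (d := d) (X1 := ∑ k ∈ cells n, j k x) (X2 := -∑ k ∈ S, j k x)
      (X := ∑ k ∈ cells n \ S, (j k (x + α) - j k x - stiff l b * ∑ e, 1 / 2 * h e * a k e))
      (r := r) hd hr (pE3 x) (pE4 x) (h34 x) (N + 1)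
    rw [← hsplit] at this
    refine this.trans (le_of_eq ?_)
    have e1 : r * -∑ k ∈ S, j k x = -r * ∑ k ∈ S, j k x := by ring
    have e2 : -r * -∑ k ∈ S, j k x = r * ∑ k ∈ S, j k x := by ring
    rw [e1, e2, mul_pow]
  have cA : Continuous (fun x : Ginf => (64 / d ^ 2) * (∑ k ∈ cells n, j k x) ^ 2) :=
    continuous_const.mul ((continuous_finsetSum _ fun k _ => cj k).pow 2)
  have cS : Continuous (fun x : Ginf => ∑ k ∈ S, j k x) := continuous_finsetSum _ fun k _ => cj k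
  have cB1 : Continuous (fun x : Ginf => Real.exp (-(r * d / 8)) *
      Real.exp (-r * ∑ k ∈ S, j k x)) :=
    continuous_const.mul (Real.continuous_exp.comp (continuous_const.mul cS))
  have cB2 : Continuous (fun x : Ginf => Real.exp (-(r * d / 8)) *
      Real.exp (r * ∑ k ∈ S, j k x)) :=
    continuous_const.mul (Real.continuous_exp.comp (continuous_const.mul cS))
  have cB : Continuous (fun x : Ginf => Real.exp (-(r * d / 8)) *
      Real.exp (-r * ∑ k ∈ S, j k x) + Real.exp (-(r * d / 8)) *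
      Real.exp (r * ∑ k ∈ S, j k x)) := cB1.add cB2
  have cC : Continuous (fun x : Ginf => (8 / d) * E3 x) := continuous_const.mul cE3
  have cD : Continuous (fun x : Ginf => (8 / d) ^ (N + 1) * E4 x ^ (N + 1)) :=
    continuous_const.mul (cE4.pow _)
  have cAB : Continuous (fun x : Ginf => (64 / d ^ 2) * (∑ k ∈ cells n, j k x) ^ 2 +
      (Real.exp (-(r * d / 8)) * Real.exp (-r * ∑ k ∈ S, j k x) +
      Real.exp (-(r * d / 8)) * Real.exp (r * ∑ k ∈ S, j k x))) := cA.add cB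
  have cL : Continuous (fun x : Ginf => psi d (∑ k ∈ cells n \ S, jc b l (cor l k) h (x + α) -
        stiff l b * ∑ k ∈ cells n \ S, ∑ e, 1 / 2 * h e * a k e)) := by
    refine (psi_cont d).comp (Continuous.sub ?_ continuous_const)
    exact continuous_finsetSum _ fun k _ =>
      (jc_cont b l (cor l k) h).comp (continuous_id.add continuous_const)
  have cABC : Continuous (fun x : Ginf => (64 / d ^ 2) * (∑ k ∈ cells n, j k x) ^ 2 +
      (Real.exp (-(r * d / 8)) * Real.exp (-r * ∑ k ∈ S, j k x) +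
      Real.exp (-(r * d / 8)) * Real.exp (r * ∑ k ∈ S, j k x)) + (8 / d) * E3 x) := cAB.add cC
  have cABCD : Continuous (fun x : Ginf => (64 / d ^ 2) * (∑ k ∈ cells n, j k x) ^ 2 +
      (Real.exp (-(r * d / 8)) * Real.exp (-r * ∑ k ∈ S, j k x) +
      Real.exp (-(r * d / 8)) * Real.exp (r * ∑ k ∈ S, j k x)) + (8 / d) * E3 x +
      (8 / d) ^ (N + 1) * E4 x ^ (N + 1)) := cABC.add cD
  refine (Ev_mono cL cABCD hpt).trans ?_
  rw [Ev_add cABC cD, Ev_add cAB cC, Ev_add cA cB, Ev_add cB1 cB2, Ev_const_mul, Ev_const_mul,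
    Ev_const_mul, Ev_const_mul, Ev_const_mul]
  -- exponential moments
  have hsum : ∑ _k ∈ S, ∑ e : BI l, b / 2 * h e ^ 2 = S.card * (b * (l : ℝ) ^ 2) := by
    have : ∑ e : BI l, b / 2 * h e ^ 2 = b * (l : ℝ) ^ 2 := by
      rcases hh' with rfl | rfl
      · exact sum_hh_sq b l
      · exact sum_vv_sq b l
    rw [this, Finset.sum_const, nsmul_eq_mul]
  have x1 := exp_bound hb.le hl S hS h (-r)
  have x2 := exp_bound hb.le hl S hS h r
  rw [hsum] at x1 x2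
  have e0 : (-r) ^ 2 = r ^ 2 := by ring
  rw [e0] at x1
  have hcard : ((cells n).card : ℝ) = (n : ℝ) ^ 2 := by
    unfold cells
    rw [Finset.card_product, Int.card_Ico]
    simp
    ring
  have hE3b : Ev b (l * n) 0 E3 ≤ 4 * Y * δ := by
    have f1 : Ev b (l * n) 0 E3 = ∑ k ∈ cells n, Ev b (l * n) 0 (fun x =>
        2 * Y * (Dh k x + Dv k x)) :=
      Ev_sum _ _ fun k _ => continuous_const.mul ((cDh k).add (cDv k))
    have f2 : ∀ k, Ev b (l * n) 0 (fun x => 2 * Y * (Dh k x + Dv k x)) =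
        2 * Y * (Ev b (l * n) 0 (Dh k) + Ev b (l * n) 0 (Dv k)) := by
      intro k
      rw [Ev_const_mul, Ev_add (cDh k) (cDv k)]
    rw [f1]
    simp_rw [f2]
    rw [← Finset.mul_sum, Finset.sum_add_distrib]
    have := mul_le_mul_of_nonneg_left (add_le_add w1 w2) (by positivity : 0 ≤ 2 * Y)
    linarith only [this]
  have hE4b : Ev b (l * n) 0 (fun x => E4 x ^ (N + 1)) ≤ ((n : ℝ) ^ 2 * ε) ^ (N + 1) := by
    have cR : Continuous (fun x => ((n : ℝ) ^ 2) ^ N * ∑ k ∈ cells n, Er k x ^ (N + 1)) :=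
      continuous_const.mul (continuous_finsetSum _ fun k _ => (cEr k).pow _)
    have f0 := Ev_mono (b := b) (L := l * n) (v := 0) (F := fun x => E4 x ^ (N + 1)) (cE4.pow _) cR
      (fun x => sum_pow_le (cells n) (fun k => Er k x) (fun k _ => pEr k x) hcard.le N)
    refine f0.trans ?_
    rw [Ev_const_mul, Ev_sum (cells n) (fun k x => Er k x ^ (N + 1)) fun k _ => (cEr k).pow _]
    have f1 : ∑ k ∈ cells n, Ev b (l * n) 0 (fun x => Er k x ^ (N + 1)) ≤
        (n : ℝ) ^ 2 * ε ^ (N + 1) := by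
      refine (Finset.sum_le_sum fun k _ => mEr k).trans (le_of_eq ?_)
      rw [Finset.sum_const, nsmul_eq_mul, hcard]
    refine (mul_le_mul_of_nonneg_left f1 (by positivity)).trans (le_of_eq ?_)
    rw [mul_pow, pow_succ ((n : ℝ) ^ 2) N]
    ring
  have g1 := mul_le_mul_of_nonneg_left w3 (by positivity : 0 ≤ 64 / d ^ 2)
  have g2 := mul_le_mul_of_nonneg_left x1 (Real.exp_pos (-(r * d / 8))).le
  have g3 := mul_le_mul_of_nonneg_left x2 (Real.exp_pos (-(r * d / 8))).le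
  have g4 := mul_le_mul_of_nonneg_left hE3b (by positivity : 0 ≤ 8 / d)
  have g5 := mul_le_mul_of_nonneg_left hE4b (by positivity : 0 ≤ (8 / d) ^ (N + 1))
  rw [← mul_pow] at g5
  linarith only [g1, g2, g3, g4, g5]

end Vale.Agent.P159.UJ.H733
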