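import Vale.Agent.P159.H733.Til

/-!
P159: the tiling of the big block by the cores at the positions `p ∈ Q` and the cells outside of
the cores.
-/

set_option linter.all false

open MeasureTheory Filter Topology
open scoped BigOperators

namespace Vale.Agent.P159.UJ.H733

open Vale.Agent.P159 Vale.Agent.P159.UJ

/-- sides of the blocks -/
def sdQ (l m : ℕ) : (ℕ × ℕ) ⊕ (ℤ × ℤ) → ℕ
  | Sum.inl _ => l * m
  | Sum.inr _ => l

/-- corners of the blocks -/
def cnQ (l m K M : ℕ) : (ℕ × ℕ) ⊕ (ℤ × ℤ) → ℤ × ℤ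
  | Sum.inl p => cnr l m K M p.1 p.2
  | Sum.inr k => cor l k

/-- cells outside of the cores with positions in `Q` -/
noncomputable def outQ (m K M : ℕ) (Q : Finset (ℕ × ℕ)) : Finset (ℤ × ℤ) :=
  cells (m * NN K M) \ Q.biUnion fun p => core m K M p.1 p.2

/-- the blocks -/
noncomputable def blQ (m K M : ℕ) (Q : Finset (ℕ × ℕ)) : Finset ((ℕ × ℕ) ⊕ (ℤ × ℤ)) :=
  Q.disjSum (outQ m K M Q)

theorem outQ_not_core {m K M : ℕ} {Q : Finset (ℕ × ℕ)} {k : ℤ × ℤ} (hk : k ∈ outQ m K M Q)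
    {p : ℕ × ℕ} (hp : p ∈ Q) : k ∉ core m K M p.1 p.2 := by
  intro h
  exact (Finset.mem_sdiff.1 hk).2 (Finset.mem_biUnion.2 ⟨p, hp, h⟩)

theorem outQ_sub_outer {m K M : ℕ} {Q : Finset (ℕ × ℕ)} {p : ℕ × ℕ} (hp : p ∈ Q) :
    outQ m K M Q ⊆ outer m K M p.1 p.2 := by
  intro k hk
  exact Finset.mem_sdiff.2 ⟨(Finset.mem_sdiff.1 hk).1, outQ_not_core hk hp⟩

theorem outQ_pair {m K M : ℕ} (p q : ℕ × ℕ) : outQ m K M {p, q} =
    cells (m * NN K M) \ (core m K M p.1 p.2 ∪ core m K M q.1 q.2) := by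
  unfold outQ
  congr 1
  ext k
  simp only [Finset.mem_biUnion, Finset.mem_insert, Finset.mem_singleton, exists_eq_or_imp,
    exists_eq_left, Finset.mem_union]

theorem core_out {m K M : ℕ} {p : ℕ × ℕ} {k : ℤ × ℤ} (h : k ∉ core m K M p.1 p.2) :
    (k.1 < (ccell m K M p.1 p.2).1 ∨ (ccell m K M p.1 p.2).1 + m ≤ k.1) ∨
      (k.2 < (ccell m K M p.1 p.2).2 ∨ (ccell m K M p.1 p.2).2 + m ≤ k.2) := by
  rw [hel1_core] at h
  by_contra hc
  push Not at hc
  exact h ⟨⟨by omega, by omega⟩, by omega, by omega⟩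

theorem cnr_cor (l m K M : ℕ) (p : ℕ × ℕ) : cnr l m K M p.1 p.2 =
    cor (l * m) ((4 * K * M + K * p.1 : ℤ), (4 * K * M + K * p.2 : ℤ)) := by
  unfold cnr cor ccell
  ext
  · push_cast; ring
  · push_cast; ring

theorem bp_inj {K M : ℕ} (hK : 1 ≤ K) {p q : ℕ × ℕ} (h : p ≠ q) :
    ((4 * K * M + K * p.1 : ℤ), (4 * K * M + K * p.2 : ℤ)) ≠
      ((4 * K * M + K * q.1 : ℤ), (4 * K * M + K * q.2 : ℤ)) := by
  intro he
  apply h
  have hK' : (K : ℤ) ≠ 0 := by exact_mod_cast (by omega : K ≠ 0)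
  have h1 : (4 * K * M + K * p.1 : ℤ) = 4 * K * M + K * q.1 := congrArg Prod.fst he
  have h2 : (4 * K * M + K * p.2 : ℤ) = 4 * K * M + K * q.2 := congrArg Prod.snd he
  have h3 : (K : ℤ) * p.1 = K * q.1 := by linarith only [h1]
  have h4 : (K : ℤ) * p.2 = K * q.2 := by linarith only [h2]
  have h5 := mul_left_cancel₀ hK' h3
  have h6 := mul_left_cancel₀ hK' h4
  exact Prod.ext (by exact_mod_cast h5) (by exact_mod_cast h6)

/-- two different cores have no cell in common -/
theorem core_disj {m K M : ℕ} (hK : 1 ≤ K) {p q : ℕ × ℕ} (h : p ≠ q) :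
    Disjoint (core m K M p.1 p.2) (core m K M q.1 q.2) := by
  rw [Finset.disjoint_left]
  intro k hk hk'
  rw [hel1_core] at hk hk'
  unfold ccell at hk hk'
  simp only at hk hk'
  obtain ⟨⟨a1, a2⟩, a3, a4⟩ := hk
  obtain ⟨⟨b1, b2⟩, b3, b4⟩ := hk'
  have hm0 : (0 : ℤ) ≤ m := Int.natCast_nonneg m
  have key : ∀ u v : ℕ, (m : ℤ) * (4 * K * M + K * u) < (m : ℤ) * (4 * K * M + K * v) + m →
      ¬ v < u := by
    intro u v h1 h2
    have h3 : (v : ℤ) + 1 ≤ u := by exact_mod_cast h2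
    have hK' : (1 : ℤ) ≤ K := by exact_mod_cast hK
    have h4 : (K : ℤ) * v + 1 ≤ K * u := by nlinarith only [h3, hK']
    have h5 := mul_le_mul_of_nonneg_left h4 hm0
    linarith only [h1, h5]
  have e1 : ¬ q.1 < p.1 := key _ _ (by linarith only [a1, b2])
  have e2 : ¬ p.1 < q.1 := key _ _ (by linarith only [b1, a2])
  have e3 : ¬ q.2 < p.2 := key _ _ (by linarith only [a3, b4])
  have e4 : ¬ p.2 < q.2 := key _ _ (by linarith only [b3, a4])
  apply h
  exact Prod.ext (by omega) (by omega)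

theorem core_sub {m K M : ℕ} {p : ℕ × ℕ} (h1 : p.1 < M) (h2 : p.2 < M) :
    core m K M p.1 p.2 ⊆ cells (m * NN K M) := by
  intro k hk
  rw [hel1_core] at hk
  rw [hel1_cells]
  obtain ⟨h1, h2⟩ := hel1_ccell (m := m) (K := K) h1 h2
  exact ⟨⟨by omega, by (clear * - hk h1; omega)⟩, by omega, by omega⟩

theorem core_card (m K M i j : ℕ) : (core m K M i j).card = m ^ 2 := by
  unfold core
  rw [Finset.card_product, Int.card_Ico, Int.card_Ico]
  simp only [add_sub_cancel_left, Int.toNat_natCast]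
  ring

/-- energy of a core as the sum over its cells -/
theorem core_split (b : ℝ) {l m K M i j : ℕ} (hl : 1 ≤ l) (θ : Ginf) :
    ∑ k ∈ core m K M i j, EB b l (cor l k) θ = EB b (l * m) (cnr l m K M i j) θ := by
  rw [EB_split b hl m (cnr l m K M i j) θ]
  symm
  refine Finset.sum_bij (fun k _ => ccell m K M i j + k) ?_ ?_ ?_ ?_
  · intro k hk
    rw [hel1_cells] at hk
    rw [hel1_core, Prod.fst_add, Prod.snd_add]
    exact ⟨⟨by omega, by omega⟩, by omega, by omega⟩
  · intro k _ k' _ h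
    exact add_left_cancel h
  · intro k hk
    rw [hel1_core] at hk
    refine ⟨k - ccell m K M i j, ?_, by abel⟩
    rw [hel1_cells, Prod.fst_sub, Prod.snd_sub]
    exact ⟨⟨by omega, by omega⟩, by omega, by omega⟩
  · intro k _
    congr 1
    unfold cnr cor
    ext
    · simp only [Prod.fst_add]
      ring
    · simp only [Prod.snd_add]
      ring

/-- the tiling -/
theorem tilQ {l m K M : ℕ} (hl : 1 ≤ l) (hK : 1 ≤ K) {Q : Finset (ℕ × ℕ)}
    (hQ : ∀ p ∈ Q, p.1 < M ∧ p.2 < M) :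
    Til (l * m * NN K M) (blQ m K M Q) (sdQ l m) (cnQ l m K M) where
  disj := by
    intro κ hκ κ' hκ' hne z hz hz2
    unfold blQ at hκ hκ'
    cases κ with
    | inl p =>
      rw [Finset.inl_mem_disjSum] at hκ
      cases κ' with
      | inl q =>
        simp only [sdQ, cnQ, cnr_cor] at hz hz2
        have hpq : p ≠ q := fun h => hne (by rw [h])
        exact hel1_cells_disj (bp_inj hK hpq) hz hz2
      | inr k =>
        rw [Finset.inr_mem_disjSum] at hκ'
        simp only [sdQ, cnQ] at hz hz2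
        rw [hel1_mem_clB] at hz2
        rw [hel1_mem_inB] at hz
        simp only [cnr, cor] at hz hz2
        rcases core_out (outQ_not_core hκ' hκ) with h | h
        · exact (hel1_core_aux (l := l) h).1 ⟨hz.1, hz2.1⟩
        · exact (hel1_core_aux (l := l) h).1 ⟨hz.2, hz2.2⟩
    | inr k =>
      rw [Finset.inr_mem_disjSum] at hκ
      cases κ' with
      | inl q =>
        rw [Finset.inl_mem_disjSum] at hκ'
        simp only [sdQ, cnQ] at hz hz2
        rw [hel1_mem_clB] at hz2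
        rw [hel1_mem_inB] at hz
        simp only [cnr, cor] at hz hz2
        rcases core_out (outQ_not_core hκ hκ') with h | h
        · exact (hel1_core_aux (l := l) h).2 ⟨hz2.1, hz.1⟩
        · exact (hel1_core_aux (l := l) h).2 ⟨hz2.2, hz.2⟩
      | inr k' =>
        exact hel1_cells_disj (fun h => hne (by rw [h])) hz hz2
  sub := by
    intro κ hκ z hz
    unfold blQ at hκ
    rw [hel1_mem_inB] at hz ⊢
    have aux : ∀ (a x : ℤ) (n : ℕ), 0 ≤ a → a + n ≤ (m * NN K M : ℕ) →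
        (l : ℤ) * a + 1 ≤ x → x ≤ (l : ℤ) * a + (l * n : ℕ) - 1 →
        (0 : ℤ) + 1 ≤ x ∧ x ≤ 0 + (l * m * NN K M : ℕ) - 1 := by
      intro a x n h0 h1 h2 h3
      have h4 := hel1_mul_le (l := l) h0
      have h5 := hel1_mul_le (l := l) h1
      push_cast at h3 h5 ⊢
      constructor
      · linarith only [h2, h4]
      · have : (l : ℤ) * (m * NN K M) = l * m * NN K M := by ring
        linarith only [h3, h5]
    cases κ with
    | inl p =>
      rw [Finset.inl_mem_disjSum] at hκ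
      simp only [sdQ, cnQ, cnr, cor] at hz
      obtain ⟨h1, h2⟩ := hel1_ccell (m := m) (K := K) (hQ p hκ).1 (hQ p hκ).2
      exact ⟨aux _ _ m h1.1 h1.2 hz.1.1 hz.1.2, aux _ _ m h2.1 h2.2 hz.2.1 hz.2.2⟩
    | inr k =>
      rw [Finset.inr_mem_disjSum] at hκ
      have hc := (Finset.mem_sdiff.1 hκ).1
      rw [hel1_cells] at hc
      simp only [sdQ, cnQ, cor] at hz
      exact ⟨aux _ _ 1 hc.1.1 (by omega) hz.1.1 (by rw [mul_one]; exact hz.1.2),
        aux _ _ 1 hc.2.1 (by omega) hz.2.1 (by rw [mul_one]; exact hz.2.2)⟩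
  split := by
    intro b θ
    have h1 : EB b (l * m * NN K M) 0 θ = ∑ k ∈ cells (m * NN K M), EB b l (cor l k) θ := by
      rw [mul_assoc, EB_split b hl (m * NN K M) 0 θ]
      exact Finset.sum_congr rfl fun k _ => by rw [zero_add]
    have hsub : (Q.biUnion fun p => core m K M p.1 p.2) ⊆ cells (m * NN K M) := by
      intro k hk
      obtain ⟨p, hp, hk⟩ := Finset.mem_biUnion.1 hk
      exact core_sub (hQ p hp).1 (hQ p hp).2 hk
    have h2 : ∑ k ∈ Q.biUnion (fun p => core m K M p.1 p.2), EB b l (cor l k) θ =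
        ∑ p ∈ Q, EB b (l * m) (cnr l m K M p.1 p.2) θ := by
      rw [Finset.sum_biUnion]
      · exact Finset.sum_congr rfl fun p _ => core_split b hl θ
      · intro p _ q _ hpq
        exact core_disj hK hpq
    rw [h1, blQ, Finset.sum_disjSum]
    simp only [sdQ, cnQ]
    rw [← h2, outQ, add_comm, Finset.sum_sdiff hsub]

/-- the total current outside of the cores is a function of the skeleton -/
theorem TT_skel (b : ℝ) {l m K M : ℕ} (hl : 1 ≤ l) (h : BI l → ℝ) (Q : Finset (ℕ × ℕ)) :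
    Skel (blQ m K M Q) (sdQ l m) (cnQ l m K M) (TT b l h (outQ m K M Q)) := by
  intro κ hκ x y
  unfold blQ at hκ
  cases κ with
  | inl p =>
    rw [Finset.inl_mem_disjSum] at hκ
    exact TT_inv2 b hl h (fun k hk => outQ_not_core hk hκ) x y
  | inr k =>
    exact TT_inv1 b l h _ k x y

/-- the dipole configuration vanishes outside of the big block -/
theorem dip_PB {l m K M : ℕ} (p q : ℕ × ℕ) (hL : 4 ≤ l * m * NN K M) :
    PB (l * m * NN K M) 0 (alp l m K M q.1 q.2 - alp l m K M p.1 p.2) =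
      alp l m K M q.1 q.2 - alp l m K M p.1 p.2 := by
  have h1 := hel1_alp (l := l) (m := m) (K := K) (M := M) q.1 q.2 hL
  have h2 := hel1_alp (l := l) (m := m) (K := K) (M := M) p.1 p.2 hL
  have e : alp l m K M q.1 q.2 - alp l m K M p.1 p.2 =
      (alp l m K M q.1 q.2 - ang (l * m * NN K M) 0) -
        (alp l m K M p.1 p.2 - ang (l * m * NN K M) 0) := by abel
  rw [e, map_sub, h1, h2]

end Vale.Agent.P159.UJ.H733
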