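import Vale.Agent.P159.H462.In3
import Vale.Agent.P159.TM.H459.Tor

/-!
P159 / TORG (helper733), part A: random walk kernels on two tori `N ∣ N2`.
`tail`: `∑_{sn z ≥ r} (S^m) 0 z ≤ 4 e^{C1} e^{-κ r/(2 √T)}`, `m ≤ T`;
`Per`: the small torus kernel is the periodization of the large one; stable under products.
-/

set_option linter.unusedSectionVars false

namespace Vale.Agent.P159.H733.Torg

open Finset Matrix
open Vale.Agent.P159.TM.H764 (cN sN dt EE)
open Vale.Agent.P159.TM.Spec (V)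
open Vale.Agent.P159.H864 (TI sym mlt fc)
open Vale.Agent.P159.TM.H459 (sn)

noncomputable section

variable {N N2 : ℕ} [NeZero N] [NeZero N2]

/-! ### absolute value on `ZMod N` -/

/-- distance to `0` on the cycle -/
def av (a : ZMod N) : ℕ := a.valMinAbs.natAbs

lemma av_le_of_cast {a : ZMod N} {y : ℤ} (h : (y : ZMod N) = a) : av a ≤ y.natAbs :=
  ZMod.natAbs_min_of_le_div_two N a.valMinAbs y (by rw [h]; exact ZMod.coe_valMinAbs a)
    (ZMod.natAbs_valMinAbs_le a)

lemma av_add_le (a b : ZMod N) : av (a + b) ≤ (a.valMinAbs + b.valMinAbs).natAbs :=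
  av_le_of_cast (by push_cast; simp)

lemma av_sub_le (a b : ZMod N) : av (a - b) ≤ (a.valMinAbs - b.valMinAbs).natAbs :=
  av_le_of_cast (by push_cast; simp)

lemma sn_eq (z : V N) : sn z = max (av z.1) (av z.2) := rfl

/-- `cosh (θ |a|)` -/
def psi (θ : ℝ) (a : ZMod N) : ℝ := Real.cosh (θ * av a)

lemma psi_pos (θ : ℝ) (a : ZMod N) : 0 < psi θ a := Real.cosh_pos _

lemma abs_nat (y : ℤ) : ((y.natAbs : ℕ) : ℝ) = |(y : ℝ)| := by
  rw [Nat.cast_natAbs, Int.cast_abs]

lemma psi_val (θ : ℝ) (a : ZMod N) : psi θ a = Real.cosh (θ * (a.valMinAbs : ℝ)) := by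
  unfold psi av
  rw [abs_nat, ← Real.cosh_abs (θ * |_|), ← Real.cosh_abs (θ * (a.valMinAbs : ℝ)), abs_mul,
    abs_mul, abs_abs]

lemma psi_le {θ : ℝ} {a : ZMod N} {y : ℤ} (h : av a ≤ y.natAbs) :
    psi θ a ≤ Real.cosh (θ * (y : ℝ)) := by
  unfold psi
  rw [Real.cosh_le_cosh, abs_mul, abs_mul]
  refine mul_le_mul_of_nonneg_left ?_ (abs_nonneg _)
  rw [Nat.abs_cast, ← abs_nat]
  exact_mod_cast h

lemma psi_add (θ : ℝ) (a b : ZMod N) : psi θ (a + b) + psi θ (a - b) ≤ 2 * psi θ a * psi θ b := by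
  have h1 := psi_le (θ := θ) (av_add_le a b)
  have h2 := psi_le (θ := θ) (av_sub_le a b)
  have h3 : Real.cosh (θ * ((a.valMinAbs + b.valMinAbs : ℤ) : ℝ)) +
      Real.cosh (θ * ((a.valMinAbs - b.valMinAbs : ℤ) : ℝ)) = 2 * psi θ a * psi θ b := by
    rw [psi_val, psi_val]
    push_cast
    rw [mul_add, mul_sub, Real.cosh_add, Real.cosh_sub]
    ring
  linarith

/-! ### powers of a walk kernel -/

variable {S : Matrix (V N) (V N) ℝ}

lemma TI_row (hS : TI S) (g : V N → ℝ) (x : V N) : (S *ᵥ g) x = ∑ z, S 0 z * g (x + z) := by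
  unfold Matrix.mulVec dotProduct
  rw [← Equiv.sum_comp (Equiv.addLeft x)]
  refine Finset.sum_congr rfl fun z _ => ?_
  simp only [Equiv.coe_addLeft]
  rw [hS.eq, add_sub_cancel_left]

lemma TI_row_neg (hS : TI S) (g : V N → ℝ) (x : V N) :
    (S *ᵥ g) x = ∑ z, S 0 z * g (x - z) := by
  rw [TI_row hS, ← Equiv.sum_comp (Equiv.neg (V N))]
  refine Finset.sum_congr rfl fun z _ => ?_
  simp only [Equiv.neg_apply]
  rw [hS.ev, ← sub_eq_add_neg]

lemma pow_nonneg' (h0 : ∀ x y, 0 ≤ S x y) (m : ℕ) (x y : V N) : 0 ≤ (S ^ m) x y := by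
  induction m generalizing y with
  | zero =>
    rw [pow_zero, Matrix.one_apply]
    split_ifs <;> norm_num
  | succ m ih =>
    rw [pow_succ, Matrix.mul_apply]
    exact Finset.sum_nonneg fun z _ => mul_nonneg (ih z) (h0 _ _)

lemma pow_row (h1 : ∀ x, ∑ y, S x y = 1) (m : ℕ) (x : V N) : ∑ y, (S ^ m) x y = 1 := by
  induction m with
  | zero => rw [pow_zero]; simp [Matrix.one_apply]
  | succ m ih =>
    rw [pow_succ]
    simp_rw [Matrix.mul_apply]
    rw [Finset.sum_comm]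
    simp_rw [← Finset.mul_sum, h1, mul_one]
    exact ih

lemma pow_psi (hS : TI S) (h0 : ∀ x y, 0 ≤ S x y) (p : V N →+ ZMod N) (θ : ℝ) (m : ℕ) :
    ∑ z, (S ^ m) 0 z * psi θ (p z) ≤ (∑ z, S 0 z * psi θ (p z)) ^ m := by
  have hq : 0 ≤ ∑ z, S 0 z * psi θ (p z) :=
    Finset.sum_nonneg fun z _ => mul_nonneg (h0 _ _) (psi_pos _ _).le
  induction m with
  | zero =>
    rw [pow_zero, pow_zero]
    simp only [Matrix.one_apply, ite_mul, one_mul, zero_mul, Finset.sum_ite_eq, mem_univ, if_true,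
      map_zero]
    unfold psi av
    simp
  | succ m ih =>
    have e1 : ∑ z, (S ^ (m + 1)) 0 z * psi θ (p z) =
        ∑ y, (S ^ m) 0 y * ∑ z, S y z * psi θ (p z) := by
      rw [pow_succ]
      simp_rw [Matrix.mul_apply, Finset.sum_mul]
      rw [Finset.sum_comm]
      refine Finset.sum_congr rfl fun y _ => ?_
      rw [Finset.mul_sum]
      refine Finset.sum_congr rfl fun z _ => ?_
      ring
    have e2 : ∀ y : V N, ∑ z, S y z * psi θ (p z) ≤ psi θ (p y) * ∑ z, S 0 z * psi θ (p z) := by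
      intro y
      have f1 := TI_row hS (fun z => psi θ (p z)) y
      have f2 := TI_row_neg hS (fun z => psi θ (p z)) y
      have f3 : (S *ᵥ fun z => psi θ (p z)) y = ∑ z, S y z * psi θ (p z) := rfl
      rw [f3] at f1 f2
      have f4 : 2 * ∑ z, S y z * psi θ (p z) =
          ∑ z, S 0 z * (psi θ (p y + p z) + psi θ (p y - p z)) := by
        simp_rw [mul_add]
        rw [Finset.sum_add_distrib, two_mul]
        nth_rewrite 1 [f1]
        rw [f2]
        simp only [map_add, map_sub]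
      have f5 : ∑ z, S 0 z * (psi θ (p y + p z) + psi θ (p y - p z)) ≤
          ∑ z, S 0 z * (2 * psi θ (p y) * psi θ (p z)) :=
        Finset.sum_le_sum fun z _ => mul_le_mul_of_nonneg_left (psi_add θ _ _) (h0 _ _)
      have f6 : ∑ z, S 0 z * (2 * psi θ (p y) * psi θ (p z)) =
          2 * (psi θ (p y) * ∑ z, S 0 z * psi θ (p z)) := by
        rw [Finset.mul_sum, Finset.mul_sum]
        refine Finset.sum_congr rfl fun z _ => ?_
        ring
      linarith
    rw [e1, pow_succ]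
    calc ∑ y, (S ^ m) 0 y * ∑ z, S y z * psi θ (p z)
        ≤ ∑ y, (S ^ m) 0 y * (psi θ (p y) * ∑ z, S 0 z * psi θ (p z)) :=
          Finset.sum_le_sum fun y _ => mul_le_mul_of_nonneg_left (e2 y) (pow_nonneg' h0 m _ _)
      _ = (∑ y, (S ^ m) 0 y * psi θ (p y)) * ∑ z, S 0 z * psi θ (p z) := by
          rw [Finset.sum_mul]
          refine Finset.sum_congr rfl fun y _ => ?_
          ring
      _ ≤ _ := mul_le_mul_of_nonneg_right ih hq

lemma cosh_sub_one {x y : ℝ} (hx : 0 ≤ x) (hxy : 2 * x ≤ y) (hy : 0 < y) :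
    Real.cosh x - 1 ≤ 4 * (x ^ 2 / y ^ 2) * Real.exp y := by
  -- cosh x - 1 ≤ x² /2 e^x, y² ≤ 8 e^{y/2}
  have h1 : Real.cosh x - 1 ≤ x ^ 2 / 2 * Real.exp x := by
    have e : Real.cosh x - 1 = 2 * Real.sinh (x / 2) ^ 2 := by
      have := Real.cosh_two_mul (x / 2)
      rw [mul_div_cancel₀ x two_ne_zero] at this
      have h2 := Real.cosh_sq (x / 2)
      linarith
    have h2 : Real.sinh (x / 2) ≤ x / 2 * Real.exp (x / 2) := by
      rw [Real.sinh_eq]
      have h3 : 1 - x ≤ Real.exp (-x) := by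
        have := Real.add_one_le_exp (-x)
        linarith
      have h4 : Real.exp (-(x / 2)) = Real.exp (x / 2) * Real.exp (-x) := by
        rw [← Real.exp_add]
        congr 1
        ring
      have h5 := Real.exp_pos (x / 2)
      rw [h4]
      nlinarith
    have h3 : 0 ≤ Real.sinh (x / 2) := Real.sinh_nonneg_iff.2 (by linarith)
    rw [e]
    have h4 := pow_le_pow_left₀ h3 h2 2
    have h5 : (x / 2 * Real.exp (x / 2)) ^ 2 = x ^ 2 / 4 * Real.exp x := by
      rw [mul_pow, ← Real.exp_nat_mul]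
      congr 1
      · ring
      · congr 1
        push_cast
        ring
    rw [h5] at h4
    linarith
  have h2 : y ^ 2 ≤ 8 * Real.exp (y / 2) := by
    have := Real.quadratic_le_exp_of_nonneg (x := y / 2) (by linarith)
    nlinarith
  have h3 : Real.exp x ≤ Real.exp (y / 2) := Real.exp_le_exp.2 (by linarith)
  have h4 : Real.exp y = Real.exp (y / 2) * Real.exp (y / 2) := by
    rw [← Real.exp_add]
    congr 1
    ring
  have h5 := Real.exp_pos (y / 2)
  have h6 : 4 * (x ^ 2 / y ^ 2) * Real.exp y = x ^ 2 * (4 * Real.exp (y / 2) / y ^ 2) *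
      Real.exp (y / 2) := by
    rw [h4]
    field_simp
  have h7 : 1 / 2 ≤ 4 * Real.exp (y / 2) / y ^ 2 := by
    rw [div_le_div_iff₀ (by norm_num) (by positivity)]
    linarith
  rw [h6]
  calc Real.cosh x - 1 ≤ x ^ 2 / 2 * Real.exp x := h1
    _ ≤ x ^ 2 / 2 * Real.exp (y / 2) := mul_le_mul_of_nonneg_left h3 (by positivity)
    _ = x ^ 2 * (1 / 2) * Real.exp (y / 2) := by ring
    _ ≤ _ := by
      refine mul_le_mul_of_nonneg_right ?_ h5.le
      exact mul_le_mul_of_nonneg_left h7 (sq_nonneg x)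

/-- one step exponential moment -/
lemma one_step (h0 : ∀ x y, 0 ≤ S x y) (h1 : ∀ x, ∑ y, S x y = 1) {κ C1 θ : ℝ} (hκ : 0 < κ)
    (hm : ∑ z, S 0 z * Real.exp (κ * sn z) ≤ C1) (hθ : 0 ≤ θ) (hθκ : 2 * θ ≤ κ)
    {p : V N → ZMod N} (hp : ∀ z, av (p z) ≤ sn z) :
    ∑ z, S 0 z * psi θ (p z) ≤ 1 + 4 * (θ ^ 2 / κ ^ 2) * C1 := by
  have h2 : ∀ z, psi θ (p z) - 1 ≤ 4 * (θ ^ 2 / κ ^ 2) * Real.exp (κ * sn z) := by
    intro z
    have hpz : ((av (p z) : ℕ) : ℝ) ≤ (sn z : ℝ) := by exact_mod_cast hp z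
    rcases Nat.eq_zero_or_pos (av (p z)) with h | h
    · unfold psi
      rw [h]
      simp only [Nat.cast_zero, mul_zero, Real.cosh_zero, sub_self]
      positivity
    · have h' : (0 : ℝ) < av (p z) := by exact_mod_cast h
      have h3 := cosh_sub_one (x := θ * av (p z)) (y := κ * av (p z)) (by positivity)
        (by nlinarith) (by positivity)
      have h4 : (θ * (av (p z) : ℝ)) ^ 2 / (κ * (av (p z) : ℝ)) ^ 2 = θ ^ 2 / κ ^ 2 := by
        field_simp
      rw [h4] at h3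
      refine h3.trans ?_
      refine mul_le_mul_of_nonneg_left ?_ (by positivity)
      exact Real.exp_le_exp.2 (mul_le_mul_of_nonneg_left hpz hκ.le)
  have h3 : ∑ z, S 0 z * psi θ (p z) = 1 + ∑ z, S 0 z * (psi θ (p z) - 1) := by
    simp_rw [mul_sub, mul_one]
    rw [Finset.sum_sub_distrib, h1]
    ring
  rw [h3]
  have h4 : ∑ z, S 0 z * (psi θ (p z) - 1) ≤
      ∑ z, S 0 z * (4 * (θ ^ 2 / κ ^ 2) * Real.exp (κ * sn z)) :=
    Finset.sum_le_sum fun z _ => mul_le_mul_of_nonneg_left (h2 z) (h0 _ _)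
  have h5 : ∑ z, S 0 z * (4 * (θ ^ 2 / κ ^ 2) * Real.exp (κ * sn z)) =
      4 * (θ ^ 2 / κ ^ 2) * ∑ z, S 0 z * Real.exp (κ * sn z) := by
    rw [Finset.mul_sum]
    refine Finset.sum_congr rfl fun z _ => ?_
    ring
  have h6 : 4 * (θ ^ 2 / κ ^ 2) * ∑ z, S 0 z * Real.exp (κ * sn z) ≤ 4 * (θ ^ 2 / κ ^ 2) * C1 :=
    mul_le_mul_of_nonneg_left hm (by positivity)
  linarith

/-- the tail of `m ≤ T` steps -/
theorem tail (hS : TI S) (h0 : ∀ x y, 0 ≤ S x y) (h1 : ∀ x, ∑ y, S x y = 1) {κ C1 : ℝ}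
    (hκ : 0 < κ) (hm : ∑ z, S 0 z * Real.exp (κ * sn z) ≤ C1) {T m : ℕ} (hT : 1 ≤ T)
    (hmT : m ≤ T) (r : ℝ) :
    ∑ z ∈ univ.filter (fun z : V N => r ≤ sn z), (S ^ m) 0 z ≤
      4 * Real.exp C1 * Real.exp (-(κ * r / (2 * √T))) := by
  have hT' : (1 : ℝ) ≤ T := by exact_mod_cast hT
  have hsT : 1 ≤ √(T : ℝ) := Real.one_le_sqrt.2 hT'
  have hC1 : 0 ≤ C1 := le_trans (Finset.sum_nonneg fun z _ =>
    mul_nonneg (h0 _ _) (Real.exp_pos _).le) hm
  set θ : ℝ := κ / (2 * √T) with hθ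
  have hθ0 : 0 < θ := by positivity
  have hθκ : 2 * θ ≤ κ := by
    rw [hθ]
    rw [show 2 * (κ / (2 * √(T : ℝ))) = κ / √T by field_simp]
    exact div_le_self hκ.le hsT
  have hθ2 : 4 * (θ ^ 2 / κ ^ 2) * C1 = C1 / T := by
    rw [hθ, div_pow, mul_pow, Real.sq_sqrt (by positivity)]
    field_simp
    norm_num
  have key : ∀ p : V N →+ ZMod N, (∀ z, av (p z) ≤ sn z) →
      ∑ z ∈ univ.filter (fun z : V N => r ≤ av (p z)), (S ^ m) 0 z ≤
      2 * Real.exp C1 * Real.exp (-(θ * r)) := by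
    intro p hp
    have g1 := pow_psi hS h0 p θ m
    have g2 := one_step h0 h1 hκ hm hθ0.le hθκ hp
    rw [hθ2] at g2
    have g3 : (∑ z, S 0 z * psi θ (p z)) ^ m ≤ Real.exp C1 := by
      have k0 : 0 ≤ ∑ z, S 0 z * psi θ (p z) :=
        Finset.sum_nonneg fun z _ => mul_nonneg (h0 _ _) (psi_pos _ _).le
      have k1 : ∑ z, S 0 z * psi θ (p z) ≤ Real.exp (C1 / T) := by
        have := Real.add_one_le_exp (C1 / T)
        linarith
      calc (∑ z, S 0 z * psi θ (p z)) ^ m ≤ (Real.exp (C1 / T)) ^ m := pow_le_pow_left₀ k0 k1 m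
        _ = Real.exp (m * (C1 / T)) := by rw [← Real.exp_nat_mul]
        _ ≤ Real.exp C1 := by
          refine Real.exp_le_exp.2 ?_
          have : (m : ℝ) ≤ T := by exact_mod_cast hmT
          rw [mul_div_assoc', div_le_iff₀ (by linarith)]
          nlinarith
    have g4 : ∑ z ∈ univ.filter (fun z : V N => r ≤ av (p z)), (S ^ m) 0 z * psi θ (p z) ≤
        Real.exp C1 :=
      (Finset.sum_le_sum_of_subset_of_nonneg (Finset.filter_subset _ _) fun z _ _ =>
        mul_nonneg (pow_nonneg' h0 m _ _) (psi_pos _ _).le).trans (g1.trans g3)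
    have g5 : ∀ z ∈ univ.filter (fun z : V N => r ≤ av (p z)), (S ^ m) 0 z ≤
        2 * Real.exp (-(θ * r)) * ((S ^ m) 0 z * psi θ (p z)) := by
      intro z hz
      have hr : r ≤ av (p z) := (Finset.mem_filter.1 hz).2
      have k1 : Real.exp (θ * r) ≤ 2 * psi θ (p z) := by
        unfold psi
        rw [Real.cosh_eq]
        have k2 : Real.exp (θ * r) ≤ Real.exp (θ * av (p z)) :=
          Real.exp_le_exp.2 (mul_le_mul_of_nonneg_left hr hθ0.le)
        have := Real.exp_pos (-(θ * av (p z)))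
        linarith
      have k3 : 1 ≤ 2 * Real.exp (-(θ * r)) * psi θ (p z) := by
        have k4 := Real.exp_pos (-(θ * r))
        have k5 : Real.exp (-(θ * r)) * Real.exp (θ * r) = 1 := by
          rw [← Real.exp_add]; simp
        nlinarith
      have k6 := pow_nonneg' h0 m 0 z
      nlinarith
    calc ∑ z ∈ univ.filter (fun z : V N => r ≤ av (p z)), (S ^ m) 0 z
        ≤ ∑ z ∈ univ.filter (fun z : V N => r ≤ av (p z)),
            2 * Real.exp (-(θ * r)) * ((S ^ m) 0 z * psi θ (p z)) := Finset.sum_le_sum g5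
      _ = 2 * Real.exp (-(θ * r)) * ∑ z ∈ univ.filter (fun z : V N => r ≤ av (p z)),
            ((S ^ m) 0 z * psi θ (p z)) := by rw [Finset.mul_sum]
      _ ≤ 2 * Real.exp (-(θ * r)) * Real.exp C1 :=
          mul_le_mul_of_nonneg_left g4 (by positivity)
      _ = _ := by ring
  have k1 := key (AddMonoidHom.fst _ _) (fun z => le_max_left _ _)
  have k2 := key (AddMonoidHom.snd _ _) (fun z => le_max_right _ _)
  have k3 : univ.filter (fun z : V N => r ≤ sn z) ⊆
      univ.filter (fun z : V N => r ≤ av ((AddMonoidHom.fst (ZMod N) (ZMod N)) z)) ∪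
      univ.filter (fun z : V N => r ≤ av ((AddMonoidHom.snd (ZMod N) (ZMod N)) z)) := by
    intro z hz
    have hr : r ≤ sn z := (Finset.mem_filter.1 hz).2
    rw [sn_eq, Nat.cast_max] at hr
    rw [Finset.mem_union, Finset.mem_filter, Finset.mem_filter]
    rcases le_max_iff.1 hr with h | h
    · exact Or.inl ⟨mem_univ _, h⟩
    · exact Or.inr ⟨mem_univ _, h⟩
  have k4 : θ * r = κ * r / (2 * √T) := by rw [hθ]; ring
  rw [← k4]
  calc ∑ z ∈ univ.filter (fun z : V N => r ≤ sn z), (S ^ m) 0 z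
      ≤ ∑ z ∈ univ.filter (fun z : V N => r ≤ av ((AddMonoidHom.fst (ZMod N) (ZMod N)) z)) ∪
      univ.filter (fun z : V N => r ≤ av ((AddMonoidHom.snd (ZMod N) (ZMod N)) z)),
        (S ^ m) 0 z :=
        Finset.sum_le_sum_of_subset_of_nonneg k3 fun z _ _ => pow_nonneg' h0 m _ _
    _ ≤ _ := by
      rw [← Finset.sum_union_inter]
      have := Finset.sum_nonneg (s := univ.filter (fun z : V N =>
        r ≤ av ((AddMonoidHom.fst (ZMod N) (ZMod N)) z)) ∩
        univ.filter (fun z : V N => r ≤ av ((AddMonoidHom.snd (ZMod N) (ZMod N)) z)))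
        (f := fun z => (S ^ m) 0 z) fun z _ => pow_nonneg' h0 m _ _
      linarith
    _ ≤ 2 * Real.exp C1 * Real.exp (-(θ * r)) + 2 * Real.exp C1 * Real.exp (-(θ * r)) :=
        add_le_add k1 k2
    _ = _ := by ring

end

end Vale.Agent.P159.H733.Torg
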