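import Vale.Agent.P159.H733.TorgB
import Vale.Agent.P159.H552.GauHS2

/-!
P159 / TORG (helper733), part C: window laws on two tori.
-/

set_option linter.unusedSectionVars false

namespace Vale.Agent.P159.H733.Torg

open Finset Matrix
open Vale.Agent.P159.TM.H764 (cN sN dt EE)
open Vale.Agent.P159.TM.Spec (V)
open Vale.Agent.P159.H864 (TI sym mlt fc hsq)
open Vale.Agent.P159.H462 (Dom)
open Vale.Agent.P159.TM.H459 (sn)
open Vale.Agent.P159.H37 (gau qf)

noncomputable section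

variable {N N2 : ℕ} [NeZero N] [NeZero N2]

/-! ### weights of the smooth part -/

/-- weights of the part `n ≥ T` -/
def wt (A : Matrix (V N) (V N) ℝ) (ν β : ℝ) (T : ℕ) (k : V N) : ℝ :=
  if k = 0 then 0 else
    ((N : ℝ) ^ 2)⁻¹ * ((ν / (ν + β) * (1 - sym A k / ν)) ^ T / (sym A k + β))

lemma sym_pos {A : Matrix (V N) (V N) ℝ} {ν c : ℝ} (h : Dom A ν c) {k : V N} (hk : k ≠ 0) :
    0 < sym A k := by
  refine lt_of_lt_of_le ?_ (h.ge k)
  have := H462.EE_pos hk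
  have := h.hν
  have := h.hc
  positivity

lemma wt_nonneg {A : Matrix (V N) (V N) ℝ} {ν c : ℝ} (h : Dom A ν c) {β : ℝ} (hβ : 0 ≤ β) (T : ℕ)
    (k : V N) : 0 ≤ wt A ν β T k := by
  unfold wt
  have h1 := h.s_nonneg k
  have h2 := h.nn k
  have h3 := h.hν
  split_ifs
  · exact le_rfl
  · positivity

lemma one_sub_cN (k a : V N) : 2 * (1 - cN (dt k a)) ≤ 2 * (sn a : ℝ) ^ 2 * EE k := by
  have h1 : a ∈ H462.box (0 : V N) (sn a) := by
    rw [H462.mem_box, sub_zero]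
    exact ⟨le_max_left _ _, le_max_right _ _⟩
  have h2 := H462.ch_dt_le h1 k
  rw [H864.dt_zero, TM.H764.ch_zero, H462.ch_sub_one] at h2
  exact h2

lemma smooth {A : Matrix (V N) (V N) ℝ} {ν c : ℝ} (h : Dom A ν c) {β : ℝ} (hβ : 0 ≤ β) {m : ℕ}
    (hm : 1 ≤ m) (a : V N) :
    ∑ k, wt A ν β (2 * m + 1) k * (2 * (1 - cN (dt k a))) ≤
      10 * ν / (m * c ^ 2) * (sn a : ℝ) ^ 2 := by
  have hν := h.hν
  have hc := h.hc
  have hN : (0 : ℝ) < N := H462.N_pos'
  have hm' : (0 : ℝ) < m := by exact_mod_cast hm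
  set x0 : ℝ := ν / (m * c) with hx0
  have hx0' : 0 < x0 := by positivity
  have key : ∀ k : V N, k ≠ 0 → wt A ν β (2 * m + 1) k * (2 * (1 - cN (dt k a))) ≤
      2 * (sn a : ℝ) ^ 2 * ((N : ℝ) ^ 2)⁻¹ * (1 / c) * x0 ^ 2 * ((EE k + x0) ^ 2)⁻¹ := by
    intro k hk
    have hE := H462.EE_pos hk
    have hα := sym_pos h hk
    have h1 : wt A ν β (2 * m + 1) k ≤
        ((N : ℝ) ^ 2)⁻¹ * ((1 - sym A k / ν) ^ (2 * m + 1) / sym A k) := by
      unfold wt
      rw [if_neg hk]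
      refine mul_le_mul_of_nonneg_left ?_ (by positivity)
      have h2 := h.s_nonneg k
      have h3 : ν / (ν + β) ≤ 1 := by
        rw [div_le_one (by positivity)]
        linarith
      have h4 : (ν / (ν + β) * (1 - sym A k / ν)) ^ (2 * m + 1) ≤
          (1 - sym A k / ν) ^ (2 * m + 1) :=
        pow_le_pow_left₀ (by positivity) (mul_le_of_le_one_left h2 h3) _
      exact div_le_div₀ (by positivity) h4 hα (by linarith)
    set q : ℝ := ν / (ν + c * EE k) with hq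
    have hq0 : 0 < q := by positivity
    have h2 : (1 - sym A k / ν) ^ (2 * m + 1) ≤ q ^ (2 * m + 1) :=
      pow_le_pow_left₀ (h.s_nonneg k) (h.s_le k) _
    have h3 : c * EE k * q ≤ sym A k := by
      have := h.ge k
      rw [hq]
      calc c * EE k * (ν / (ν + c * EE k)) = ν * (c * EE k) / (ν + c * EE k) := by ring
        _ ≤ _ := this
    have h4 : (1 - sym A k / ν) ^ (2 * m + 1) / sym A k ≤ q ^ (2 * m) / (c * EE k) := by
      calc (1 - sym A k / ν) ^ (2 * m + 1) / sym A k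
          ≤ q ^ (2 * m + 1) / (c * EE k * q) := div_le_div₀ (by positivity) h2 (by positivity) h3
        _ = q ^ (2 * m) / (c * EE k) := by
            rw [pow_succ]
            field_simp
    have h5 : q ^ m ≤ x0 / (EE k + x0) := by
      have h6 : 1 + (m : ℝ) * (c * EE k / ν) ≤ (1 + c * EE k / ν) ^ m := by
        have h7 : 0 ≤ c * EE k / ν := by positivity
        exact one_add_mul_le_pow (by linarith) m
      have h7 : q = (1 + c * EE k / ν)⁻¹ := by
        rw [hq]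
        field_simp
      have h8 : x0 / (EE k + x0) = (1 + (m : ℝ) * (c * EE k / ν))⁻¹ := by
        rw [hx0]
        field_simp
        ring
      rw [h7, h8, inv_pow]
      exact inv_anti₀ (by positivity) h6
    have h6 : q ^ (2 * m) ≤ x0 ^ 2 * ((EE k + x0) ^ 2)⁻¹ := by
      rw [mul_comm, pow_mul]
      calc (q ^ m) ^ 2 ≤ (x0 / (EE k + x0)) ^ 2 := pow_le_pow_left₀ (by positivity) h5 2
        _ = x0 ^ 2 * ((EE k + x0) ^ 2)⁻¹ := by rw [div_pow x0, div_eq_mul_inv]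
    have h7 : wt A ν β (2 * m + 1) k ≤
        ((N : ℝ) ^ 2)⁻¹ * (x0 ^ 2 * ((EE k + x0) ^ 2)⁻¹ / (c * EE k)) := by
      refine h1.trans (mul_le_mul_of_nonneg_left ?_ (by positivity))
      exact h4.trans (div_le_div_of_nonneg_right h6 (by positivity))
    have h8 := one_sub_cN k a
    have h9 : 0 ≤ 2 * (1 - cN (dt k a)) := by
      have := TM.H764.cN_le_one (dt k a)
      linarith
    calc wt A ν β (2 * m + 1) k * (2 * (1 - cN (dt k a)))
        ≤ ((N : ℝ) ^ 2)⁻¹ * (x0 ^ 2 * ((EE k + x0) ^ 2)⁻¹ / (c * EE k)) *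
          (2 * (sn a : ℝ) ^ 2 * EE k) := mul_le_mul h7 h8 h9 (by positivity)
      _ = _ := by
        field_simp
  have h0 : ∑ k, wt A ν β (2 * m + 1) k * (2 * (1 - cN (dt k a))) =
      ∑ k ∈ univ.filter (fun k : V N => k ≠ 0),
        wt A ν β (2 * m + 1) k * (2 * (1 - cN (dt k a))) := by
    symm
    refine Finset.sum_subset (Finset.subset_univ _) fun k _ hk => ?_
    have : k = 0 := by
      by_contra hk0
      exact hk (Finset.mem_filter.2 ⟨mem_univ _, hk0⟩)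
    unfold wt
    rw [if_pos this, zero_mul]
  rw [h0]
  calc ∑ k ∈ univ.filter (fun k : V N => k ≠ 0),
        wt A ν β (2 * m + 1) k * (2 * (1 - cN (dt k a)))
      ≤ ∑ k ∈ univ.filter (fun k : V N => k ≠ 0),
        2 * (sn a : ℝ) ^ 2 * ((N : ℝ) ^ 2)⁻¹ * (1 / c) * x0 ^ 2 * ((EE k + x0) ^ 2)⁻¹ :=
        Finset.sum_le_sum fun k hk => key k (Finset.mem_filter.1 hk).2
    _ = 2 * (sn a : ℝ) ^ 2 * ((N : ℝ) ^ 2)⁻¹ * (1 / c) * x0 ^ 2 *
        ∑ k ∈ univ.filter (fun k : V N => k ≠ 0), ((EE k + x0) ^ 2)⁻¹ := by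
        rw [Finset.mul_sum]
    _ ≤ 2 * (sn a : ℝ) ^ 2 * ((N : ℝ) ^ 2)⁻¹ * (1 / c) * x0 ^ 2 * (5 * (N : ℝ) ^ 2 / x0) :=
        mul_le_mul_of_nonneg_left (H462.sum_inv_sq hx0') (by positivity)
    _ = _ := by
        rw [hx0]
        field_simp
        ring

/-! ### increments -/

variable {J : Type*}

/-- window increments `f ↦ (f (x j) - f b)_j` -/
def inc (b : V N) (x : J → V N) : Matrix J (V N) ℝ :=
  Matrix.of fun j y => (if y = x j then 1 else 0) - (if y = b then 1 else 0)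

lemma inc_mul {L : Type*} (b : V N) (x : J → V N) (M : Matrix (V N) L ℝ) (i : J) (y : L) :
    (inc b x * M) i y = M (x i) y - M b y := by
  rw [Matrix.mul_apply]
  unfold inc
  simp only [Matrix.of_apply, sub_mul, ite_mul, one_mul, zero_mul, Finset.sum_sub_distrib,
    Finset.sum_ite_eq', mem_univ, if_true]

lemma mul_incT {L : Type*} (b : V N) (x : J → V N) (M : Matrix L (V N) ℝ) (i : L) (j : J) :
    (M * (inc b x)ᵀ) i j = M i (x j) - M i b := by
  rw [Matrix.mul_apply]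
  unfold inc
  simp only [Matrix.transpose_apply, Matrix.of_apply, mul_sub, mul_ite, mul_one, mul_zero,
    Finset.sum_sub_distrib, Finset.sum_ite_eq', mem_univ, if_true]

/-- covariance of increments, in terms of the kernel -/
def dk (K : Matrix (V N) (V N) ℝ) (a b : V N) : ℝ := K 0 (b - a) - K 0 (-a) - K 0 b + K 0 0

lemma inc_TI {K : Matrix (V N) (V N) ℝ} (hK : TI K) (b : V N) (x : J → V N) (i j : J) :
    (inc b x * K * (inc b x)ᵀ) i j = dk K (x i - b) (x j - b) := by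
  rw [mul_incT, inc_mul, inc_mul]
  unfold dk
  rw [hK.eq (x i) (x j), hK.eq b (x j), hK.eq (x i) b, hK.eq b b]
  rw [show x j - b - (x i - b) = x j - x i by abel, show -(x i - b) = b - x i by abel, sub_self]
  ring

lemma dk_zero_left (K : Matrix (V N) (V N) ℝ) (b : V N) : dk K 0 b = 0 := by
  unfold dk
  rw [sub_zero, neg_zero]
  ring

lemma dk_zero_right (K : Matrix (V N) (V N) ℝ) (a : V N) : dk K a 0 = 0 := by
  unfold dk
  rw [zero_sub]
  ring

/-- the pair function of a mode -/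
def pp (k a b : V N) : ℝ := (cN (dt k a) - 1) * (cN (dt k b) - 1) + sN (dt k a) * sN (dt k b)

lemma pp_zero (a b : V N) : pp 0 a b = 0 := by
  unfold pp
  rw [H864.dt_zero_left, H864.dt_zero_left, TM.H764.cN_zero, TM.H764.sN_zero]
  ring

lemma dk_mlt (ψ : V N → ℝ) (a b : V N) :
    dk (mlt ψ) a b = ((N : ℝ) ^ 2)⁻¹ * ∑ k, ψ k * pp k a b := by
  unfold dk mlt
  simp only [Matrix.of_apply, sub_zero]
  rw [← mul_sub, ← mul_sub, ← mul_add]
  congr 1
  rw [← Finset.sum_sub_distrib, ← Finset.sum_sub_distrib, ← Finset.sum_add_distrib]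
  refine Finset.sum_congr rfl fun k _ => ?_
  unfold pp
  rw [TM.H764.dt_sub, TM.H764.cN_sub, H864.dt_neg, TM.H764.cN_neg, H864.dt_zero, TM.H764.cN_zero]
  ring

/-! ### covariances -/

/-- symbol of `(A + β)⁻¹` without the constant mode -/
def phi (A : Matrix (V N) (V N) ℝ) (β : ℝ) (k : V N) : ℝ := if k = 0 then 0 else (sym A k + β)⁻¹

/-- `(A + β)⁻¹` without the constant mode -/
def cov (β : ℝ) (A : Matrix (V N) (V N) ℝ) : Matrix (V N) (V N) ℝ := mlt (phi A β)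

/-- square root of `cov` -/
def hcov (β : ℝ) (A : Matrix (V N) (V N) ℝ) : Matrix (V N) (V N) ℝ := mlt fun k => √(phi A β k)

/-- inverse square root of `cov` -/
def icov (β : ℝ) (A : Matrix (V N) (V N) ℝ) : Matrix (V N) (V N) ℝ :=
  mlt fun k => (√(phi A β k))⁻¹

lemma phi_neg (A : Matrix (V N) (V N) ℝ) (β : ℝ) (k : V N) : phi A β (-k) = phi A β k := by
  unfold phi
  simp only [H864.sym_neg_arg, neg_eq_zero]

lemma phi_pos {A : Matrix (V N) (V N) ℝ} {ν c β : ℝ} (h : Dom A ν c) (hβ : 0 ≤ β) {k : V N}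
    (hk : k ≠ 0) : 0 < phi A β k := by
  unfold phi
  rw [if_neg hk]
  have := sym_pos h hk
  positivity

lemma phi_nonneg {A : Matrix (V N) (V N) ℝ} {ν c β : ℝ} (h : Dom A ν c) (hβ : 0 ≤ β) (k : V N) :
    0 ≤ phi A β k := by
  by_cases hk : k = 0
  · unfold phi
    rw [if_pos hk]
  · exact (phi_pos h hβ hk).le

/-- the part `n < T` of the series -/
def sm (β ν : ℝ) (A : Matrix (V N) (V N) ℝ) (T : ℕ) : Matrix (V N) (V N) ℝ :=
  (ν + β)⁻¹ • ∑ m ∈ range T, (ν / (ν + β)) ^ m • (1 - ν⁻¹ • A) ^ m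

lemma ti_step {A : Matrix (V N) (V N) ℝ} (hA : TI A) (ν : ℝ) : TI (1 - ν⁻¹ • A) :=
  TI.one.sub (TI.smul _ hA)

lemma sym_step {A : Matrix (V N) (V N) ℝ} (ν : ℝ) (k : V N) :
    sym (1 - ν⁻¹ • A) k = 1 - sym A k / ν := by
  rw [H864.sym_sub, H864.sym_one, H864.sym_smul]
  ring

lemma ti_sm {A : Matrix (V N) (V N) ℝ} (hA : TI A) (β ν : ℝ) (T : ℕ) : TI (sm β ν A T) :=
  TI.smul _ (TI.sum _ fun m _ => TI.smul _ ((ti_step hA ν).pow m))

lemma sym_sm {A : Matrix (V N) (V N) ℝ} (hA : TI A) (β ν : ℝ) (T : ℕ) (k : V N) :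
    sym (sm β ν A T) k = (ν + β)⁻¹ * ∑ m ∈ range T, (ν / (ν + β) * (1 - sym A k / ν)) ^ m := by
  unfold sm
  rw [H864.sym_smul, H864.sym_sum]
  congr 1
  refine Finset.sum_congr rfl fun m _ => ?_
  rw [H864.sym_smul, H864.sym_pow (ti_step hA ν), sym_step, mul_pow]

lemma dk_cov {A : Matrix (V N) (V N) ℝ} {ν c β : ℝ} (h : Dom A ν c) (hβ : 0 ≤ β) (T : ℕ)
    (a b : V N) : dk (cov β A) a b = dk (sm β ν A T) a b + ∑ k, wt A ν β T k * pp k a b := by
  have h1 : sm β ν A T = mlt (sym (sm β ν A T)) := (H864.mlt_sym (ti_sm h.ti β ν T)).symm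
  rw [h1, dk_mlt]
  unfold cov
  rw [dk_mlt, Finset.mul_sum, Finset.mul_sum, ← Finset.sum_add_distrib]
  refine Finset.sum_congr rfl fun k _ => ?_
  by_cases hk : k = 0
  · rw [hk, pp_zero]
    ring
  · rw [sym_sm h.ti]
    unfold phi wt
    rw [if_neg hk, if_neg hk]
    have hα := sym_pos h hk
    have hν := h.hν
    set r : ℝ := ν / (ν + β) * (1 - sym A k / ν) with hr
    have h2 : 1 - r = (sym A k + β) / (ν + β) := by
      rw [hr]
      field_simp
      ring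
    have h3 := mul_neg_geom_sum r T
    rw [h2] at h3
    have h4 : (sym A k + β)⁻¹ = (ν + β)⁻¹ * ∑ m ∈ range T, r ^ m + r ^ T / (sym A k + β) := by
      have h5 : 0 < sym A k + β := by linarith
      have h6 : 0 < ν + β := by linarith
      have h7 : ∑ m ∈ range T, r ^ m = (1 - r ^ T) * ((ν + β) / (sym A k + β)) := by
        rw [← h3]
        field_simp
      rw [h7]
      field_simp
      ring
    rw [h4]
    ring

/-! ### multiplier algebra -/

lemma mlt_tr (ψ : V N → ℝ) : (mlt ψ)ᵀ = mlt ψ := (H864.ti_mlt ψ).transpose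

lemma hcov_sq {A : Matrix (V N) (V N) ℝ} {ν c β : ℝ} (h : Dom A ν c) (hβ : 0 ≤ β) :
    hcov β A * (hcov β A)ᵀ = cov β A := by
  unfold hcov cov
  rw [mlt_tr, H864.mlt_mul _ _ (fun k => by rw [phi_neg]) (fun k => by rw [phi_neg])]
  congr 1
  funext k
  exact Real.mul_self_sqrt (phi_nonneg h hβ k)

lemma inc_mlt_one (b : V N) (x : J → V N) :
    inc b x * mlt (fun k : V N => if k = 0 then 0 else 1) = inc b x := by
  have h1 : (mlt (fun k : V N => if k = 0 then (0 : ℝ) else 1)) =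
      1 - Matrix.of fun _ _ => ((N : ℝ) ^ 2)⁻¹ := by
    have h2 : (1 : Matrix (V N) (V N) ℝ) = mlt (fun _ => 1) := by
      have := H864.mlt_sym (TI.one (N := N))
      rw [← this]
      congr 1
      funext k
      exact H864.sym_one k
    rw [h2]
    ext x y
    rw [Matrix.sub_apply]
    unfold mlt
    simp only [Matrix.of_apply]
    have h3 : ∀ k : V N, (if k = 0 then (0 : ℝ) else 1) * cN (dt k (y - x)) =
        1 * cN (dt k (y - x)) - (if k = 0 then 1 else 0) := by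
      intro k
      split_ifs with hk
      · rw [hk, H864.dt_zero_left, TM.H764.cN_zero]
        ring
      · ring
    simp_rw [h3]
    rw [Finset.sum_sub_distrib, Finset.sum_ite_eq']
    simp only [mem_univ, if_true]
    ring
  rw [h1, Matrix.mul_sub, Matrix.mul_one]
  ext i y
  rw [Matrix.sub_apply, inc_mul]
  simp

lemma inc_hi {A : Matrix (V N) (V N) ℝ} {ν c β : ℝ} (h : Dom A ν c) (hβ : 0 ≤ β) (b : V N)
    (x : J → V N) : inc b x * hcov β A * icov β A = inc b x := by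
  have h1 : hcov β A * icov β A = mlt (fun k : V N => if k = 0 then 0 else 1) := by
    unfold hcov icov
    rw [H864.mlt_mul _ _ (fun k => by rw [phi_neg]) (fun k => by rw [phi_neg])]
    congr 1
    funext k
    by_cases hk : k = 0
    · rw [if_pos hk]
      unfold phi
      rw [if_pos hk, Real.sqrt_zero, zero_mul]
    · rw [if_neg hk]
      exact mul_inv_cancel₀ (Real.sqrt_pos.2 (phi_pos h hβ hk)).ne'
  rw [Matrix.mul_assoc, h1, inc_mlt_one]

/-! ### Hilbert-Schmidt bounds -/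

lemma qf_smul_one (b : ℝ) (u : V N → ℝ) : qf (b • (1 : Matrix (V N) (V N) ℝ)) u =
    b * ∑ x, u x ^ 2 := by
  unfold qf
  rw [Finset.mul_sum]
  refine Finset.sum_congr rfl fun x _ => ?_
  simp only [Matrix.smul_apply, Matrix.one_apply, smul_eq_mul, mul_ite, mul_one, mul_zero, ite_mul,
    zero_mul]
  rw [Finset.sum_ite_eq]
  simp only [mem_univ, if_true]
  ring

lemma sq_mlt (ψ : V N → ℝ) (hψ : ∀ k, ψ (-k) = ψ k) (u : V N → ℝ) :
    ∑ x, (mlt ψ *ᵥ u) x ^ 2 = qf (mlt fun k => ψ k ^ 2) u := by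
  have h1 : (mlt fun k => ψ k ^ 2) = (mlt ψ)ᵀ * mlt ψ := by
    rw [mlt_tr, H864.mlt_mul _ _ hψ hψ]
    congr 1
    funext k
    ring
  have h2 : ∑ x, (mlt ψ *ᵥ u) x ^ 2 = (mlt ψ *ᵥ u) ⬝ᵥ (mlt ψ *ᵥ u) := by
    unfold dotProduct
    exact Finset.sum_congr rfl fun x _ => by ring
  have h3 : qf (mlt fun k => ψ k ^ 2) u = u ⬝ᵥ ((mlt fun k => ψ k ^ 2) *ᵥ u) := by
    unfold qf dotProduct Matrix.mulVec dotProduct
    refine Finset.sum_congr rfl fun x _ => ?_
    rw [Finset.mul_sum]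
    refine Finset.sum_congr rfl fun y _ => ?_
    ring
  rw [h2, h3, h1, ← Matrix.mulVec_mulVec, Matrix.dotProduct_mulVec u, Matrix.vecMul_transpose]

lemma hs_left (ψ : V N → ℝ) (hψ : ∀ k, ψ (-k) = ψ k) {b : ℝ} (hb : ∀ k, ψ k ^ 2 ≤ b)
    (X : Matrix (V N) (V N) ℝ) :
    ∑ x, ∑ y, (mlt ψ * X) x y ^ 2 ≤ b * ∑ x, ∑ y, X x y ^ 2 := by
  rw [Finset.sum_comm, Finset.sum_comm (f := fun x y => X x y ^ 2), Finset.mul_sum]
  refine Finset.sum_le_sum fun y _ => ?_
  have h1 : ∑ x, (mlt ψ * X) x y ^ 2 = ∑ x, (mlt ψ *ᵥ fun z => X z y) x ^ 2 := rfl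
  rw [h1, sq_mlt ψ hψ, ← qf_smul_one]
  refine (H864.qf_le_iff (H864.ti_mlt _) (TI.smul _ TI.one)).2 (fun k => ?_) _
  rw [H864.sym_mlt _ (fun k => by rw [hψ]), H864.sym_smul_one]
  exact hb k

lemma hs_conj (ψ : V N → ℝ) (hψ : ∀ k, ψ (-k) = ψ k) {b : ℝ} (hb0 : 0 ≤ b)
    (hb : ∀ k, ψ k ^ 2 ≤ b) (X : Matrix (V N) (V N) ℝ) :
    ∑ x, ∑ y, (mlt ψ * X * mlt ψ) x y ^ 2 ≤ b ^ 2 * ∑ x, ∑ y, X x y ^ 2 := by
  rw [Matrix.mul_assoc]
  refine (hs_left ψ hψ hb _).trans ?_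
  have h1 : ∑ x, ∑ y, (X * mlt ψ) x y ^ 2 = ∑ x, ∑ y, (mlt ψ * Xᵀ) x y ^ 2 := by
    rw [Finset.sum_comm]
    refine Finset.sum_congr rfl fun x _ => Finset.sum_congr rfl fun y _ => ?_
    have : mlt ψ * Xᵀ = (X * mlt ψ)ᵀ := by rw [Matrix.transpose_mul, mlt_tr]
    rw [this, Matrix.transpose_apply]
  have h2 : ∑ x, ∑ y, Xᵀ x y ^ 2 = ∑ x, ∑ y, X x y ^ 2 := by
    rw [Finset.sum_comm]
    rfl
  have h3 := hs_left ψ hψ hb Xᵀ
  rw [h2] at h3
  rw [h1, sq b, mul_assoc]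
  exact mul_le_mul_of_nonneg_left h3 hb0

lemma hs_rank {K W : Type*} [Fintype K] [Fintype W] (w : K → ℝ) (hw : ∀ k, 0 ≤ w k)
    (p : K → W → ℝ) :
    ∑ x, ∑ y, (∑ k, w k * (p k x * p k y)) ^ 2 ≤ (∑ k, w k * ∑ x, p k x ^ 2) ^ 2 := by
  have h1 : ∑ x, ∑ y, (∑ k, w k * (p k x * p k y)) ^ 2 =
      ∑ k, ∑ l, w k * w l * (∑ x, p k x * p l x) ^ 2 := by
    have e1 : ∀ x y, (∑ k, w k * (p k x * p k y)) ^ 2 =
        ∑ k, ∑ l, w k * w l * ((p k x * p l x) * (p k y * p l y)) := by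
      intro x y
      rw [sq, Finset.sum_mul_sum]
      refine Finset.sum_congr rfl fun k _ => Finset.sum_congr rfl fun l _ => ?_
      ring
    simp_rw [e1]
    have e2 : ∀ x : W, ∑ y, ∑ k, ∑ l, w k * w l * ((p k x * p l x) * (p k y * p l y)) =
        ∑ k, ∑ l, ∑ y, w k * w l * ((p k x * p l x) * (p k y * p l y)) := by
      intro x
      rw [Finset.sum_comm]
      exact Finset.sum_congr rfl fun k _ => Finset.sum_comm
    simp_rw [e2]
    rw [Finset.sum_comm]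
    refine Finset.sum_congr rfl fun k _ => ?_
    rw [Finset.sum_comm]
    refine Finset.sum_congr rfl fun l _ => ?_
    rw [sq, Finset.sum_mul_sum, Finset.mul_sum]
    refine Finset.sum_congr rfl fun x _ => ?_
    rw [Finset.mul_sum]
  rw [h1, sq (∑ k, w k * ∑ x, p k x ^ 2), Finset.sum_mul_sum]
  refine Finset.sum_le_sum fun k _ => Finset.sum_le_sum fun l _ => ?_
  have h2 := Finset.sum_mul_sq_le_sq_mul_sq univ (p k) (p l)
  have h3 := mul_le_mul_of_nonneg_left h2 (mul_nonneg (hw k) (hw l))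
  refine h3.trans (le_of_eq ?_)
  ring

lemma conj_rank {K : Type*} [Fintype K] (ψ : V N → ℝ) (w : K → ℝ) (u : K → V N → ℝ) (x y : V N) :
    (mlt ψ * (Matrix.of fun x y => ∑ k, w k * (u k x * u k y)) * mlt ψ) x y =
      ∑ k, w k * ((mlt ψ *ᵥ u k) x * (mlt ψ *ᵥ u k) y) := by
  have h1 : (Matrix.of fun x y => ∑ k, w k * (u k x * u k y) : Matrix (V N) (V N) ℝ) =
      ∑ k, w k • Matrix.vecMulVec (u k) (u k) := by
    ext a b
    rw [Matrix.sum_apply]
    rfl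
  rw [h1, Matrix.mul_sum, Matrix.sum_mul, Matrix.sum_apply]
  refine Finset.sum_congr rfl fun k _ => ?_
  rw [Matrix.mul_smul, Matrix.smul_mul, Matrix.smul_apply, smul_eq_mul, Matrix.mul_vecMulVec,
    Matrix.vecMulVec_mul]
  congr 1
  rw [Matrix.vecMulVec_apply, ← Matrix.mulVec_transpose, mlt_tr]

end

end Vale.Agent.P159.H733.Torg
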