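import Vale.Agent.P159.H733.TorgC

/-!
P159 / TORG (helper733), part D: `torg`, `torg_le`, `torg_ge`, `torg_l2`: laws of window
increments of the Gaussian fields with covariance `(A + β)⁻¹` on two tori `N ∣ N2`.
-/

set_option linter.unusedSectionVars false

namespace Vale.Agent.P159.H733.Torg

open Finset Matrix
open Vale.Agent.P159.TM.H764 (cN sN dt EE)
open Vale.Agent.P159.TM.Spec (V)
open Vale.Agent.P159.H864 (TI sym mlt fc hsq)
open Vale.Agent.P159.H462 (Dom)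
open Vale.Agent.P159.TM.H459 (sn)
open Vale.Agent.P159.H37 (gau qf)

noncomputable section

variable {N N2 : ℕ} [NeZero N] [NeZero N2]

lemma ti_cov (β : ℝ) (A : Matrix (V N) (V N) ℝ) : TI (cov β A) := H864.ti_mlt _

/-- the same kernel on two tori `N ∣ N2` -/
structure Two (h : N ∣ N2) (A : Matrix (V N) (V N) ℝ) (A2 : Matrix (V N2) (V N2) ℝ)
    (ν c κ C1 : ℝ) : Prop where
  dom : Dom A ν c
  dom2 : Dom A2 ν c
  per : Per h A A2
  off : ∀ z, z ≠ 0 → A2 0 z ≤ 0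
  kp : 0 < κ
  mom : ∑ z, (1 - ν⁻¹ • A2 : Matrix (V N2) (V N2) ℝ) 0 z * Real.exp (κ * sn z) ≤ C1

section two

variable {h : N ∣ N2} {A : Matrix (V N) (V N) ℝ} {A2 : Matrix (V N2) (V N2) ℝ} {ν c κ C1 : ℝ}

lemma step_nonneg {A : Matrix (V N) (V N) ℝ} (hA : Dom A ν c) (off : ∀ z, z ≠ 0 → A 0 z ≤ 0)
    (x y : V N) : 0 ≤ (1 - ν⁻¹ • A) x y := by
  have hν := hA.hν
  rw [(ti_step hA.ti ν).eq]
  by_cases hz : y - x = 0
  · rw [hz, Matrix.sub_apply, Matrix.one_apply_eq, Matrix.smul_apply, smul_eq_mul,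
      hA.ti.diag_eq 0]
    have hN := H864.N_pos (N := N)
    have hN0 : (N : ℝ) ≠ 0 := H462.N_pos'.ne'
    have h1 : ∑ k, sym A k ≤ ∑ _k : V N, ν := Finset.sum_le_sum fun k _ => hA.le k
    rw [Finset.sum_const, Finset.card_univ, nsmul_eq_mul, TM.H764.card_V] at h1
    have h2 : ν⁻¹ * (((N : ℝ) ^ 2)⁻¹ * ∑ k, sym A k) ≤
        ν⁻¹ * (((N : ℝ) ^ 2)⁻¹ * ((N : ℝ) ^ 2 * ν)) :=
      mul_le_mul_of_nonneg_left (mul_le_mul_of_nonneg_left h1 (by positivity)) (by positivity)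
    have h3 : ν⁻¹ * (((N : ℝ) ^ 2)⁻¹ * ((N : ℝ) ^ 2 * ν)) = 1 := by field_simp
    linarith
  · rw [Matrix.sub_apply, Matrix.smul_apply, smul_eq_mul]
    have h1 : (1 : Matrix (V N) (V N) ℝ) 0 (y - x) = 0 := Matrix.one_apply_ne (Ne.symm hz)
    have h2 := off _ hz
    have h3 : 0 ≤ ν⁻¹ * (-A 0 (y - x)) := mul_nonneg (by positivity) (by linarith)
    rw [h1]
    linarith

lemma step_row {A : Matrix (V N) (V N) ℝ} (hA : Dom A ν c) (x : V N) :
    ∑ y, (1 - ν⁻¹ • A) x y = 1 := by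
  have h1 := TI_row (ti_step hA.ti ν) (fun _ => 1) x
  have h2 : ((1 - ν⁻¹ • A) *ᵥ fun _ => (1 : ℝ)) x = ∑ y, (1 - ν⁻¹ • A) x y := by
    unfold Matrix.mulVec dotProduct
    exact Finset.sum_congr rfl fun y _ => mul_one _
  rw [← h2, h1]
  have h3 := sym_step (A := A) ν 0
  rw [hA.zero, H864.sym_def] at h3
  simp only [H864.dt_zero_left, TM.H764.cN_zero] at h3
  rw [h3]
  ring

lemma Two.step (hT : Two h A A2 ν c κ C1) : Per h (1 - ν⁻¹ • A) (1 - ν⁻¹ • A2) :=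
  Per.one.sub (hT.per.smul _)

lemma Two.h02 (hT : Two h A A2 ν c κ C1) (x y : V N2) : 0 ≤ (1 - ν⁻¹ • A2) x y :=
  step_nonneg hT.dom2 hT.off x y

lemma Two.h0 (hT : Two h A A2 ν c κ C1) (x y : V N) : 0 ≤ (1 - ν⁻¹ • A) x y := by
  rw [(ti_step hT.dom.ti ν).eq, hT.step.ker]
  exact Finset.sum_nonneg fun z _ => hT.h02 _ _

lemma Two.C1_nonneg (hT : Two h A A2 ν c κ C1) : 0 ≤ C1 :=
  le_trans (Finset.sum_nonneg fun z _ => mul_nonneg (hT.h02 _ _) (Real.exp_pos _).le) hT.mom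

lemma sn_prj (h : N ∣ N2) (z : V N2) : sn (prj h z) ≤ sn z := by
  have key : ∀ a : ZMod N2, av (ZMod.castHom h (ZMod N) a) ≤ av a := by
    intro a
    refine av_le_of_cast ?_
    have h3 : ((a.valMinAbs : ℤ) : ZMod N2) = a := ZMod.coe_valMinAbs a
    have h4 := map_intCast (ZMod.castHom h (ZMod N)) a.valMinAbs
    rw [h3] at h4
    exact h4.symm
  rw [sn_eq, sn_eq, prj_apply]
  exact max_le_max (key _) (key _)

lemma sq_le_exp {x : ℝ} (hx : 0 ≤ x) : x ^ 2 ≤ 2 * Real.exp x := by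
  have := Real.quadratic_le_exp_of_nonneg hx
  linarith

lemma Two.mom2 (hT : Two h A A2 ν c κ C1) :
    ∑ z, (1 - ν⁻¹ • A : Matrix (V N) (V N) ℝ) 0 z * (sn z : ℝ) ^ 2 ≤ 2 * C1 / κ ^ 2 := by
  have hκ := hT.kp
  rw [← hT.step.sum]
  have h1 : ∀ z : V N2, (1 - ν⁻¹ • A2 : Matrix (V N2) (V N2) ℝ) 0 z * (sn (prj h z) : ℝ) ^ 2 ≤
      2 / κ ^ 2 * ((1 - ν⁻¹ • A2 : Matrix (V N2) (V N2) ℝ) 0 z * Real.exp (κ * sn z)) := by
    intro z
    have h2 : (sn (prj h z) : ℝ) ≤ sn z := by exact_mod_cast sn_prj h z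
    have h3 : (sn (prj h z) : ℝ) ^ 2 ≤ (sn z : ℝ) ^ 2 := pow_le_pow_left₀ (Nat.cast_nonneg _) h2 2
    have h4 := sq_le_exp (x := κ * sn z) (by positivity)
    have h5 : (sn z : ℝ) ^ 2 ≤ 2 / κ ^ 2 * Real.exp (κ * sn z) := by
      rw [mul_pow] at h4
      rw [div_mul_eq_mul_div, le_div_iff₀ (by positivity)]
      linarith
    have h6 := mul_le_mul_of_nonneg_left (h3.trans h5) (hT.h02 0 z)
    refine h6.trans (le_of_eq ?_)
    ring
  refine (Finset.sum_le_sum fun z _ => h1 z).trans ?_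
  rw [← Finset.mul_sum]
  have h2 := mul_le_mul_of_nonneg_left hT.mom (show 0 ≤ 2 / κ ^ 2 by positivity)
  refine h2.trans (le_of_eq ?_)
  ring

/-- error of the small part -/
def tau (κ C1 : ℝ) (N T : ℕ) : ℝ := 4 * Real.exp C1 * Real.exp (-(κ * N / (4 * √T)))

lemma tau_nonneg (κ C1 : ℝ) (N T : ℕ) : 0 ≤ tau κ C1 N T := by unfold tau; positivity

lemma Two.pow_diff (hT : Two h A A2 ν c κ C1) {T m : ℕ} (hT1 : 1 ≤ T) (hm : m ≤ T)
    {ζ : ℤ × ℤ} (h1 : 2 * ζ.1.natAbs ≤ N) (h2 : 2 * ζ.2.natAbs ≤ N) :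
    0 ≤ ((1 - ν⁻¹ • A) ^ m) 0 (ip N ζ) - ((1 - ν⁻¹ • A2) ^ m) 0 (ip N2 ζ) ∧
    ((1 - ν⁻¹ • A) ^ m) 0 (ip N ζ) - ((1 - ν⁻¹ • A2) ^ m) 0 (ip N2 ζ) ≤ tau κ C1 N T := by
  have h3 := ker_diff (hT.step.pow m) (pow_nonneg' hT.h02 m) h1 h2
  refine ⟨h3.1, h3.2.trans ?_⟩
  have h4 := tail (ti_step hT.dom2.ti ν) hT.h02 (step_row hT.dom2) hT.kp hT.mom hT1 hm (N / 2)
  refine h4.trans (le_of_eq ?_)
  unfold tau
  congr 3
  have : (0 : ℝ) < √T := Real.sqrt_pos.2 (by exact_mod_cast hT1)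
  field_simp
  ring

lemma Two.sm_diff (hT : Two h A A2 ν c κ C1) {β : ℝ} (hβ : 0 ≤ β) {T : ℕ} (hT1 : 1 ≤ T)
    {ζ : ℤ × ℤ} (h1 : 2 * ζ.1.natAbs ≤ N) (h2 : 2 * ζ.2.natAbs ≤ N) :
    0 ≤ sm β ν A T 0 (ip N ζ) - sm β ν A2 T 0 (ip N2 ζ) ∧
    sm β ν A T 0 (ip N ζ) - sm β ν A2 T 0 (ip N2 ζ) ≤ T * tau κ C1 N T / (ν + β) := by
  have hν := hT.dom.hν
  have e1 : sm β ν A T 0 (ip N ζ) - sm β ν A2 T 0 (ip N2 ζ) =
      (ν + β)⁻¹ * ∑ m ∈ range T, (ν / (ν + β)) ^ m *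
        (((1 - ν⁻¹ • A) ^ m) 0 (ip N ζ) - ((1 - ν⁻¹ • A2) ^ m) 0 (ip N2 ζ)) := by
    unfold sm
    rw [Matrix.smul_apply, Matrix.smul_apply, Matrix.sum_apply, Matrix.sum_apply, smul_eq_mul,
      smul_eq_mul, ← mul_sub, ← Finset.sum_sub_distrib]
    congr 1
    refine Finset.sum_congr rfl fun m _ => ?_
    rw [Matrix.smul_apply, Matrix.smul_apply, smul_eq_mul, smul_eq_mul]
    ring
  rw [e1]
  have hl0 : 0 ≤ ν / (ν + β) := by positivity
  have hl1 : ν / (ν + β) ≤ 1 := by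
    rw [div_le_one (by positivity)]
    linarith
  constructor
  · refine mul_nonneg (by positivity) (Finset.sum_nonneg fun m hm => ?_)
    exact mul_nonneg (pow_nonneg hl0 m) (hT.pow_diff hT1 (Finset.mem_range.1 hm).le h1 h2).1
  · have h3 : ∑ m ∈ range T, (ν / (ν + β)) ^ m *
        (((1 - ν⁻¹ • A) ^ m) 0 (ip N ζ) - ((1 - ν⁻¹ • A2) ^ m) 0 (ip N2 ζ)) ≤
        ∑ _m ∈ range T, tau κ C1 N T := by
      refine Finset.sum_le_sum fun m hm => ?_
      have h4 := hT.pow_diff hT1 (Finset.mem_range.1 hm).le h1 h2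
      calc (ν / (ν + β)) ^ m *
        (((1 - ν⁻¹ • A) ^ m) 0 (ip N ζ) - ((1 - ν⁻¹ • A2) ^ m) 0 (ip N2 ζ))
          ≤ 1 * (((1 - ν⁻¹ • A) ^ m) 0 (ip N ζ) - ((1 - ν⁻¹ • A2) ^ m) 0 (ip N2 ζ)) :=
            mul_le_mul_of_nonneg_right (pow_le_one₀ hl0 hl1) h4.1
        _ ≤ tau κ C1 N T := by
            rw [one_mul]
            exact h4.2
    rw [Finset.sum_const, Finset.card_range, nsmul_eq_mul] at h3
    refine (mul_le_mul_of_nonneg_left h3 (show 0 ≤ (ν + β)⁻¹ by positivity)).trans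
      (le_of_eq ?_)
    ring

/-! ### the transport matrix -/

/-- the small part of the difference, on the window box -/
def dX (β ν : ℝ) (A : Matrix (V N) (V N) ℝ) (A2 : Matrix (V N2) (V N2) ℝ) (T D : ℕ) :
    Matrix (V N) (V N) ℝ :=
  Matrix.of fun x y => if sn x ≤ D ∧ sn y ≤ D then
    dk (sm β ν A2 T) (lf N2 x) (lf N2 y) - dk (sm β ν A T) x y else 0

/-- the smooth part of the torus `N2`, extended to the torus `N` -/
def gX (N : ℕ) [NeZero N] {N2 : ℕ} [NeZero N2] (β ν : ℝ) (A2 : Matrix (V N2) (V N2) ℝ)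
    (T D : ℕ) : Matrix (V N) (V N) ℝ :=
  Matrix.of fun x y => ∑ k : V N2 × Bool, wt A2 ν β T k.1 *
    ((if k.2 then uc N2 D k.1 x else us N2 D k.1 x) *
      (if k.2 then uc N2 D k.1 y else us N2 D k.1 y))

lemma lf_self (x : V N) : lf N x = x := by
  unfold lf ip
  exact Prod.ext (ZMod.coe_valMinAbs _) (ZMod.coe_valMinAbs _)

lemma gX_in (β ν : ℝ) (A2 : Matrix (V N2) (V N2) ℝ) {T D : ℕ} (hD : 1 ≤ D) {x y : V N}
    (hx : sn x ≤ D) (hy : sn y ≤ D) :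
    gX N β ν A2 T D x y = ∑ k, wt A2 ν β T k * pp k (lf N2 x) (lf N2 y) := by
  unfold gX
  simp only [Matrix.of_apply]
  rw [Fintype.sum_prod_type]
  refine Finset.sum_congr rfl fun k _ => ?_
  rw [Fintype.sum_bool]
  simp only [if_true, Bool.false_eq_true, if_false]
  unfold uc us pp
  rw [chi_in hD hx, chi_in hD hy]
  ring

lemma X_in {β : ℝ} (hdom : Dom A ν c) (hdom2 : Dom A2 ν c) (hβ : 0 ≤ β) {T D : ℕ} (hD : 1 ≤ D)
    {x y : V N} (hx : sn x ≤ D) (hy : sn y ≤ D) :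
    dX β ν A A2 T D x y + gX N β ν A2 T D x y - gX N β ν A T D x y =
      dk (cov β A2) (lf N2 x) (lf N2 y) - dk (cov β A) x y := by
  rw [gX_in β ν A2 hD hx hy, gX_in β ν A hD hx hy, dk_cov hdom2 hβ T, dk_cov hdom hβ T,
    lf_self, lf_self]
  unfold dX
  simp only [Matrix.of_apply]
  rw [if_pos ⟨hx, hy⟩]
  ring

lemma dk_ip (K : Matrix (V N) (V N) ℝ) (ζ ζ' : ℤ × ℤ) :
    dk K (ip N ζ) (ip N ζ') = K 0 (ip N (ζ' - ζ)) - K 0 (ip N (-ζ)) - K 0 (ip N ζ') +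
      K 0 (ip N 0) := by
  unfold dk
  rw [ip_sub, ip_neg, ip_zero]

lemma Two.dX_bd (hT : Two h A A2 ν c κ C1) {β : ℝ} (hβ : 0 ≤ β) {T D : ℕ} (hT1 : 1 ≤ T)
    (hDN : 8 * D ≤ N) (x y : V N) :
    |dX β ν A A2 T D x y| ≤ if sn x ≤ D ∧ sn y ≤ D then 2 * (T * tau κ C1 N T / (ν + β)) else 0 := by
  unfold dX
  simp only [Matrix.of_apply]
  split_ifs with hxy
  · obtain ⟨hx, hy⟩ := hxy
    rw [sn_eq] at hx hy
    have hx1 : x.1.valMinAbs.natAbs ≤ D := (le_max_left _ _).trans hx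
    have hx2 : x.2.valMinAbs.natAbs ≤ D := (le_max_right _ _).trans hx
    have hy1 : y.1.valMinAbs.natAbs ≤ D := (le_max_left _ _).trans hy
    have hy2 : y.2.valMinAbs.natAbs ≤ D := (le_max_right _ _).trans hy
    have e1 : x = ip N (x.1.valMinAbs, x.2.valMinAbs) := (lf_self x).symm
    have e2 : y = ip N (y.1.valMinAbs, y.2.valMinAbs) := (lf_self y).symm
    have e3 : dk (sm β ν A T) x y = dk (sm β ν A T) (ip N (x.1.valMinAbs, x.2.valMinAbs))
        (ip N (y.1.valMinAbs, y.2.valMinAbs)) := by rw [← e1, ← e2]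
    rw [e3]
    unfold lf
    rw [dk_ip, dk_ip]
    have s1 := hT.sm_diff hβ hT1 (ζ := (y.1.valMinAbs, y.2.valMinAbs) -
      (x.1.valMinAbs, x.2.valMinAbs)) (by simp only [Prod.mk_sub_mk]; omega)
      (by simp only [Prod.mk_sub_mk]; omega)
    have s2 := hT.sm_diff hβ hT1 (ζ := -(x.1.valMinAbs, x.2.valMinAbs))
      (by simp only [Prod.neg_mk]; omega) (by simp only [Prod.neg_mk]; omega)
    have s3 := hT.sm_diff hβ hT1 (ζ := (y.1.valMinAbs, y.2.valMinAbs))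
      (by simp only; omega) (by simp only; omega)
    have s4 := hT.sm_diff hβ hT1 (ζ := (0 : ℤ × ℤ)) (by simp) (by simp)
    obtain ⟨a1, b1⟩ := s1
    obtain ⟨a2, b2⟩ := s2
    obtain ⟨a3, b3⟩ := s3
    obtain ⟨a4, b4⟩ := s4
    rw [abs_le]
    constructor <;> linarith
  · rw [abs_zero]

lemma Two.dX_hs (hT : Two h A A2 ν c κ C1) {β : ℝ} (hβ : 0 ≤ β) {T D : ℕ} (hT1 : 1 ≤ T)
    (hDN : 8 * D ≤ N) :
    ∑ x, ∑ y, dX β ν A A2 T D x y ^ 2 ≤
      ((2 * D + 1) ^ 2 * (2 * (T * tau κ C1 N T / (ν + β)))) ^ 2 := by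
  have hν := hT.dom.hν
  set e : ℝ := 2 * (T * tau κ C1 N T / (ν + β)) with he
  have he0 : 0 ≤ e := by
    have := tau_nonneg κ C1 N T
    positivity
  clear_value e
  have h1 : ∀ x y : V N, dX β ν A A2 T D x y ^ 2 ≤
      (if sn x ≤ D then (1 : ℝ) else 0) * (if sn y ≤ D then (1 : ℝ) else 0) * e ^ 2 := by
    intro x y
    have h2 := hT.dX_bd hβ hT1 hDN x y
    rw [← he] at h2
    rw [← sq_abs]
    by_cases hx : sn x ≤ D
    · by_cases hy : sn y ≤ D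
      · rw [if_pos ⟨hx, hy⟩] at h2
        rw [if_pos hx, if_pos hy, one_mul, one_mul]
        exact pow_le_pow_left₀ (abs_nonneg _) h2 2
      · rw [if_neg (fun h => hy h.2)] at h2
        rw [if_neg hy, mul_zero, zero_mul]
        have := abs_nonneg (dX β ν A A2 T D x y)
        nlinarith
    · rw [if_neg (fun h => hx h.1)] at h2
      rw [if_neg hx, zero_mul, zero_mul]
      have := abs_nonneg (dX β ν A A2 T D x y)
      nlinarith
  have h2 : ∑ x : V N, (if sn x ≤ D then (1 : ℝ) else 0) ≤ (2 * D + 1) ^ 2 := by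
    rw [← Finset.sum_filter, Finset.sum_const, nsmul_eq_mul, mul_one]
    refine le_trans ?_ (H462.card_box (0 : V N) D)
    have : univ.filter (fun x : V N => sn x ≤ D) ⊆ H462.box (0 : V N) D := by
      intro x hx
      have hx' := (Finset.mem_filter.1 hx).2
      rw [sn_eq] at hx'
      rw [H462.mem_box, sub_zero]
      exact ⟨(le_max_left _ _).trans hx', (le_max_right _ _).trans hx'⟩
    exact_mod_cast Finset.card_le_card this
  refine (Finset.sum_le_sum fun x _ => Finset.sum_le_sum fun y _ => h1 x y).trans ?_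
  have h3 : ∑ x : V N, ∑ y : V N, (if sn x ≤ D then (1 : ℝ) else 0) *
      (if sn y ≤ D then (1 : ℝ) else 0) * e ^ 2 =
      ((∑ x : V N, (if sn x ≤ D then (1 : ℝ) else 0)) * e) ^ 2 := by
    rw [mul_pow, sq (∑ x : V N, (if sn x ≤ D then (1 : ℝ) else 0)), Finset.sum_mul_sum,
      Finset.sum_mul]
    refine Finset.sum_congr rfl fun x _ => ?_
    rw [Finset.sum_mul]
  rw [h3]
  refine pow_le_pow_left₀ ?_ (mul_le_mul_of_nonneg_right h2 he0) 2
  exact mul_nonneg (Finset.sum_nonneg fun x _ => by split_ifs <;> norm_num) he0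

/-- the smooth error -/
def etS (ν c κ C1 β : ℝ) (m D : ℕ) : ℝ :=
  ν / (m * c ^ 2) * (5000 * C1 * ν * D ^ 2 / κ ^ 2 + 1000 * β * D ^ 4)

lemma ic_sq {β : ℝ} (hdom : Dom A ν c) (hβ : 0 ≤ β) (k : V N) :
    ((√(phi A β k))⁻¹) ^ 2 ≤ sym A k + β := by
  have h1 := hdom.nn k
  by_cases hk : k = 0
  · unfold phi
    rw [if_pos hk, Real.sqrt_zero, _root_.inv_zero]
    nlinarith
  · rw [inv_pow, Real.sq_sqrt (phi_nonneg hdom hβ k)]
    unfold phi
    rw [if_neg hk, inv_inv]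

lemma icov_u {β : ℝ} (hdom : Dom A ν c) (hβ : 0 ≤ β) (u : V N → ℝ) :
    ∑ x, (icov β A *ᵥ u) x ^ 2 ≤
      ν * (u ⬝ᵥ u - u ⬝ᵥ ((1 - ν⁻¹ • A) *ᵥ u)) + β * (u ⬝ᵥ u) := by
  have hν := hdom.hν
  unfold icov
  rw [sq_mlt _ (fun k => by rw [phi_neg])]
  have h1 : qf (mlt fun k => ((√(phi A β k))⁻¹) ^ 2) u ≤
      qf (A + β • (1 : Matrix (V N) (V N) ℝ)) u := by
    refine (H864.qf_le_iff (H864.ti_mlt _) (hdom.ti.add (TI.smul _ TI.one))).2 (fun k => ?_) _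
    rw [H864.sym_mlt _ (fun k => by rw [phi_neg]), H864.sym_add, H864.sym_smul_one]
    exact ic_sq hdom hβ k
  refine h1.trans (le_of_eq ?_)
  have h2 : ∀ M : Matrix (V N) (V N) ℝ, qf M u = u ⬝ᵥ (M *ᵥ u) := by
    intro M
    unfold qf dotProduct Matrix.mulVec dotProduct
    refine Finset.sum_congr rfl fun x _ => ?_
    rw [Finset.mul_sum]
    refine Finset.sum_congr rfl fun y _ => ?_
    ring
  rw [h2, Matrix.add_mulVec, Matrix.smul_mulVec, Matrix.one_mulVec, Matrix.sub_mulVec,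
    Matrix.smul_mulVec, Matrix.one_mulVec, dotProduct_add, dotProduct_sub, dotProduct_smul,
    dotProduct_smul, smul_eq_mul, smul_eq_mul]
  field_simp
  ring

/-- trace bound of a smooth part, seen from the torus `N` -/
lemma Two.gX_hs (hT : Two h A A2 ν c κ C1) {N3 : ℕ} [NeZero N3] {A3 : Matrix (V N3) (V N3) ℝ}
    (hdom3 : Dom A3 ν c) {β : ℝ} (hβ : 0 ≤ β) {m D : ℕ} (hm : 1 ≤ m) (hD : 1 ≤ D)
    (hDN : 8 * D ≤ N) :
    ∑ x, ∑ y, (icov β A * gX N β ν A3 (2 * m + 1) D * icov β A) x y ^ 2 ≤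
      etS ν c κ C1 β m D ^ 2 := by
  have hν := hT.dom.hν
  have hc := hT.dom.hc
  have hκ := hT.kp
  have hm' : (0 : ℝ) < m := by exact_mod_cast hm
  have hw : ∀ k, 0 ≤ wt A3 ν β (2 * m + 1) k := wt_nonneg hdom3 hβ _
  have hG := smooth hdom3 hβ hm
  set G0 : ℝ := 10 * ν / (m * c ^ 2) with hG0
  have hG0' : 0 ≤ G0 := by positivity
  have e1 : ∀ x y, (icov β A * gX N β ν A3 (2 * m + 1) D * icov β A) x y =
      ∑ k : V N3 × Bool, wt A3 ν β (2 * m + 1) k.1 *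
        ((icov β A *ᵥ fun x => if k.2 then uc N3 D k.1 x else us N3 D k.1 x) x *
        (icov β A *ᵥ fun x => if k.2 then uc N3 D k.1 x else us N3 D k.1 x) y) := by
    intro x y
    exact conj_rank (K := V N3 × Bool) _ (fun k => wt A3 ν β (2 * m + 1) k.1)
      (fun k x => if k.2 then uc N3 D k.1 x else us N3 D k.1 x) x y
  simp_rw [e1]
  have h1 := hs_rank (K := V N3 × Bool) (fun k => wt A3 ν β (2 * m + 1) k.1) (fun k => hw k.1)
    (fun k => icov β A *ᵥ fun x => if k.2 then uc N3 D k.1 x else us N3 D k.1 x)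
  refine h1.trans (pow_le_pow_left₀ ?_ ?_ 2)
  · exact Finset.sum_nonneg fun k _ => mul_nonneg (hw k.1)
      (Finset.sum_nonneg fun x _ => sq_nonneg _)
  · rw [Fintype.sum_prod_type]
    simp_rw [Fintype.sum_bool]
    simp only [if_true, Bool.false_eq_true, if_false]
    have h2 : ∀ k : V N3, wt A3 ν β (2 * m + 1) k * ∑ x, (icov β A *ᵥ fun x => uc N3 D k x) x ^ 2 +
        wt A3 ν β (2 * m + 1) k * ∑ x, (icov β A *ᵥ fun x => us N3 D k x) x ^ 2 ≤
        ν * (wt A3 ν β (2 * m + 1) k *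
          (((uc N3 D k : V N → ℝ) ⬝ᵥ uc N3 D k - uc N3 D k ⬝ᵥ ((1 - ν⁻¹ • A) *ᵥ uc N3 D k)) +
          ((us N3 D k : V N → ℝ) ⬝ᵥ us N3 D k - us N3 D k ⬝ᵥ ((1 - ν⁻¹ • A) *ᵥ us N3 D k)))) +
        β * (wt A3 ν β (2 * m + 1) k *
          ((uc N3 D k : V N → ℝ) ⬝ᵥ uc N3 D k + (us N3 D k : V N → ℝ) ⬝ᵥ us N3 D k)) := by
      intro k
      have g1 := mul_le_mul_of_nonneg_left (icov_u hT.dom hβ (uc N3 D k)) (hw k)
      have g2 := mul_le_mul_of_nonneg_left (icov_u hT.dom hβ (us N3 D k)) (hw k)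
      have g3 := add_le_add g1 g2
      refine g3.trans (le_of_eq ?_)
      ring
    refine (Finset.sum_le_sum fun k _ => h2 k).trans ?_
    rw [Finset.sum_add_distrib, ← Finset.mul_sum, ← Finset.mul_sum]
    have h3 := energy_bd (ti_step hT.dom.ti ν) hT.h0 (step_row hT.dom) hT.mom2 hw hG hG0' hD hDN
    have h4 := mass_bd (N := N) (w := wt A3 ν β (2 * m + 1)) hG hG0' hD
    have h5 := mul_le_mul_of_nonneg_left h3 hν.le
    have h6 := mul_le_mul_of_nonneg_left h4 hβ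
    refine (add_le_add h5 h6).trans (le_of_eq ?_)
    unfold etS
    rw [hG0]
    field_simp
    ring

/-- the total Hilbert-Schmidt error -/
def eta (ν c κ C1 β : ℝ) (N m D : ℕ) : ℝ :=
  3 * etS ν c κ C1 β m D + 4 * (2 * m + 1 : ℕ) * (2 * D + 1) ^ 2 * tau κ C1 N (2 * m + 1)

variable {J : Type*}

/-- **TORG**, covariance form -/
theorem torg (hT : Two h A A2 ν c κ C1) {β : ℝ} (hβ : 0 ≤ β) {m D : ℕ} (hm : 1 ≤ m) (hD : 1 ≤ D)
    (hDN : 8 * D ≤ N) (z : J → ℤ × ℤ) (hz : ∀ j, (z j).1.natAbs ≤ D ∧ (z j).2.natAbs ≤ D)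
    (b : V N) (b2 : V N2) :
    ∃ (B : Matrix J (V N) ℝ) (H : Matrix (V N) (V N) ℝ), Hᵀ = H ∧
      ∑ x, ∑ y, H x y ^ 2 ≤ eta ν c κ C1 β N m D ^ 2 ∧
      inc b (fun j => b + ip N (z j)) * cov β A * (inc b (fun j => b + ip N (z j)))ᵀ = B * Bᵀ ∧
      inc b2 (fun j => b2 + ip N2 (z j)) * cov β A2 * (inc b2 (fun j => b2 + ip N2 (z j)))ᵀ =
        B * (1 + H) * Bᵀ := by
  have hν := hT.dom.hν
  set T : ℕ := 2 * m + 1 with hTdef
  have hT1 : 1 ≤ T := by omega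
  set W : Matrix J (V N) ℝ := inc 0 (fun j => ip N (z j)) with hW
  set X : Matrix (V N) (V N) ℝ := dX β ν A A2 T D + gX N β ν A2 T D - gX N β ν A T D with hX
  set H : Matrix (V N) (V N) ℝ := icov β A * X * icov β A with hH
  have dsym : ∀ {M : ℕ} [NeZero M] {K : Matrix (V M) (V M) ℝ} (hK : TI K) (a b : V M),
      dk K a b = dk K b a := by
    intro M _ K hK a b
    unfold dk
    rw [← hK.ev (b - a), neg_sub, hK.ev a, hK.ev b]
    ring
  have hXs : Xᵀ = X := by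
    ext x y
    rw [Matrix.transpose_apply, hX]
    simp only [Matrix.sub_apply, Matrix.add_apply]
    have d1 : dX β ν A A2 T D y x = dX β ν A A2 T D x y := by
      unfold dX
      simp only [Matrix.of_apply]
      rw [dsym (ti_sm hT.dom2.ti β ν T) (lf N2 y), dsym (ti_sm hT.dom.ti β ν T) y]
      simp only [and_comm]
    have d2 : ∀ {M : ℕ} [NeZero M] (A3 : Matrix (V M) (V M) ℝ),
        gX N β ν A3 T D y x = gX N β ν A3 T D x y := by
      intro M _ A3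
      unfold gX
      simp only [Matrix.of_apply]
      exact Finset.sum_congr rfl fun k _ => by ring
    rw [d1, d2, d2]
  have hHs : Hᵀ = H := by
    rw [hH, Matrix.transpose_mul, Matrix.transpose_mul, hXs]
    unfold icov
    rw [mlt_tr, Matrix.mul_assoc]
  refine ⟨W * hcov β A, H, hHs, ?_, ?_, ?_⟩
  · -- the size
    have e1 : ∀ x y, H x y ^ 2 ≤ 3 * ((icov β A * dX β ν A A2 T D * icov β A) x y ^ 2 +
        (icov β A * gX N β ν A2 T D * icov β A) x y ^ 2 +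
        (icov β A * gX N β ν A T D * icov β A) x y ^ 2) := by
      intro x y
      have e2 : H x y = (icov β A * dX β ν A A2 T D * icov β A) x y +
          (icov β A * gX N β ν A2 T D * icov β A) x y -
          (icov β A * gX N β ν A T D * icov β A) x y := by
        rw [hH, hX, Matrix.mul_sub, Matrix.mul_add, Matrix.sub_mul, Matrix.add_mul]
        rfl
      rw [e2]
      set p := (icov β A * dX β ν A A2 T D * icov β A) x y
      set q := (icov β A * gX N β ν A2 T D * icov β A) x y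
      set r := (icov β A * gX N β ν A T D * icov β A) x y
      nlinarith [sq_nonneg (p - q), sq_nonneg (p + r), sq_nonneg (q + r)]
    have e3 : ∑ x, ∑ y, H x y ^ 2 ≤ ∑ x, ∑ y, 3 * ((icov β A * dX β ν A A2 T D * icov β A) x y ^ 2 +
        (icov β A * gX N β ν A2 T D * icov β A) x y ^ 2 +
        (icov β A * gX N β ν A T D * icov β A) x y ^ 2) :=
      Finset.sum_le_sum fun x _ => Finset.sum_le_sum fun y _ => e1 x y
    simp_rw [← Finset.mul_sum, Finset.sum_add_distrib] at e3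
    have g2 := hT.gX_hs hT.dom2 hβ hm hD hDN
    have g3 := hT.gX_hs hT.dom hβ hm hD hDN
    have hb : ∀ k, ((√(phi A β k))⁻¹) ^ 2 ≤ ν + β := fun k =>
      (ic_sq hT.dom hβ k).trans (by linarith [hT.dom.le k])
    have g1 : ∑ x, ∑ y, (icov β A * dX β ν A A2 T D * icov β A) x y ^ 2 ≤
        (ν + β) ^ 2 * ∑ x, ∑ y, dX β ν A A2 T D x y ^ 2 :=
      hs_conj (fun k => (√(phi A β k))⁻¹) (fun k => by rw [phi_neg]) (by linarith) hb _
    have g4 := mul_le_mul_of_nonneg_left (hT.dX_hs hβ hT1 hDN) (sq_nonneg (ν + β))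
    have g5 : (ν + β) ^ 2 * ((2 * D + 1) ^ 2 * (2 * (T * tau κ C1 N T / (ν + β)))) ^ 2 =
        (2 * T * (2 * (D : ℝ) + 1) ^ 2 * tau κ C1 N T) ^ 2 := by
      have : 0 < ν + β := by linarith
      field_simp
    rw [g5] at g4
    set s := etS ν c κ C1 β m D with hs
    set t := 2 * (T : ℝ) * (2 * (D : ℝ) + 1) ^ 2 * tau κ C1 N T with ht
    have hs0 : 0 ≤ s := by
      rw [hs]
      unfold etS
      have := hT.C1_nonneg
      have := hT.kp
      have := hT.dom.hc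
      positivity
    have ht0 : 0 ≤ t := by
      rw [ht]
      have := tau_nonneg κ C1 N T
      positivity
    have g6 : eta ν c κ C1 β N m D = 3 * s + 2 * t := by
      unfold eta
      rw [hs, ht, hTdef]
      ring
    rw [g6]
    have g7 : ∑ x, ∑ y, H x y ^ 2 ≤ 3 * (t ^ 2 + s ^ 2 + s ^ 2) := by linarith
    nlinarith [mul_nonneg hs0 ht0]
  · -- the law on the small torus
    rw [Matrix.transpose_mul, Matrix.mul_assoc W, ← Matrix.mul_assoc (hcov β A),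
      hcov_sq hT.dom hβ]
    ext i j
    rw [inc_TI (ti_cov β A), ← Matrix.mul_assoc, hW,
      inc_TI (ti_cov β A) 0 (fun j => ip N (z j)) i j]
    simp only [add_sub_cancel_left, sub_zero]
  · -- the law on the large torus
    have f1 : W * hcov β A * icov β A = W := inc_hi hT.dom hβ 0 _
    have f2 : icov β A * (W * hcov β A)ᵀ = Wᵀ := by
      have : icov β A * (W * hcov β A)ᵀ = (W * hcov β A * icov β A)ᵀ := by
        rw [Matrix.transpose_mul (W * hcov β A)]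
        unfold icov
        rw [mlt_tr]
      rw [this, f1]
    have f3 : W * hcov β A * (1 + H) * (W * hcov β A)ᵀ = W * cov β A * Wᵀ + W * X * Wᵀ := by
      rw [Matrix.mul_add, Matrix.add_mul, Matrix.mul_one]
      congr 1
      · rw [Matrix.transpose_mul, Matrix.mul_assoc W, ← Matrix.mul_assoc (hcov β A),
          hcov_sq hT.dom hβ, ← Matrix.mul_assoc]
      · rw [hH, show W * hcov β A * (icov β A * X * icov β A) * (W * hcov β A)ᵀ =
          (W * hcov β A * icov β A) * X * (icov β A * (W * hcov β A)ᵀ) by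
            simp only [Matrix.mul_assoc], f1, f2]
    rw [f3]
    ext i j
    rw [inc_TI (ti_cov β A2), Matrix.add_apply]
    have q2 : (W * cov β A * Wᵀ) i j = dk (cov β A) (ip N (z i)) (ip N (z j)) := by
      rw [hW, inc_TI (ti_cov β A) 0 (fun j => ip N (z j)) i j]
      simp only [sub_zero]
    have hz1 : ∀ j, sn (ip N (z j)) ≤ D := fun j => sn_ip_le (hz j).1 (hz j).2
    have hz0 : sn (0 : V N) ≤ D := by
      rw [TM.H459.sn_zero]
      exact Nat.zero_le _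
    have hlf : ∀ j, lf N2 (ip N (z j)) = ip N2 (z j) := fun j =>
      lf_ip (hz j).1 (hz j).2 (by omega)
    have q3 : (W * X * Wᵀ) i j = dk (cov β A2) (ip N2 (z i)) (ip N2 (z j)) -
        dk (cov β A) (ip N (z i)) (ip N (z j)) := by
      rw [hW, mul_incT, inc_mul, inc_mul, hX]
      simp only [Matrix.sub_apply, Matrix.add_apply]
      rw [X_in hT.dom hT.dom2 hβ hD (hz1 i) (hz1 j), X_in hT.dom hT.dom2 hβ hD hz0 (hz1 j),
        X_in hT.dom hT.dom2 hβ hD (hz1 i) hz0, X_in hT.dom hT.dom2 hβ hD hz0 hz0, hlf, hlf,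
        lf_zero, dk_zero_left, dk_zero_left, dk_zero_left, dk_zero_left, dk_zero_right,
        dk_zero_right]
      ring
    rw [q2, q3]
    simp only [add_sub_cancel_left]
    show dk (cov β A2) (ip N2 (z i)) (ip N2 (z j)) = _
    ring

end two

end

end Vale.Agent.P159.H733.Torg
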