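import Vale.Agent.P159.H733.TorgE

/-!
P159 / TORG (helper733), part F: entrywise comparison (E) of the covariances on two tori,
l1 stability, near periodizations, and the Hilbert-Schmidt form with constants (TORG+).
-/

set_option linter.unusedSectionVars false

namespace Vale.Agent.P159.H733.Torg

open Finset Matrix MeasureTheory
open Vale.Agent.P159.TM.H764 (cN sN dt EE)
open Vale.Agent.P159.TM.Spec (V)
open Vale.Agent.P159.H864 (TI sym mlt fc hsq)
open Vale.Agent.P159.H462 (Dom)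
open Vale.Agent.P159.TM.H459 (sn)
open Vale.Agent.P159.H37 (gau qf)

noncomputable section

/-! ### entrywise small = Hilbert-Schmidt small, when the covariance is bounded below -/

section gen

variable {I J L : Type*} [Fintype I] [Fintype J] [Fintype L]

lemma hs_op {K : Matrix I J ℝ} {b : ℝ}
    (hK : ∀ v : J → ℝ, ∑ i, (K *ᵥ v) i ^ 2 ≤ b * ∑ j, v j ^ 2) (M : Matrix J L ℝ) :
    ∑ i, ∑ l, (K * M) i l ^ 2 ≤ b * ∑ j, ∑ l, M j l ^ 2 := by
  rw [Finset.sum_comm, Finset.sum_comm (f := fun j l => M j l ^ 2), Finset.mul_sum]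
  refine Finset.sum_le_sum fun l _ => ?_
  exact hK fun j => M j l

lemma qf_gram (B : Matrix J I ℝ) (u : J → ℝ) :
    ∑ i, (Bᵀ *ᵥ u) i ^ 2 = u ⬝ᵥ ((B * Bᵀ) *ᵥ u) := by
  have h1 : ∑ i, (Bᵀ *ᵥ u) i ^ 2 = (Bᵀ *ᵥ u) ⬝ᵥ (Bᵀ *ᵥ u) := by
    unfold dotProduct
    exact Finset.sum_congr rfl fun i _ => by ring
  rw [h1, ← Matrix.mulVec_mulVec, Matrix.dotProduct_mulVec u, ← Matrix.mulVec_transpose]

lemma sym_conj (K : Matrix I J ℝ) {E : Matrix J J ℝ} (hE : Eᵀ = E) :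
    (K * E * Kᵀ)ᵀ = K * E * Kᵀ := by
  rw [Matrix.transpose_mul, Matrix.transpose_mul, Matrix.transpose_transpose, hE,
    Matrix.mul_assoc]

/-- an entrywise small change of a covariance bounded below is a Hilbert-Schmidt small relative
change -/
theorem hs_of_ent [DecidableEq I] [DecidableEq J] {B1 : Matrix J I ℝ} {G2 : Matrix J J ℝ}
    (hG2 : G2ᵀ = G2) {g : ℝ} (hg : 0 < g)
    (h : ∀ u : J → ℝ, g * ∑ j, u j ^ 2 ≤ ∑ i, (B1ᵀ *ᵥ u) i ^ 2) :
    ∃ H : Matrix I I ℝ, Hᵀ = H ∧ B1 * (1 + H) * B1ᵀ = G2 ∧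
      ∑ x, ∑ y, H x y ^ 2 ≤ (g⁻¹) ^ 2 * ∑ i, ∑ j, (G2 - B1 * B1ᵀ) i j ^ 2 := by
  set G : Matrix J J ℝ := B1 * B1ᵀ with hG
  have hGt : Gᵀ = G := by rw [hG, Matrix.transpose_mul, Matrix.transpose_transpose]
  -- invertibility
  have hinj : Function.Injective G.mulVec := by
    intro u v huv
    have huv' : G *ᵥ u = G *ᵥ v := huv
    have h1 : G *ᵥ (u - v) = 0 := by
      rw [Matrix.mulVec_sub, huv', sub_self]
    have h2 := h (u - v)
    rw [qf_gram, ← hG, h1, dotProduct_zero] at h2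
    have h3 : ∑ j, (u - v) j ^ 2 ≤ 0 := by
      by_contra hc
      push Not at hc
      have := mul_pos hg hc
      linarith
    have h4 : ∀ j, (u - v) j ^ 2 = 0 := by
      intro j
      have h5 : (u - v) j ^ 2 ≤ ∑ j, (u - v) j ^ 2 :=
        Finset.single_le_sum (f := fun j => (u - v) j ^ 2) (fun i _ => sq_nonneg _)
          (Finset.mem_univ j)
      exact le_antisymm (h5.trans h3) (sq_nonneg _)
    funext j
    have h5 := pow_eq_zero_iff (two_ne_zero) |>.1 (h4 j)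
    rw [Pi.sub_apply] at h5
    linarith
  have hu : IsUnit G := Matrix.mulVec_injective_iff_isUnit.1 hinj
  have hud : IsUnit G.det := (Matrix.isUnit_iff_isUnit_det G).1 hu
  set Gi : Matrix J J ℝ := G⁻¹ with hGi
  have hGG : G * Gi = 1 := Matrix.mul_nonsing_inv G hud
  have hGit : Giᵀ = Gi := by rw [hGi, Matrix.transpose_nonsing_inv, hGt]
  set K : Matrix I J ℝ := B1ᵀ * Gi with hK
  have hBK : B1 * K = 1 := by rw [hK, ← Matrix.mul_assoc, ← hG, hGG]
  have hKB : Kᵀ * B1ᵀ = 1 := by rw [← Matrix.transpose_mul, hBK, Matrix.transpose_one]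
  set E : Matrix J J ℝ := G2 - G with hE
  have hEt : Eᵀ = E := by rw [hE, Matrix.transpose_sub, hG2, hGt]
  refine ⟨K * E * Kᵀ, ?_, ?_, ?_⟩
  · exact sym_conj K hEt
  · rw [Matrix.mul_add, Matrix.add_mul, Matrix.mul_one, ← hG,
      show B1 * (K * E * Kᵀ) * B1ᵀ = (B1 * K) * E * (Kᵀ * B1ᵀ) by simp only [Matrix.mul_assoc],
      hBK, hKB, Matrix.one_mul, Matrix.mul_one, hE]
    abel
  · -- operator bound of `K`
    have hop : ∀ v : J → ℝ, ∑ i, (K *ᵥ v) i ^ 2 ≤ g⁻¹ * ∑ j, v j ^ 2 := by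
      intro v
      set u : J → ℝ := Gi *ᵥ v with hu'
      have e1 : K *ᵥ v = B1ᵀ *ᵥ u := by rw [hK, hu', Matrix.mulVec_mulVec]
      have e2 : G *ᵥ u = v := by rw [hu', Matrix.mulVec_mulVec, hGG, Matrix.one_mulVec]
      have e3 : ∑ i, (K *ᵥ v) i ^ 2 = u ⬝ᵥ v := by rw [e1, qf_gram, ← hG, e2]
      have e4 := h u
      rw [qf_gram, ← hG, e2] at e4
      have e5 : (u ⬝ᵥ v) ^ 2 ≤ (∑ j, u j ^ 2) * ∑ j, v j ^ 2 := by
        unfold dotProduct
        exact Finset.sum_mul_sq_le_sq_mul_sq univ u v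
      rw [e3]
      have hv0 : 0 ≤ ∑ j, v j ^ 2 := Finset.sum_nonneg fun j _ => sq_nonneg _
      have hu0 : 0 ≤ ∑ j, u j ^ 2 := Finset.sum_nonneg fun j _ => sq_nonneg _
      have hs0 : 0 ≤ u ⬝ᵥ v := le_trans (mul_nonneg hg.le hu0) e4
      by_contra hc
      push Not at hc
      have hpos : 0 < u ⬝ᵥ v := lt_of_le_of_lt (mul_nonneg (by positivity) hv0) hc
      have h6 : ∑ j, v j ^ 2 < g * (u ⬝ᵥ v) := by
        rw [inv_mul_lt_iff₀ hg] at hc
        exact hc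
      have h7 : (∑ j, u j ^ 2) * ∑ j, v j ^ 2 ≤ (∑ j, u j ^ 2) * (g * (u ⬝ᵥ v)) :=
        mul_le_mul_of_nonneg_left h6.le hu0
      have h8 : (∑ j, u j ^ 2) * (g * (u ⬝ᵥ v)) ≤ (u ⬝ᵥ v) * (u ⬝ᵥ v) := by
        have := mul_le_mul_of_nonneg_right e4 hpos.le
        nlinarith
      -- strictness
      rcases eq_or_lt_of_le hu0 with h9 | h9
      · rw [← h9, zero_mul] at e5
        have : 0 < (u ⬝ᵥ v) ^ 2 := by positivity
        linarith
      · have h10 := mul_lt_mul_of_pos_left h6 h9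
        nlinarith
    have h1 := hs_op hop (E * Kᵀ)
    have h2 : ∑ j, ∑ l, (E * Kᵀ) j l ^ 2 = ∑ l, ∑ j, (K * Eᵀ) l j ^ 2 := by
      rw [Finset.sum_comm]
      refine Finset.sum_congr rfl fun l _ => Finset.sum_congr rfl fun j _ => ?_
      have : K * Eᵀ = (E * Kᵀ)ᵀ := by rw [Matrix.transpose_mul, Matrix.transpose_transpose]
      rw [this, Matrix.transpose_apply]
    have h3 := hs_op hop Eᵀ
    have h4 : ∑ j, ∑ l, Eᵀ j l ^ 2 = ∑ i, ∑ j, E i j ^ 2 := by
      rw [Finset.sum_comm]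
      rfl
    rw [h4] at h3
    rw [Matrix.mul_assoc]
    refine h1.trans ?_
    rw [h2, sq g⁻¹, mul_assoc]
    exact mul_le_mul_of_nonneg_left h3 (by positivity)

end gen

variable {N N2 : ℕ} [NeZero N] [NeZero N2]

/-! ### kernels relative to their value at `0` -/

/-- `K` has the symbol `(α + β)⁻¹` off the constant mode -/
structure Cv (β : ℝ) (A K : Matrix (V N) (V N) ℝ) : Prop where
  ti : TI K
  sy : ∀ k, k ≠ 0 → sym K k = (sym A k + β)⁻¹

lemma cv_cov (β : ℝ) (A : Matrix (V N) (V N) ℝ) : Cv β A (cov β A) := by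
  refine ⟨ti_cov β A, fun k hk => ?_⟩
  unfold cov
  rw [H864.sym_mlt _ (phi_neg A β)]
  unfold phi
  rw [if_neg hk]

lemma cv_gm (β : ℝ) (A : Matrix (V N) (V N) ℝ) : Cv β A (gm β A) :=
  ⟨ti_gm β A, fun k _ => sym_gm β A k⟩

/-- a kernel through its symbol -/
lemma ker_sym {K : Matrix (V N) (V N) ℝ} (hK : TI K) (a : V N) :
    K 0 a - K 0 0 = ((N : ℝ) ^ 2)⁻¹ * ∑ k, sym K k * (cN (dt k a) - 1) := by
  conv_lhs => rw [← H864.mlt_sym hK]
  unfold mlt
  simp only [Matrix.of_apply, sub_zero]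
  rw [← mul_sub, ← Finset.sum_sub_distrib]
  congr 1
  refine Finset.sum_congr rfl fun k _ => ?_
  rw [H864.dt_zero, TM.H764.cN_zero]
  ring

lemma Cv.ent {β ν c : ℝ} {A K : Matrix (V N) (V N) ℝ} (hK : Cv β A K) (h : Dom A ν c)
    (hβ : 0 ≤ β) (T : ℕ) (a : V N) :
    K 0 a - K 0 0 = (sm β ν A T 0 a - sm β ν A T 0 0) +
      ∑ k, wt A ν β T k * (cN (dt k a) - 1) := by
  rw [ker_sym hK.ti, ker_sym (ti_sm h.ti β ν T), Finset.mul_sum, Finset.mul_sum,
    ← Finset.sum_add_distrib]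
  refine Finset.sum_congr rfl fun k _ => ?_
  by_cases hk : k = 0
  · rw [hk, H864.dt_zero_left, TM.H764.cN_zero]
    ring
  · rw [hK.sy k hk, sym_sm h.ti]
    unfold wt
    rw [if_neg hk]
    have hα := sym_pos h hk
    have hν := h.hν
    set r : ℝ := ν / (ν + β) * (1 - sym A k / ν) with hr
    have h2 : 1 - r = (sym A k + β) / (ν + β) := by
      rw [hr]
      field_simp
      ring
    have h3 := mul_neg_geom_sum r T
    rw [h2] at h3
    have h4 : (sym A k + β)⁻¹ = (ν + β)⁻¹ * ∑ m ∈ range T, r ^ m + r ^ T / (sym A k + β) := by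
      have h5 : 0 < sym A k + β := by linarith
      have h6 : 0 < ν + β := by linarith
      have h7 : ∑ m ∈ range T, r ^ m = (1 - r ^ T) * ((ν + β) / (sym A k + β)) := by
        rw [← h3]
        field_simp
      rw [h7]
      field_simp
      ring
    rw [h4]
    ring

/-- the smooth part on a window -/
lemma smooth_ent {A : Matrix (V N) (V N) ℝ} {ν c : ℝ} (h : Dom A ν c) {β : ℝ} (hβ : 0 ≤ β) {m : ℕ}
    (hm : 1 ≤ m) {D : ℕ} {a : V N} (ha : sn a ≤ D) :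
    -(5 * ν * D ^ 2 / (m * c ^ 2)) ≤ ∑ k, wt A ν β (2 * m + 1) k * (cN (dt k a) - 1) ∧
    ∑ k, wt A ν β (2 * m + 1) k * (cN (dt k a) - 1) ≤ 0 := by
  have hν := h.hν
  have hc := h.hc
  have hm' : (0 : ℝ) < m := by exact_mod_cast hm
  have h1 := smooth h hβ hm a
  have h2 : ∑ k, wt A ν β (2 * m + 1) k * (2 * (1 - cN (dt k a))) =
      -2 * ∑ k, wt A ν β (2 * m + 1) k * (cN (dt k a) - 1) := by
    rw [Finset.mul_sum]
    exact Finset.sum_congr rfl fun k _ => by ring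
  rw [h2] at h1
  have h3 : (sn a : ℝ) ^ 2 ≤ (D : ℝ) ^ 2 :=
    pow_le_pow_left₀ (Nat.cast_nonneg _) (by exact_mod_cast ha) 2
  have h4 : 10 * ν / (m * c ^ 2) * (sn a : ℝ) ^ 2 ≤ 10 * ν / (m * c ^ 2) * (D : ℝ) ^ 2 :=
    mul_le_mul_of_nonneg_left h3 (by positivity)
  have h5 : 10 * ν / (m * c ^ 2) * (D : ℝ) ^ 2 = 2 * (5 * ν * D ^ 2 / (m * c ^ 2)) := by ring
  constructor
  · linarith
  · refine Finset.sum_nonpos fun k _ => ?_
    refine mul_nonpos_of_nonneg_of_nonpos (wt_nonneg h hβ _ k) ?_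
    have := TM.H764.cN_le_one (dt k a)
    linarith

/-! ### l1 stability on one torus -/

/-- two step kernels, close in `l1` and in sup norm -/
structure Stb (S S' : Matrix (V N) (V N) ℝ) (η s : ℝ) : Prop where
  ti : TI S
  ti' : TI S'
  nn : ∀ x y, 0 ≤ S x y
  nn' : ∀ x y, 0 ≤ S' x y
  row : ∀ x, ∑ y, S x y = 1
  row' : ∀ x, ∑ y, S' x y = 1
  l1 : ∑ z, |S 0 z - S' 0 z| ≤ η
  sup : ∀ z, |S 0 z - S' 0 z| ≤ η * s
  le : ∀ z, S 0 z ≤ s

lemma Stb.pow_le {S S' : Matrix (V N) (V N) ℝ} {η s : ℝ} (h : Stb S S' η s) {n : ℕ} (hn : 1 ≤ n)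
    (x y : V N) : (S ^ n) x y ≤ s := by
  obtain ⟨m, rfl⟩ : ∃ m, n = m + 1 := ⟨n - 1, by omega⟩
  rw [pow_succ, Matrix.mul_apply]
  have h1 : ∀ w, (S ^ m) x w * S w y ≤ (S ^ m) x w * s := fun w => by
    refine mul_le_mul_of_nonneg_left ?_ (pow_nonneg' h.nn m _ _)
    rw [h.ti.eq]
    exact h.le _
  refine (Finset.sum_le_sum fun w _ => h1 w).trans ?_
  rw [← Finset.sum_mul, pow_row h.row, one_mul]

lemma Stb.pow {S S' : Matrix (V N) (V N) ℝ} {η s : ℝ} (h : Stb S S' η s) (n : ℕ) (x y : V N) :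
    |(S ^ n) x y - (S' ^ n) x y| ≤ n * (η * s) := by
  induction n generalizing x y with
  | zero => simp
  | succ n ih =>
    have hηs : 0 ≤ η * s := (abs_nonneg _).trans (h.sup 0)
    have hs : 0 ≤ s := (h.nn 0 0).trans (h.le 0)
    have e1 : (S ^ (n + 1)) x y - (S' ^ (n + 1)) x y =
        ∑ w, ((S ^ n) x w - (S' ^ n) x w) * S' w y + ∑ w, (S ^ n) x w * (S w y - S' w y) := by
      rw [pow_succ, pow_succ, Matrix.mul_apply, Matrix.mul_apply, ← Finset.sum_sub_distrib,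
        ← Finset.sum_add_distrib]
      exact Finset.sum_congr rfl fun w _ => by ring
    have col' : ∑ w, S' w y = 1 := by
      rw [← h.row' y]
      exact Finset.sum_congr rfl fun w _ => h.ti'.sy _ _
    have e2 : |∑ w, ((S ^ n) x w - (S' ^ n) x w) * S' w y| ≤ n * (η * s) := by
      refine (Finset.abs_sum_le_sum_abs _ _).trans ?_
      have : ∀ w, |((S ^ n) x w - (S' ^ n) x w) * S' w y| ≤ n * (η * s) * S' w y := fun w => by
        rw [abs_mul, abs_of_nonneg (h.nn' w y)]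
        exact mul_le_mul_of_nonneg_right (ih x w) (h.nn' w y)
      refine (Finset.sum_le_sum fun w _ => this w).trans ?_
      rw [← Finset.mul_sum, col', mul_one]
    have hd : ∀ w, |S w y - S' w y| = |S 0 (y - w) - S' 0 (y - w)| := fun w => by
      rw [h.ti.eq w y, h.ti'.eq w y]
    have e3 : |∑ w, (S ^ n) x w * (S w y - S' w y)| ≤ η * s := by
      refine (Finset.abs_sum_le_sum_abs _ _).trans ?_
      rcases Nat.eq_zero_or_pos n with hn | hn
      · rw [hn, pow_zero]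
        have : ∀ w, |(1 : Matrix (V N) (V N) ℝ) x w * (S w y - S' w y)| =
            if x = w then |S w y - S' w y| else 0 := by
          intro w
          rw [Matrix.one_apply]
          split_ifs <;> simp
        simp_rw [this]
        rw [Finset.sum_ite_eq]
        simp only [mem_univ, if_true]
        rw [hd]
        exact h.sup _
      · have : ∀ w, |(S ^ n) x w * (S w y - S' w y)| ≤ s * |S 0 (y - w) - S' 0 (y - w)| := by
          intro w
          rw [abs_mul, abs_of_nonneg (pow_nonneg' h.nn n x w), hd]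
          exact mul_le_mul_of_nonneg_right (h.pow_le hn x w) (abs_nonneg _)
        refine (Finset.sum_le_sum fun w _ => this w).trans ?_
        rw [← Finset.mul_sum]
        have e4 : ∑ w, |S 0 (y - w) - S' 0 (y - w)| = ∑ z, |S 0 z - S' 0 z| := by
          rw [← Equiv.sum_comp (Equiv.subLeft y) fun z => |S 0 z - S' 0 z|]
          rfl
        rw [e4, mul_comm]
        exact mul_le_mul_of_nonneg_right h.l1 hs
    rw [e1]
    refine (abs_add_le _ _).trans ?_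
    push_cast
    linarith

lemma sm_stab {A A' : Matrix (V N) (V N) ℝ} {ν β η s : ℝ} (hν : 0 < ν) (hβ : 0 ≤ β)
    (h : Stb (1 - ν⁻¹ • A) (1 - ν⁻¹ • A') η s) (T : ℕ) (x y : V N) :
    |sm β ν A T x y - sm β ν A' T x y| ≤ T ^ 2 * (η * s) / (ν + β) := by
  have hηs : 0 ≤ η * s := (abs_nonneg _).trans (h.sup 0)
  have hl0 : 0 ≤ ν / (ν + β) := by positivity
  have hl1 : ν / (ν + β) ≤ 1 := by
    rw [div_le_one (by positivity)]
    linarith
  have e1 : sm β ν A T x y - sm β ν A' T x y =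
      (ν + β)⁻¹ * ∑ m ∈ range T, (ν / (ν + β)) ^ m *
        (((1 - ν⁻¹ • A) ^ m) x y - ((1 - ν⁻¹ • A') ^ m) x y) := by
    unfold sm
    rw [Matrix.smul_apply, Matrix.smul_apply, Matrix.sum_apply, Matrix.sum_apply, smul_eq_mul,
      smul_eq_mul, ← mul_sub, ← Finset.sum_sub_distrib]
    congr 1
    refine Finset.sum_congr rfl fun m _ => ?_
    rw [Matrix.smul_apply, Matrix.smul_apply, smul_eq_mul, smul_eq_mul]
    ring
  rw [e1, abs_mul, abs_of_pos (show 0 < (ν + β)⁻¹ by positivity)]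
  have e2 : |∑ m ∈ range T, (ν / (ν + β)) ^ m *
      (((1 - ν⁻¹ • A) ^ m) x y - ((1 - ν⁻¹ • A') ^ m) x y)| ≤ ∑ _m ∈ range T, T * (η * s) := by
    refine (Finset.abs_sum_le_sum_abs _ _).trans (Finset.sum_le_sum fun m hm => ?_)
    rw [abs_mul, abs_of_nonneg (pow_nonneg hl0 m)]
    have h1 := h.pow m x y
    have h2 : (m : ℝ) ≤ T := by exact_mod_cast (Finset.mem_range.1 hm).le
    calc (ν / (ν + β)) ^ m * |((1 - ν⁻¹ • A) ^ m) x y - ((1 - ν⁻¹ • A') ^ m) x y|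
        ≤ 1 * (m * (η * s)) := mul_le_mul (pow_le_one₀ hl0 hl1) h1 (abs_nonneg _) zero_le_one
      _ ≤ T * (η * s) := by
          rw [one_mul]
          exact mul_le_mul_of_nonneg_right h2 hηs
  rw [Finset.sum_const, Finset.card_range, nsmul_eq_mul] at e2
  refine (mul_le_mul_of_nonneg_left e2 (show 0 ≤ (ν + β)⁻¹ by positivity)).trans (le_of_eq ?_)
  ring

/-! ### the periodization of a matrix -/

/-- periodization -/
def pz (h : N ∣ N2) (A2 : Matrix (V N2) (V N2) ℝ) : Matrix (V N) (V N) ℝ :=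
  Matrix.of fun x y => ∑ z2 ∈ univ.filter (fun z2 : V N2 => prj h z2 = y - x), A2 0 z2

lemma ti_pz (h : N ∣ N2) {A2 : Matrix (V N2) (V N2) ℝ} (hA2 : TI A2) : TI (pz h A2) := by
  refine TI.of_ker (K := fun z => ∑ z2 ∈ univ.filter (fun z2 : V N2 => prj h z2 = z), A2 0 z2) ?_
  intro z
  rw [Finset.sum_filter, Finset.sum_filter, ← Equiv.sum_comp (Equiv.neg (V N2))]
  refine Finset.sum_congr rfl fun x _ => ?_
  simp only [Equiv.neg_apply, map_neg, neg_inj]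
  rw [hA2.ev]

lemma per_pz (h : N ∣ N2) {A2 : Matrix (V N2) (V N2) ℝ} (hA2 : TI A2) : Per h (pz h A2) A2 := by
  refine Per.of_ker (ti_pz h hA2) hA2 fun z => ?_
  unfold pz
  simp only [Matrix.of_apply, sub_zero]

lemma EE_em (h : N ∣ N2) (k : V N) : EE (em N2 k) = EE k := by
  have k1 : k.1 = (((k.1.val : ℕ) : ℤ) : ZMod N) := by simp
  have k2 : k.2 = (((k.2.val : ℕ) : ℤ) : ZMod N) := by simp
  have c1 := (cs_em h ((k.1.val : ℕ) : ℤ) 1).1
  have c2 := (cs_em h ((k.2.val : ℕ) : ℤ) 1).1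
  rw [Int.cast_one, Int.cast_one, mul_one, mul_one, ← k1] at c1
  rw [Int.cast_one, Int.cast_one, mul_one, mul_one, ← k2] at c2
  unfold TM.H764.EE em ip
  simp only
  rw [c1, c2]

lemma em_zero : em N2 (0 : V N) = 0 := by
  unfold em ip
  simp

lemma dom_pz (h : N ∣ N2) {A2 : Matrix (V N2) (V N2) ℝ} {ν c : ℝ} (hA2 : Dom A2 ν c) :
    Dom (pz h A2) ν c := by
  have hs := (per_pz h hA2.ti).sym
  refine ⟨ti_pz h hA2.ti, hA2.hν, hA2.hc, fun k => ?_, fun k => ?_, ?_, fun k => ?_⟩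
  · rw [← hs]
    exact hA2.nn _
  · rw [← hs]
    exact hA2.le _
  · rw [← hs, em_zero]
    exact hA2.zero
  · rw [← hs, ← EE_em h k]
    exact hA2.ge _

/-! ### two tori, near periodization -/

/-- `A` on the torus `N` is close in `l1` to the periodization of `A2` -/
structure Near (h : N ∣ N2) (A : Matrix (V N) (V N) ℝ) (A2 : Matrix (V N2) (V N2) ℝ)
    (ν c κ C1 η s : ℝ) : Prop where
  dom : Dom A ν c
  dom2 : Dom A2 ν c
  off2 : ∀ z, z ≠ 0 → A2 0 z ≤ 0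
  kp : 0 < κ
  mom : ∑ z, (1 - ν⁻¹ • A2 : Matrix (V N2) (V N2) ℝ) 0 z * Real.exp (κ * sn z) ≤ C1
  stb : Stb (1 - ν⁻¹ • A) (1 - ν⁻¹ • pz h A2) η s

variable {h : N ∣ N2} {A : Matrix (V N) (V N) ℝ} {A2 : Matrix (V N2) (V N2) ℝ}
  {ν c κ C1 η s : ℝ}

lemma Near.two (hN : Near h A A2 ν c κ C1 η s) : Two h (pz h A2) A2 ν c κ C1 :=
  ⟨dom_pz h hN.dom2, hN.dom2, per_pz h hN.dom2.ti, hN.off2, hN.kp, hN.mom⟩

/-- exact periodizations are near -/
lemma Two.near (hT : Two h A A2 ν c κ C1) : Near h A A2 ν c κ C1 0 1 := by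
  have e : pz h A2 = A := H864.sym_inj (ti_pz h hT.dom2.ti) hT.dom.ti fun k => by
    rw [← (per_pz h hT.dom2.ti).sym, hT.per.sym]
  refine ⟨hT.dom, hT.dom2, hT.off, hT.kp, hT.mom, ?_⟩
  rw [e]
  refine ⟨ti_step hT.dom.ti ν, ti_step hT.dom.ti ν, hT.h0, hT.h0, step_row hT.dom,
    step_row hT.dom, ?_, ?_, ?_⟩
  · simp
  · intro z
    simp
  · intro z
    rw [← step_row hT.dom 0]
    exact Finset.single_le_sum (f := fun y => (1 - ν⁻¹ • A : Matrix (V N) (V N) ℝ) 0 y)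
      (fun i _ => hT.h0 0 i) (Finset.mem_univ z)

/-- the entrywise error on windows of half side `D` -/
def eE (ν c κ C1 η s β : ℝ) (N m D : ℕ) : ℝ :=
  5 * ν * D ^ 2 / (m * c ^ 2) +
    ((2 * m + 1 : ℕ) * tau κ C1 N (2 * m + 1) + 2 * ((2 * m + 1 : ℕ) ^ 2 * (η * s))) / (ν + β)

/-- **(E)**: entrywise comparison of the kernels relative to their value at `0` -/
theorem Near.ent (hN : Near h A A2 ν c κ C1 η s) {β : ℝ} (hβ : 0 ≤ β) {m : ℕ} (hm : 1 ≤ m)
    {K : Matrix (V N) (V N) ℝ} {K2 : Matrix (V N2) (V N2) ℝ} (hK : Cv β A K) (hK2 : Cv β A2 K2)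
    {D : ℕ} (hD : 2 * D ≤ N) {ζ : ℤ × ℤ} (h1 : ζ.1.natAbs ≤ D) (h2 : ζ.2.natAbs ≤ D) :
    |(K2 0 (ip N2 ζ) - K2 0 0) - (K 0 (ip N ζ) - K 0 0)| ≤ eE ν c κ C1 η s β N m D := by
  have hν := hN.dom.hν
  set T : ℕ := 2 * m + 1 with hT
  have hT1 : 1 ≤ T := by omega
  rw [hK.ent hN.dom hβ T, hK2.ent hN.dom2 hβ T]
  have a1 := smooth_ent hN.dom hβ hm (sn_ip_le (N := N) h1 h2)
  have a2 := smooth_ent hN.dom2 hβ hm (sn_ip_le (N := N2) h1 h2)
  have b1 := hN.two.sm_diff hβ hT1 (ζ := ζ) (by omega) (by omega)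
  have b2 := hN.two.sm_diff hβ hT1 (ζ := (0 : ℤ × ℤ)) (by simp) (by simp)
  have c1 := abs_le.1 (sm_stab hν hβ hN.stb T 0 (ip N ζ))
  have c2 := abs_le.1 (sm_stab hν hβ hN.stb T 0 0)
  rw [ip_zero, ip_zero] at b2
  have e : eE ν c κ C1 η s β N m D = 5 * ν * D ^ 2 / (m * c ^ 2) +
      T * tau κ C1 N T / (ν + β) + 2 * (T ^ 2 * (η * s) / (ν + β)) := by
    unfold eE
    rw [← hT]
    push_cast
    ring
  rw [e]
  rw [← hT] at a1 a2
  have a11 := a1.1
  have a12 := a1.2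
  have a21 := a2.1
  have a22 := a2.2
  have b11 := b1.1
  have b12 := b1.2
  have b21 := b2.1
  have b22 := b2.2
  have c11 := c1.1
  have c12 := c1.2
  have c21 := c2.1
  have c22 := c2.2
  rw [abs_le]
  constructor <;> linarith

end

end Vale.Agent.P159.H733.Torg
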