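import Vale.Agent.P159.H733.Vt11
import Vale.Agent.P159.H889.VstepN
import Vale.Agent.P159.H363.ParS
import Vale.Agent.P159.H801.ParEv

/-!
P159 / V GLUE, item (P2) of helper889's row 6471 (helper733), part 1: the window and the transfer to
the other torus for powers of two, all inputs as numbers.
-/

set_option linter.unusedSectionVars false

namespace Vale.Agent.P159.H733.Vt

open Finset Matrix
open Vale.Agent.P159.TM.Spec (V)
open Vale.Agent.P159.H733.Torg (Two)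
open Vale.Agent.P159.H972 (tn lg)
open Vale.Agent.P159.TM.H859 (dirE)
open Vale.Agent.P159.H363 (Par sn mainf)
open Vale.Agent.P159.H889 (WinIn TorIn Lcl cutx tl)
open scoped Real

noncomputable section

/-! ### powers of the window -/

/-- the exponential gain of the window against the polynomial factors -/
lemma gr_pow {a M Z C' : ℝ} (ha1 : 1 ≤ a) (ha2 : a ≤ 161 / 100) (hM : 2 ≤ M) (hZ : 1 ≤ Z)
    (hC : 1 ≤ C') (h : 400 + 6 * Real.log Z + Real.log C' ≤ Real.log M / 20) :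
    M ^ 2 * Real.exp (400 - π / a * Real.log (M / Z)) ≤ M ^ ((1 : ℝ) / 10) ∧
    M ^ 2 * (Real.exp (400 - π / a * Real.log (M / Z)) * (C' * Z ^ 2 / M))
      ≤ M ^ (-((4 : ℝ) / 5)) := by
  have hM0 : 0 < M := by linarith
  have hZ0 : 0 < Z := by linarith
  have hC0 : 0 < C' := by linarith
  have hlM : 0 ≤ Real.log M := Real.log_nonneg (by linarith)
  have hlZ : 0 ≤ Real.log Z := Real.log_nonneg hZ
  have hlC : 0 ≤ Real.log C' := Real.log_nonneg hC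
  have hp1 : (195 : ℝ) / 100 ≤ π / a := by
    rw [le_div_iff₀ (by linarith)]
    have := Real.pi_gt_d2
    nlinarith
  have hp2 : π / a ≤ 4 := by
    rw [div_le_iff₀ (by linarith)]
    have := Real.pi_lt_d2
    nlinarith
  have hlog : Real.log (M / Z) = Real.log M - Real.log Z := Real.log_div hM0.ne' hZ0.ne'
  have e1 : M = Real.exp (Real.log M) := (Real.exp_log hM0).symm
  have e2 : M ^ 2 = Real.exp (2 * Real.log M) := by
    rw [two_mul, Real.exp_add, Real.exp_log hM0]; ring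
  have e3 : C' * Z ^ 2 / M = Real.exp (Real.log C' + 2 * Real.log Z - Real.log M) := by
    rw [Real.exp_sub, Real.exp_add, two_mul, Real.exp_add, Real.exp_log hM0, Real.exp_log hZ0,
      Real.exp_log hC0]
    ring
  have e4 : ∀ p : ℝ, M ^ p = Real.exp (p * Real.log M) := fun p => by
    rw [Real.rpow_def_of_pos hM0, mul_comm]
  constructor
  · rw [e4, e2, ← Real.exp_add, hlog]
    refine Real.exp_le_exp.2 ?_
    nlinarith [mul_le_mul_of_nonneg_right hp1 hlM, mul_le_mul_of_nonneg_right hp2 hlZ]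
  · rw [e4, e2, e3, ← Real.exp_add, ← Real.exp_add, hlog]
    refine Real.exp_le_exp.2 ?_
    nlinarith [mul_le_mul_of_nonneg_right hp1 hlM, mul_le_mul_of_nonneg_right hp2 hlZ]

/-- the number `CC` of the window -/
def CCp (a c M K m : ℝ) : ℝ :=
  H363.grP a M K m * (π * H363.rhoP c M K m + 2 / (M ^ 2 - 1))

lemma CCp_le {a c M K m : ℝ} (hc : 0 < c) (hM : 2 ≤ M) (hK : 1 ≤ K) (hm : 1 ≤ m) :
    CCp a c M K m ≤ Real.exp (400 - π / a * Real.log (M / (K * m)))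
      * ((2900 * ((1 + c) / c) + 4) * (K * m) ^ 2 / M) := by
  unfold CCp H363.grP
  refine mul_le_mul_of_nonneg_left ?_ (Real.exp_pos _).le
  have hM0 : 0 < M := by linarith
  have hKm : 1 ≤ (K * m) ^ 2 := one_le_pow₀ (one_le_mul_of_one_le_of_one_le hK hm)
  have h1 : π * H363.rhoP c M K m ≤ 2900 * ((1 + c) / c) * (K * m) ^ 2 / M := by
    unfold H363.rhoP
    have e1 : π * (722 * ((1 + c) / c) * K ^ 2 * m / M)
        = (722 * π) * ((1 + c) / c) * (K ^ 2 * m) / M := by ring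
    rw [e1]
    refine div_le_div_of_nonneg_right ?_ hM0.le
    have h2 : 722 * π ≤ 2900 := by
      have := Real.pi_lt_d2
      nlinarith
    have h3 : K ^ 2 * m ≤ (K * m) ^ 2 := by
      rw [mul_pow]
      exact mul_le_mul_of_nonneg_left (by nlinarith) (by positivity)
    exact mul_le_mul (mul_le_mul_of_nonneg_right h2 (by positivity)) h3 (by positivity)
      (by positivity)
  have h2 : 2 / (M ^ 2 - 1) ≤ 4 * (K * m) ^ 2 / M := by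
    have h3 : 2 / (M ^ 2 - 1) ≤ 4 / M := by
      rw [div_le_div_iff₀ (by nlinarith) hM0]
      nlinarith
    exact h3.trans (div_le_div_of_nonneg_right (by linarith) hM0.le)
  calc π * H363.rhoP c M K m + 2 / (M ^ 2 - 1)
      ≤ 2900 * ((1 + c) / c) * (K * m) ^ 2 / M + 4 * (K * m) ^ 2 / M := add_le_add h1 h2
    _ = _ := by ring

/-! ### the levels -/

section lev

variable {n s m r1 r2 r3 : ℕ} [NeZero (2 ^ r1 / 2 ^ s)] [NeZero (2 ^ r2 / 2 ^ s)]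
  [NeZero (2 ^ r3 / 2 ^ s)] {h1 : 2 ^ r1 / 2 ^ s ∣ 2 ^ r3 / 2 ^ s}
  {h2 : 2 ^ r2 / 2 ^ s ∣ 2 ^ r3 / 2 ^ s} {B1 : Matrix (V (2 ^ r1 / 2 ^ s)) (V (2 ^ r1 / 2 ^ s)) ℝ}
  {B2 : Matrix (V (2 ^ r2 / 2 ^ s)) (V (2 ^ r2 / 2 ^ s)) ℝ}
  {A3 : Matrix (V (2 ^ r3 / 2 ^ s)) (V (2 ^ r3 / 2 ^ s)) ℝ}
  {k0 c0 Cm W L b : ℝ}

/-- the numbers of one window for (P2): `lam = 2 ^ s / 2 ^ n = e ^ (-L)`, `M = 2 ^ m / 2 ^ n` -/
structure Wd (n s m r : ℕ) (W L : ℝ) : Prop where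
  hL : Real.exp (-L) = (2 : ℝ) ^ s / 2 ^ n
  sn : s ≤ n
  nm : n + 1 ≤ m
  mr : m ≤ r
  sz : (2 : ℝ) ^ r / 2 ^ n ≤ Real.exp L
  w : W * ((2 : ℝ) ^ m / 2 ^ n) * L ^ 4 ≤ (2 : ℝ) ^ r / 2 ^ n

lemma Wd.lam0 (_ : Wd n s m r1 W L) : (0 : ℝ) < 2 ^ s / 2 ^ n := by positivity

lemma Wd.lam1 (h : Wd n s m r1 W L) : (2 : ℝ) ^ s / 2 ^ n ≤ 1 := by
  rw [div_le_one (by positivity)]
  exact pow_le_pow_right₀ (by norm_num) h.sn

lemma Wd.L0 (h : Wd n s m r1 W L) : 0 ≤ L := by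
  by_contra hc
  push Not at hc
  have h1 := h.lam1
  rw [← h.hL] at h1
  have : 1 < Real.exp (-L) := Real.one_lt_exp_iff.2 (by linarith)
  linarith

lemma Wd.M2 (h : Wd n s m r1 W L) : (2 : ℝ) ≤ 2 ^ m / 2 ^ n := by
  rw [le_div_iff₀ (by positivity)]
  calc (2 : ℝ) * 2 ^ n = 2 ^ (n + 1) := by ring
    _ ≤ 2 ^ m := pow_le_pow_right₀ (by norm_num) h.nm

lemma Wd.Mr (h : Wd n s m r1 W L) : (2 : ℝ) ^ m / 2 ^ n ≤ 2 ^ r1 / 2 ^ n :=
  div_le_div_of_nonneg_right (pow_le_pow_right₀ (by norm_num) h.mr) (by positivity)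

lemma Wd.sr (h : Wd n s m r1 W L) : s ≤ r1 := h.sn.trans ((Nat.le_succ n).trans (h.nm.trans h.mr))

lemma Wd.inv (h : Wd n s m r1 W L) : ((2 : ℝ) ^ s / 2 ^ n)⁻¹ = Real.exp L := by
  rw [← h.hL, ← Real.exp_neg, neg_neg]

lemma Wd.n1 (h : Wd n s m r1 W L) : ((2 ^ r1 / 2 ^ s : ℕ) : ℝ) ≤ Real.exp (2 * L) := by
  rw [cast_two h.sr]
  have e1 : (2 : ℝ) ^ r1 / 2 ^ s = (2 ^ r1 / 2 ^ n) * ((2 ^ s : ℝ) / 2 ^ n)⁻¹ := by
    field_simp
  rw [e1, h.inv, two_mul, Real.exp_add]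
  exact mul_le_mul_of_nonneg_right h.sz (Real.exp_pos _).le

lemma Wd.nl (h : Wd n s m r1 W L) :
    (2 ^ r1 : ℝ) / 2 ^ n = ((2 ^ r1 / 2 ^ s : ℕ) : ℝ) * ((2 ^ s : ℝ) / 2 ^ n) := by
  rw [cast_two h.sr]
  field_simp

lemma tn_pos (n : ℕ) : 0 < tn n := by unfold tn; positivity

lemma tn_sq (n : ℕ) : tn n = ((2 ^ n : ℝ)⁻¹) ^ 2 := by
  unfold tn
  rw [inv_pow, ← pow_mul, mul_comm n 2, pow_mul]
  norm_num

lemma tn_M (n m : ℕ) : tn n = ((2 : ℝ) ^ m / 2 ^ n) ^ 2 * tn m := by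
  rw [tn_sq, tn_sq]
  field_simp

lemma nu_lam (n s : ℕ) : tn n * ((2 ^ s : ℕ) : ℝ) ^ 2 = ((2 : ℝ) ^ s / 2 ^ n) ^ 2 := by
  rw [tn_sq]
  push_cast
  field_simp

/-- **`TNh` at the level `n`** -/
theorem tnh_lev (g1 : Wd n s m r1 W L) (g2 : Wd n s m r2 W L)
    (T1 : Two h1 B1 A3 (tn n * ((2 ^ s : ℕ) : ℝ) ^ 2) c0 (k0 * ((2 : ℝ) ^ s / 2 ^ n)) Cm)
    (T2 : Two h2 B2 A3 (tn n * ((2 ^ s : ℕ) : ℝ) ^ 2) c0 (k0 * ((2 : ℝ) ^ s / 2 ^ n)) Cm) :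
    TNh h1 h2 B1 B2 A3 (tn n * ((2 ^ s : ℕ) : ℝ) ^ 2) c0 (k0 * ((2 : ℝ) ^ s / 2 ^ n)) Cm
      (sn (2 ^ s) (tn n) (tn m)) ((2 : ℝ) ^ s / 2 ^ n) ((2 : ℝ) ^ m / 2 ^ n) L k0 c0 2 W := by
  have hν : 0 < tn n * ((2 ^ s : ℕ) : ℝ) ^ 2 := by
    rw [nu_lam]
    exact pow_pos g1.lam0 2
  have hsν := sn_mul (l := 2 ^ s) (T := tn n) (t' := tn m) (by positivity) (tn_pos n) (tn_pos m)
  have hTt : tn n / tn m = ((2 : ℝ) ^ m / 2 ^ n) ^ 2 := by
    have := (tn_pos m).ne'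
    rw [div_eq_iff this]
    exact tn_M n m
  rw [hTt] at hsν
  have hL0 := g1.L0
  refine ⟨T1, T2, g1.lam0, g1.lam1, (nu_lam n s).symm, le_rfl, le_rfl, ?_, hsν, g1.M2, ?_,
    g1.Mr.trans g1.sz, g1.n1, g2.n1, ?_, ?_⟩
  · have h3 : 0 < sn (2 ^ s) (tn n) (tn m) * (tn n * ((2 ^ s : ℕ) : ℝ) ^ 2) := by
      rw [hsν]
      nlinarith [g1.M2]
    exact pos_of_mul_pos_left h3 hν.le
  · rw [← g1.hL]
    exact Real.exp_le_exp.2 (by linarith)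
  · rw [← g1.nl]
    exact g1.w
  · rw [← g2.nl]
    exact g2.w

end lev

end

end Vale.Agent.P159.H733.Vt
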