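import Vale.Agent.P159.H733.Vp1

/-!
P159 / V GLUE, item (P2) of helper889's row 6471 (helper733), part 2: the geometric fields of the
window on one torus and of the transfer to the other torus at the level `n`.
-/

set_option linter.unusedSectionVars false

namespace Vale.Agent.P159.H733.Vt

open Finset Matrix
open Vale.Agent.P159.TM.Spec (V)
open Vale.Agent.P159.H733.Torg (Two)
open Vale.Agent.P159.H972 (tn lg)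
open Vale.Agent.P159.TM.H859 (dirE)
open Vale.Agent.P159.H363 (Par sn mainf)
open Vale.Agent.P159.H889 (tn2 uc)
open Vale.Agent.P159.H889 (WinIn TorIn Lcl cutx tl)
open scoped Real

noncomputable section

variable {n s m r1 r2 r3 : ℕ} [NeZero (2 ^ r1 / 2 ^ s)] [NeZero (2 ^ r2 / 2 ^ s)]
  [NeZero (2 ^ r3 / 2 ^ s)] {h1 : 2 ^ r1 / 2 ^ s ∣ 2 ^ r3 / 2 ^ s}
  {h2 : 2 ^ r2 / 2 ^ s ∣ 2 ^ r3 / 2 ^ s} {B1 : Matrix (V (2 ^ r1 / 2 ^ s)) (V (2 ^ r1 / 2 ^ s)) ℝ}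
  {B2 : Matrix (V (2 ^ r2 / 2 ^ s)) (V (2 ^ r2 / 2 ^ s)) ℝ}
  {A3 : Matrix (V (2 ^ r3 / 2 ^ s)) (V (2 ^ r3 / 2 ^ s)) ℝ}
  {k0 c0 Cm W L b : ℝ} {aa AA YY A0 : ℝ}

/-- the geometric fields of `WinIn` at the level `n` -/
structure WinG (n s m r1 : ℕ) [NeZero (2 ^ r1 / 2 ^ s)]
    (B1 : Matrix (V (2 ^ r1 / 2 ^ s)) (V (2 ^ r1 / 2 ^ s)) ℝ) (D : ℕ) (CC γr τ : ℝ) : Prop where
  par : ∃ c a r₀ L r ρp, Par (2 ^ r1 / 2 ^ s) B1 (tn n * ((2 ^ s : ℕ) : ℝ) ^ 2) c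
      (sn (2 ^ s) (tn n) (tn m)) a D r₀ L r γr ρp ∧
    γr * (π * ρp + 2 / (((2 : ℝ) ^ m / 2 ^ n) ^ 2 - 1)) ≤ CC
  CC0 : 0 ≤ CC
  γ0 : 0 ≤ γr
  p1 : ∀ x y, 0 ≤ (1 - (tn n * ((2 ^ s : ℕ) : ℝ) ^ 2)⁻¹ • B1) x y
  size : 1 ≤ tn n * ((2 ^ r1 : ℕ) : ℝ) ^ 2
  tail : ∀ x, tn2 B1 (fun F => mainf (1 - (tn n * ((2 ^ s : ℕ) : ℝ) ^ 2)⁻¹ • B1) x F
      - mainf (1 - (tn n * ((2 ^ s : ℕ) : ℝ) ^ 2)⁻¹ • B1) x (cutx D x F)) ≤ τ
  g1 : ((2 : ℝ) ^ m / 2 ^ n) ^ 2 * γr ≤ ((2 : ℝ) ^ m / 2 ^ n) ^ ((1 : ℝ) / 10)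
  g2 : ((2 : ℝ) ^ m / 2 ^ n) ^ 2 * CC ≤ ((2 : ℝ) ^ m / 2 ^ n) ^ (-((4 : ℝ) / 5))

lemma off_of {N : ℕ} [NeZero N] {A : Matrix (V N) (V N) ℝ} {ν : ℝ} (hν : 0 < ν)
    (h : ∀ x y, 0 ≤ (1 - ν⁻¹ • A) x y) (x y : V N) (hxy : x ≠ y) : A x y ≤ 0 := by
  have h3 := h x y
  rw [Matrix.sub_apply, Matrix.one_apply_ne hxy, Matrix.smul_apply, smul_eq_mul, zero_sub] at h3
  have h4 : ν⁻¹ * A x y ≤ 0 := by linarith
  by_contra hc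
  push Not at hc
  have : 0 < ν⁻¹ * A x y := mul_pos (inv_pos.2 hν) hc
  linarith

/-- the scalars of `par_torus` -/
lemma win_sc {lam M K mm N D : ℝ} (hl : 0 < lam) (hl20 : 20 * lam ≤ 1) (hM : 2 ≤ M) (hK : 1 ≤ K)
    (hm : 30 ≤ mm) (hD1 : K / lam ≤ D) (hD2 : D ≤ K / lam + 1)
    (hN : M ≤ N * lam) :
    D ^ 2 * lam ^ 2 ≤ 4 * K ^ 2 ∧ 2 * (M / (K * mm) * (2 * D) + 1) ≤ N := by
  have h1 : lam * D ≤ 2 * K := by
    have h2 := mul_le_mul_of_nonneg_left hD2 hl.le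
    have h3 : lam * (K / lam + 1) = K + lam := by field_simp
    rw [h3] at h2
    linarith
  have hD0 : 0 ≤ D := le_trans (by positivity) hD1
  have hM0 : 0 < M := by linarith
  constructor
  · have h2 : (lam * D) ^ 2 ≤ (2 * K) ^ 2 := pow_le_pow_left₀ (by positivity) h1 2
    nlinarith
  · refine le_of_mul_le_mul_right ?_ hl
    have h2 : M / (K * mm) * (lam * D) ≤ M / (K * mm) * (2 * K) :=
      mul_le_mul_of_nonneg_left h1 (by positivity)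
    have h3 : M / (K * mm) * (2 * K) = 2 * M / mm := by
      have : K ≠ 0 := by linarith
      field_simp
    have h4 : 2 * M / mm ≤ 2 * M / 30 := div_le_div_of_nonneg_left (by linarith) (by norm_num) hm
    calc 2 * (M / (K * mm) * (2 * D) + 1) * lam = 4 * (M / (K * mm) * (lam * D)) + 2 * lam := by
          ring
      _ ≤ 4 * (2 * M / 30) + 2 * lam := by linarith
      _ ≤ M := by linarith
      _ ≤ N * lam := hN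

/-- **the window on one torus** -/
theorem win_lev (h : TNc k0 c0 Cm 0 2 4 aa AA YY W L) (g : Wd n s m r1 W L)
    (T1 : Two h1 B1 A3 (tn n * ((2 ^ s : ℕ) : ℝ) ^ 2) c0 (k0 * ((2 : ℝ) ^ s / 2 ^ n)) Cm)
    {a : ℝ} (ha1 : 1 ≤ a) (ha2 : a ≤ 161 / 100) (ha : ∀ u, (B1 *ᵥ u) ⬝ᵥ u ≤ a * dirE u)
    {A1 mm : ℝ} (hA : AA ≤ A1) (hm : 30 ≤ mm) (hmM : Real.log ((2 : ℝ) ^ m / 2 ^ n) ≤ mm)
    (hmL : mm ≤ Real.exp L)
    (hbig : 400 + 6 * Real.log (A1 * L * mm) + Real.log (2900 * ((1 + c0) / c0) + 4)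
      ≤ Real.log ((2 : ℝ) ^ m / 2 ^ n) / 20) :
    ∃ CC γr : ℝ, WinG n s m r1 B1 ⌈A1 * L / ((2 : ℝ) ^ s / 2 ^ n)⌉₊ CC γr
      (Real.exp (-(4 * L))) := by
  have hT := tnh_lev g g T1 T1
  have hL3 := h.L3
  have hA1 : 1 ≤ A1 := h.A1.trans hA
  have hc0 := h.c0p
  obtain ⟨lam, hlam⟩ : ∃ lam : ℝ, lam = (2 : ℝ) ^ s / 2 ^ n := ⟨_, rfl⟩
  obtain ⟨M, hM⟩ : ∃ M : ℝ, M = (2 : ℝ) ^ m / 2 ^ n := ⟨_, rfl⟩
  have hl0 : 0 < lam := hlam ▸ g.lam0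
  have hM2 : 2 ≤ M := hM ▸ g.M2
  have hM0 : 0 < M := by linarith
  have hinv : lam⁻¹ = Real.exp L := hlam ▸ g.inv
  have hν : tn n * ((2 ^ s : ℕ) : ℝ) ^ 2 = lam ^ 2 := hlam ▸ nu_lam n s
  have he20 : (20 : ℝ) ≤ Real.exp L := by
    have h3 : Real.exp 3 ≤ Real.exp L := Real.exp_le_exp.2 hL3
    have h4 : (20 : ℝ) ≤ Real.exp 3 := by
      have h5 : Real.exp 3 = Real.exp 1 ^ 3 := by rw [← Real.exp_nat_mul]; norm_num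
      have h6 := Real.exp_one_gt_d9
      have h7 : (2.7182818283 : ℝ) ^ 3 ≤ Real.exp 1 ^ 3 := pow_le_pow_left₀ (by norm_num) h6.le 3
      rw [h5]
      norm_num at h7 ⊢
      linarith
    linarith
  have hl20 : 20 * lam ≤ 1 := by
    have h3 : lam = (Real.exp L)⁻¹ := by rw [← hinv, inv_inv]
    rw [h3]
    have := Real.exp_pos L
    rw [← div_eq_mul_inv, div_le_one this]
    exact he20
  have hK : 1 ≤ A1 * L := by nlinarith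
  have hK0 : 0 < A1 * L := by linarith
  rw [← hM] at hmM hbig
  rw [← hlam]
  obtain ⟨D, hD⟩ : ∃ D : ℕ, D = ⌈A1 * L / lam⌉₊ := ⟨_, rfl⟩
  rw [← hD]
  have hD1 : A1 * L / lam ≤ D := by rw [hD]; exact Nat.le_ceil _
  have hD2 : (D : ℝ) ≤ A1 * L / lam + 1 := by
    rw [hD]
    exact (Nat.ceil_lt_add_one (by positivity)).le
  have hDe : Real.exp L ≤ D := by
    refine le_trans ?_ hD1
    rw [div_eq_mul_inv, hinv]
    exact le_mul_of_one_le_left (Real.exp_pos L).le hK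
  have hN : M ≤ ((2 ^ r1 / 2 ^ s : ℕ) : ℝ) * lam := by
    have h3 := g.Mr
    rw [g.nl, ← hM, ← hlam] at h3
    exact h3
  obtain ⟨s1, s2⟩ := win_sc hl0 hl20 hM2 hK hm hD1 hD2 hN
  have hZ : 1 ≤ A1 * L * mm := by nlinarith
  have hC' : (1 : ℝ) ≤ 2900 * ((1 + c0) / c0) + 4 := by
    have : 0 < (1 + c0) / c0 := by positivity
    linarith
  obtain ⟨w1, w2⟩ := gr_pow ha1 ha2 hM2 hZ hC' hbig
  have hlZ : 0 ≤ Real.log (A1 * L * mm) := Real.log_nonneg hZ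
  have hlC : 0 ≤ Real.log (2900 * ((1 + c0) / c0) + 4) := Real.log_nonneg hC'
  have h200 : Real.exp 200 ≤ M / (A1 * L * mm) := by
    rw [← Real.le_log_iff_exp_le (by positivity), Real.log_div hM0.ne' (by positivity)]
    linarith
  obtain ⟨r, hp⟩ := H363.par_torus (D := D) T1.dom
    (off_of T1.dom.hν T1.h0) ha ha1 (by linarith) hM2 (by rw [hM]; exact hT.sM) hm hmM hK
    (by exact_mod_cast (by linarith : (5 : ℝ) ≤ D)) (by rw [hν]; exact s1)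
    (by linarith) h200 s2
  refine ⟨CCp a c0 M (A1 * L) mm, H363.grP a M (A1 * L) mm, ⟨c0, a, _, _, r, _, hp, ?_⟩, ?_, ?_,
    T1.h0, ?_, fun x => ?_, ?_, ?_⟩
  · rw [← hM]
    exact le_rfl
  · unfold CCp H363.grP H363.rhoP
    have : 0 < M ^ 2 - 1 := by nlinarith
    positivity
  · unfold H363.grP
    positivity
  · have e1 : tn n * ((2 ^ r1 : ℕ) : ℝ) ^ 2 = ((2 : ℝ) ^ r1 / 2 ^ n) ^ 2 := nu_lam n r1
    rw [e1]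
    have h3 : (1 : ℝ) ≤ 2 ^ r1 / 2 ^ n := by
      have := g.Mr
      rw [← hM] at this
      linarith
    exact one_le_pow₀ h3
  · refine TN_b h hT ?_ x
    refine le_trans ?_ hD1
    rw [← hlam]
    exact div_le_div_of_nonneg_right (mul_le_mul_of_nonneg_right hA (by linarith)) hl0.le
  · rw [← hM]
    exact w1
  · rw [← hM]
    refine le_trans ?_ w2
    exact mul_le_mul_of_nonneg_left (CCp_le hc0 hM2 hK (by linarith)) (by positivity)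

lemma nu_next {n m s : ℕ} :
    ((tn n * ((2 ^ s : ℕ) : ℝ) ^ 2)⁻¹ + sn (2 ^ s) (tn n) (tn m))⁻¹
      = tn m * ((2 ^ s : ℕ) : ℝ) ^ 2 := by
  have h1 := (tn_pos n).ne'
  have h2 := (tn_pos m).ne'
  unfold H363.sn
  push_cast
  field_simp
  ring_nf
  exact mul_inv_cancel₀ h1

/-- **the transfer to the other torus** -/
theorem tor_lev [NeZero (2 ^ r1)] [NeZero (2 ^ r2)] (h : TNc k0 c0 Cm A0 2 4 aa AA YY W L)
    (g : Wd n s m r1 W L) (g2 : Wd n s m r2 W L)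
    (T1 : Two h1 B1 A3 (tn n * ((2 ^ s : ℕ) : ℝ) ^ 2) c0 (k0 * ((2 : ℝ) ^ s / 2 ^ n)) Cm)
    (T2 : Two h2 B2 A3 (tn n * ((2 ^ s : ℕ) : ℝ) ^ 2) c0 (k0 * ((2 : ℝ) ^ s / 2 ^ n)) Cm)
    {D0 : ℕ} (hD0 : (D0 : ℝ) ≤ A0 * L / ((2 : ℝ) ^ s / 2 ^ n))
    {mu : V (2 ^ r1 / 2 ^ s) → (V (2 ^ r1 / 2 ^ s) → ℝ) → ℂ}
    (l1 : Lcl B1 D0 (Real.exp (-(12 * L))) (π⁻¹ * (tn n * ((2 ^ s : ℕ) : ℝ) ^ 2))
      (uc (2 ^ r1) (2 ^ s) b (tn n)) mu)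
    (lb : ∀ x F, ‖mu x F‖ ≤ π⁻¹ * (tn n * ((2 ^ s : ℕ) : ℝ) ^ 2))
    (l2 : Lcl B2 D0 (Real.exp (-(12 * L))) (π⁻¹ * (tn n * ((2 ^ s : ℕ) : ℝ) ^ 2))
      (uc (2 ^ r2) (2 ^ s) b (tn n)) (lft D0 mu)) :
    ∃ R D1 : ℕ, TorIn (2 ^ r1) (2 ^ r2) (2 ^ s) b (tn n) (tn m) (Real.exp (-(4 * L))) B1 B2
        R D0 D1 R ∧
      (D1 : ℝ) * ((2 : ℝ) ^ s / 2 ^ n) ≤ (2 * AA + 2 + A0) * (((2 : ℝ) ^ m / 2 ^ n) * L) := by
  have hT := tnh_lev g g2 T1 T2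
  obtain ⟨R, hR⟩ : ∃ R : ℕ, R = ⌈AA * ((2 : ℝ) ^ m / 2 ^ n) * L / ((2 : ℝ) ^ s / 2 ^ n)⌉₊ :=
    ⟨_, rfl⟩
  have hl0 : (0 : ℝ) < 2 ^ s / 2 ^ n := g.lam0
  have hM2 := g.M2
  have hL3 := h.L3
  have hA1 := h.A1
  have hA0 := h.A0p
  obtain ⟨q1, q2, ⟨ee, eK, ηn, η', e1, e2, e3, e4, e5, e6, e7, e8, e9, e10, e11⟩, e12⟩ :=
    TN_main (D1 := R + D0 + R) h hT hR hD0 rfl
  rw [nu_next] at e7 e11 e12
  have he : Real.exp (-(12 * L)) ≤ Real.exp (-(3 * 4 * L)) := by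
    rw [show (3 : ℝ) * 4 * L = 12 * L by ring]
  refine ⟨R, R + D0 + R, ⟨⟨c0, T2.dom⟩, T2.h0, le_rfl, q1, q2, ee, eK, ηn, η', _, _, mu, e1, e2,
    e3, e4, e5, e6, e7, e8, l1, lb, l2, e9 _ he, e10 _ he, e12, e11⟩, ?_⟩
  obtain ⟨lam, hlam⟩ : ∃ lam : ℝ, lam = (2 : ℝ) ^ s / 2 ^ n := ⟨_, rfl⟩
  obtain ⟨M, hM⟩ : ∃ M : ℝ, M = (2 : ℝ) ^ m / 2 ^ n := ⟨_, rfl⟩
  have hlam1 : lam ≤ 1 := hlam ▸ g.lam1
  rw [← hlam] at hl0 hR hD0 ⊢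
  rw [← hM] at hM2 hR ⊢
  have hML : 1 ≤ M * L := by nlinarith
  have hR2 : (R : ℝ) * lam ≤ AA * M * L + lam := by
    have h3 : (R : ℝ) ≤ AA * M * L / lam + 1 := by
      rw [hR]
      exact (Nat.ceil_lt_add_one (by positivity)).le
    have h4 := mul_le_mul_of_nonneg_right h3 hl0.le
    have h5 : (AA * M * L / lam + 1) * lam = AA * M * L + lam := by field_simp
    linarith
  have hD2 : (D0 : ℝ) * lam ≤ A0 * L := by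
    have h4 := mul_le_mul_of_nonneg_right hD0 hl0.le
    have h5 : A0 * L / lam * lam = A0 * L := by field_simp
    linarith
  have h6 : A0 * L ≤ A0 * (M * L) :=
    mul_le_mul_of_nonneg_left (le_mul_of_one_le_left (by linarith) (by linarith)) hA0
  push_cast
  nlinarith

end

end Vale.Agent.P159.H733.Vt
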