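import Vale.Agent.P159.H733.Vp2
import Vale.Agent.P159.H889.Vpc

/-!
P159 / V GLUE, item (P2) of helper889's row 6471 (helper733), part 3: the order of constants.
-/

set_option linter.unusedSectionVars false

namespace Vale.Agent.P159.H733.Vt

open Finset Matrix
open Vale.Agent.P159.TM.Spec (V)
open Vale.Agent.P159.H733.Torg (Two)
open Vale.Agent.P159.H972 (tn lg)
open Vale.Agent.P159.TM.H859 (dirE)
open Vale.Agent.P159.H363 (Par sn mainf)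
open Vale.Agent.P159.H889 (WinIn TorIn Lcl cutx tl tn2 uc Cx Cw CxF lam Lg nu QP Mw Dc top Bq BR
  WPar MuR PcW PcT t0)
open Vale.Agent.P159.H801 (Ev PS)
open Vale.Agent.P159.H640 (sm_rpow sm_exp)
open scoped Real

noncomputable section

/-- `e` below an exponential -/
lemma log_ge_of {e K : ℝ} (he : 0 < e) (h : e ≤ Real.exp (-K)) : K ≤ Real.log (1 / e) := by
  rw [one_div, Real.log_inv]
  have := (Real.log_le_iff_le_exp he).2 h
  linarith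

lemma w_log {P : H972.Par} {e : ℝ} (he : 0 < e) : P.thp * Real.log (1 / e) ≤ P.w e * Real.log 2 := by
  have h1 : P.thp * Real.logb 2 (1 / e) ≤ P.w e := by
    unfold H972.Par.w lg
    exact Nat.le_ceil _
  have h2 : Real.logb 2 (1 / e) * Real.log 2 = Real.log (1 / e) := by
    rw [Real.logb, div_mul_cancel₀ _ (Real.log_pos one_lt_two).ne']
  have h3 := mul_le_mul_of_nonneg_right h1 (Real.log_pos one_lt_two).le
  rw [mul_assoc, h2] at h3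
  exact h3

lemma log_Mw (n m : ℕ) : Real.log (Mw n m) = ((m : ℝ) - n) * Real.log 2 := by
  unfold Mw
  rw [Real.log_div (by positivity) (by positivity), Real.log_pow, Real.log_pow]
  ring

/-- the numbers of the window in the order of constants -/
structure Wo (n s m r : ℕ) (W L0 c1 thp e : ℝ) : Prop where
  wd : Wd n s m r W (Lg n s)
  L0 : L0 ≤ Lg n s
  L4 : 4 ≤ Lg n s
  lM : thp / 20 * Real.log (1 / e) ≤ Real.log (Mw n m)
  uM : Real.log (Mw n m) ≤ Real.log (1 / e)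
  ul : Real.log (1 / e) ≤ Lg n s
  uL : Real.log (Lg n s) ≤ 2 * c1 * Real.log (1 / e)

theorem wo_ex {c1 th thp W0 L0 : ℝ} (q0 : ℕ) (hth : 0 < th)
    (hsum : th + 4 * q0 * thp ≤ 1 / 2) (hc1 : 0 < c1) (hc2 : 24 * c1 ≤ th) (hW : 0 ≤ W0) :
    ∃ E0 : ℝ, 0 < E0 ∧ ∀ P : H972.Par, P.th = th → P.thp = thp → P.q0 = q0 → P.es ≤ E0 →
      ∀ (C1 b : ℝ) (n m s r : ℕ) (e e' y : ℝ), 1 ≤ C1 → Cx P b C1 c1 n s e y →
        (n : ℝ) - s ≤ e ^ (-(2 * c1)) →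
        Cw P n m e e' → P.TT n e r → m + P.kE e' ≤ r → Wo n s m r W0 L0 c1 thp e := by
  obtain ⟨E1, hE1, f1⟩ := sm_rpow (s := 1 - (th + 4 * q0 * thp)) (A := 2 ^ (4 * q0 + 1)) (B := 1)
    (by linarith) one_pos
  obtain ⟨E3, hE3, f3⟩ := sm_rpow (s := th - 12 * c1) (A := W0) (B := 1)
    (by linarith) one_pos
  refine ⟨min E1 (min E3 (Real.exp (-(max L0 4)))), by positivity, ?_⟩
  intro P pth pthp pq0 hes C1 b n m s r e e' y hC hx hns hw hT hmr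
  have hl2 := Real.log_pos one_lt_two
  have he0 := hx.e0
  have hee := hx.es.trans hes
  have hee' := hw.es.trans hes
  have hlo := hw.lo
  have he' : 0 < e' := by linarith
  have h1 := f1 e he0 (hee.trans (min_le_left _ _))
  have hsn := hx.sn (by linarith)
  have hLe0 : Lg n s ≤ e ^ (-(2 * c1)) := by
    have h10 : Real.log 2 ≤ 1 := by
      have := Real.log_two_lt_d9
      linarith
    have h11 : (0 : ℝ) ≤ (n : ℝ) - s := by
      have : (s : ℝ) ≤ n := by exact_mod_cast hsn.le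
      linarith
    exact (mul_le_of_le_one_right h11 h10).trans hns
  have h3 := f3 e' he' (hee'.trans ((min_le_right _ _).trans (min_le_left _ _)))
  have h4 := log_ge_of he0 (hee.trans ((min_le_right _ _).trans (min_le_right _ _)))
  have he1 : e ≤ 1 := by linarith [hx.e1]
  have he2 : e' ≤ 1 := hw.es.trans (by linarith [P.es1])
  have hlam : Real.exp (-(Lg n s)) = (2 : ℝ) ^ s / 2 ^ n := (H889.lam_exp n s).symm
  have hthp := P.thp0
  rw [pthp] at hthp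
  -- the logarithm of the cells
  have hLl : Real.log (1 / e) ≤ Lg n s := by
    have h5 := hx.Lg_lo
    rw [hx.logx] at h5
    have h6 : 0 ≤ Real.log (1 / y) := by
      refine Real.log_nonneg ?_
      rw [le_div_iff₀ hx.y0]
      linarith [hx.ylt]
    have h7 : 0 ≤ Real.log (1 / e) := le_trans (le_max_of_le_right (by norm_num)) h4
    nlinarith
  have hLm : max L0 4 ≤ Lg n s := h4.trans hLl
  -- the window is not empty
  have hwl := w_log (P := P) he0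
  rw [pthp] at hwl
  have h8 : 4 ≤ Real.log (1 / e) := (le_max_right _ _).trans h4
  have hw1 : 1 ≤ P.w e := by
    by_contra hc
    have h9 : P.w e = 0 := by omega
    rw [h9] at hwl
    push_cast at hwl
    nlinarith
  have hw2 := hw.w1
  have hnm : n + 1 ≤ m := by omega
  -- the torus
  have htt : (2 ^ r : ℝ) / 2 ^ n ≤ e⁻¹ := tt_size' hT he0 he1 (by rw [pth, pthp, pq0]; exact h1)
  have hei : e⁻¹ = Real.exp (Real.log (1 / e)) := by
    rw [Real.exp_log (by positivity), one_div]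
  have hsz : (2 ^ r : ℝ) / 2 ^ n ≤ Real.exp (Lg n s) := by
    refine htt.trans ?_
    rw [hei]
    exact Real.exp_le_exp.2 hLl
  have hmr' : m ≤ r := by omega
  have hMr : Mw n m ≤ 2 ^ r / 2 ^ n :=
    div_le_div_of_nonneg_right (pow_le_pow_right₀ (by norm_num) hmr') (by positivity)
  have hLe : Lg n s ≤ e' ^ (-(3 * c1)) := by
    refine hLe0.trans ?_
    have h11 : (e ^ (19 / 20 : ℝ)) ^ (-(3 * c1)) ≤ e' ^ (-(3 * c1)) :=
      Real.rpow_le_rpow_of_nonpos he' hw.hi (by linarith)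
    refine le_trans ?_ h11
    rw [← Real.rpow_mul he0.le]
    exact Real.rpow_le_rpow_of_exponent_ge he0 he1 (by linarith)
  have hwl2 : W0 * ((2 : ℝ) ^ m / 2 ^ n) * Lg n s ^ 4 ≤ (2 : ℝ) ^ r / 2 ^ n := by
    have h12 := wl_par (P := P) (W := W0) he' (by omega : n ≤ m) hmr
      (le_trans (by norm_num) ((le_max_right _ _).trans hLm)) hLe
      (by rw [pth, show 4 * (3 * c1) = 12 * c1 by ring]; exact h3) hW
    have h13 : (2 : ℝ) ^ m / 2 ^ n = 2 ^ (m - n) := H889.Mw_pow (by omega)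
    rw [h13]
    exact h12
  refine ⟨⟨hlam, hsn.le, hnm, hmr', hsz, hwl2⟩, (le_max_left _ _).trans hLm,
    (le_max_right _ _).trans hLm, ?_, ?_, hLl, ?_⟩
  · rw [log_Mw]
    have h14 : (P.w e : ℝ) ≤ 20 * ((m : ℝ) - n) := by
      have : (20 * (n : ℝ) + P.w e) ≤ 20 * m := by exact_mod_cast hw2
      linarith
    have h15 := mul_le_mul_of_nonneg_right h14 hl2.le
    nlinarith
  · refine Real.log_le_log (H889.Mw_pos n m) (hMr.trans (htt.trans ?_))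
    rw [one_div]
  · have h16 : 0 < Lg n s := lt_of_lt_of_le (by norm_num) ((le_max_right _ _).trans hLm)
    have h17 := Real.log_le_log h16 hLe0
    rw [Real.log_rpow he0] at h17
    rw [one_div, Real.log_inv]
    linarith

/-- depth of the cells, all exponents up to `K C0` (helper197) -/
theorem lo_evC {K C0 c1 : ℝ} (hc1 : 0 < c1) :
    ∃ E0 : ℝ, 0 < E0 ∧ ∀ P : H972.Par, P.es ≤ E0 → ∀ C1, C1 ≤ K * C0 → 1 ≤ C1 →
      ∀ (b : ℝ) (n s : ℕ) (e y : ℝ), Cx P b C1 c1 n s e y → (n : ℝ) - s ≤ e ^ (-(2 * c1)) := by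
  have hl2 := Real.log_pos one_lt_two
  obtain ⟨Cm, hCm⟩ : ∃ Cm : ℝ, Cm = max 1 (K * C0) := ⟨_, rfl⟩
  have hCm1 : 1 ≤ Cm := hCm ▸ le_max_left _ _
  obtain ⟨E0, hE0, hE⟩ := sm_rpow (s := c1)
    (A := 9 / 8 * Cm * (1 / c1 + 1) / Real.log 2) hc1 one_pos
  refine ⟨E0, hE0, fun P hes C1 hC1K hC1 b n s e y h => ?_⟩
  have hC1m : C1 ≤ Cm := by
    rw [hCm]
    exact hC1K.trans (le_max_right _ _)
  have f1 := hE e h.e0 (h.es.trans hes)
  have h1 := h.Lg_hi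
  have hneg : 0 ≤ -Real.log (e * y) := by
    have h2 : e * y ≤ 1 := h.xle.trans (by linarith [h.e1])
    have := Real.log_nonpos h.x0.le h2
    linarith
  have h1' : Lg n s ≤ 9 / 8 * Cm * (-Real.log (e * y)) :=
    h1.trans (mul_le_mul_of_nonneg_right (by linarith) hneg)
  rw [h.logx] at h1'
  have h2 := H889.log_le_rpow hc1 h.e0
  have h3 := h.yL
  have h4 : Real.log (1 / e) + Real.log (1 / y) ≤ (1 / c1 + 1) * e ^ (-c1) := by
    have : (1 / c1 + 1) * e ^ (-c1) = e ^ (-c1) / c1 + e ^ (-c1) := by ring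
    rw [this]
    exact add_le_add h2 h3
  have h5 : ((n : ℝ) - s) * Real.log 2 ≤ e ^ (-(2 * c1)) * Real.log 2 := by
    calc ((n : ℝ) - s) * Real.log 2 ≤ 9 / 8 * Cm * ((1 / c1 + 1) * e ^ (-c1)) :=
          h1'.trans (mul_le_mul_of_nonneg_left h4 (by positivity))
      _ = (9 / 8 * Cm * (1 / c1 + 1) / Real.log 2 * e ^ c1) * e ^ (-(2 * c1)) * Real.log 2 := by
          have e2 : e ^ (-c1) = e ^ c1 * e ^ (-(2 * c1)) := by
            rw [← Real.rpow_add h.e0]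
            congr 1
            ring
          rw [e2]
          field_simp
      _ ≤ 1 * e ^ (-(2 * c1)) * Real.log 2 := by
          refine mul_le_mul_of_nonneg_right ?_ hl2.le
          exact mul_le_mul_of_nonneg_right f1 (Real.rpow_nonneg h.e0.le _)
      _ = _ := by ring
  exact le_of_mul_le_mul_right h5 hl2

/-- the order of constants, generic: numbers `Wo` in `Ev` form, with one more smallness -/
theorem wo_ev {b1 b2 pf : ℝ} (K : ℝ) (Q : ℕ) {W0 L0 : ℝ} (hW : 0 ≤ W0) (F : H972.Par → ℝ → Prop)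
    (hF : ∀ thp c1, 0 < thp → 0 < c1 → 14400 * c1 ≤ thp → ∃ E0 : ℝ, 0 < E0 ∧
      ∀ P : H972.Par, P.thp = thp → P.es ≤ E0 → F P c1) :
    Ev b1 b2 pf Q fun P c1 => F P c1 ∧ 0 < c1 ∧ 14400 * c1 ≤ P.thp ∧
      ∀ C1, 1 ≤ C1 → C1 ≤ K * P.C0 → ∀ (b : ℝ) (n m s r : ℕ) (e e' y : ℝ),
        Cx P b C1 c1 n s e y → Cw P n m e e' → P.TT n e r → m + P.kE e' ≤ r →
        Wo n s m r W0 L0 c1 P.thp e := by
  have hQ : (0 : ℝ) < Q + 3 := by positivity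
  refine Ev.of ⟨0, fun W _ => ⟨1, one_pos, fun ys _ _ => ⟨0, fun X0 _ => ⟨1 / 32, by norm_num,
    fun x1 hx1 hx1' => ⟨1 / (32 * (Q + 3)), by positivity, fun thp hthp hthp' => ⟨1 / 4,
    by norm_num, fun th hth hth' => ⟨0, fun C0 _ => ⟨min (th / 24) (thp / 14400), by positivity,
    fun c1 hc1 hc1' => ?_⟩⟩⟩⟩⟩⟩⟩⟩
  have hca : 24 * c1 ≤ th := by
    have := hc1'.trans (min_le_left _ _)
    linarith
  have hcb : 14400 * c1 ≤ thp := by
    have := hc1'.trans (min_le_right _ _)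
    linarith
  obtain ⟨q0, hq0⟩ : ∃ q0 : ℕ, q0 = Q + ⌈x1 / thp⌉₊ + 2 := ⟨_, rfl⟩
  have hq : (q0 : ℝ) * thp ≤ x1 + (Q + 3) * thp := by
    rw [hq0]
    push_cast
    have h2 : (⌈x1 / thp⌉₊ : ℝ) ≤ x1 / thp + 1 := (Nat.ceil_lt_add_one (by positivity)).le
    have h3 : (⌈x1 / thp⌉₊ : ℝ) * thp ≤ x1 + thp := by
      calc (⌈x1 / thp⌉₊ : ℝ) * thp ≤ (x1 / thp + 1) * thp := by gcongr
        _ = x1 + thp := by field_simp
    linarith
  have hq2 : (Q + 3) * thp ≤ 1 / 32 := by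
    have h2 := mul_le_mul_of_nonneg_left hthp' hQ.le
    have h3 : ((Q : ℝ) + 3) * (1 / (32 * (Q + 3))) = 1 / 32 := by field_simp
    linarith
  obtain ⟨E1, hE1, f1⟩ := wo_ex (c1 := c1) (th := th) (thp := thp) (W0 := W0) (L0 := L0) q0 hth
    (by nlinarith) hc1 hca hW
  obtain ⟨E2, hE2, f2⟩ := lo_evC (K := K) (C0 := C0) (c1 := c1) hc1
  obtain ⟨E3, hE3, f3⟩ := hF thp c1 hthp hc1 hcb
  refine ⟨min (min E1 E2) E3, by positivity, fun P hP => ?_⟩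
  have h1 := hP.ees.trans ((min_le_left _ _).trans (min_le_left _ _))
  have h2 := hP.ees.trans ((min_le_left _ _).trans (min_le_right _ _))
  have h3 := hP.ees.trans (min_le_right _ _)
  refine ⟨f3 P hP.ethp h3, hc1, by rw [hP.ethp]; exact hcb, ?_⟩
  intro C1 hC1 hC1K b n m s r e e' y hx hw hT hr
  rw [hP.eC0] at hC1K
  rw [hP.ethp]
  exact f1 P hP.eth hP.ethp (by rw [hP.eq0, hq0]) h1 C1 b n m s r e e' y hC1 hx
    (f2 P h2 C1 hC1K hC1 b n s e y hx) hw hT hr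

/-! ### (P2) (i) -/

/-- **(P2) (i), exponent of the cells inside the order of constants**; `A` absolute -/
theorem pcWA {k0 c0 Cm : ℝ} (hk : 0 < k0) (hc : 0 < c0)
    (hCm : 0 ≤ Cm) : ∃ A : ℝ, 1 ≤ A ∧ ∀ A1, A ≤ A1 → ∀ (b1 b2 pf K : ℝ) (Q : ℕ),
    Ev b1 b2 pf Q fun P c1 => ∀ C1, 1 ≤ C1 → C1 ≤ K * P.C0 →
    ∀ (b a : ℝ) (n m s : ℕ) (e e' y : ℝ), Cx P b C1 c1 n s e y → 1 ≤ a → a ≤ 8 / 5 →
    Cw P n m e e' → ∀ r r3, P.TT n e r → m + P.kE e' ≤ r →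
    ∀ [NeZero (2 ^ r / 2 ^ s)] [NeZero (2 ^ r3 / 2 ^ s)]
      (h : 2 ^ r / 2 ^ s ∣ 2 ^ r3 / 2 ^ s), BR b n s r r3 e a k0 c0 Cm h →
      ∃ CC γr, WPar (2 ^ r) (2 ^ s) b (tn n) (tn m) (Mw n m) (Bq b n s r r3 h)
        (Dc A1 n s) CC γr (t0 n s) := by
  obtain ⟨aa, AA, YY, W, L0, ha1, hA1, hW1, hL0, hT⟩ := TNc.exists (A0 := 0) (q := 2) (B := 4) hk hc
    hCm le_rfl (by norm_num) (by norm_num)
  refine ⟨AA, hA1, fun A1 hA b1 b2 pf K Q => ?_⟩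
  have hA1' : 1 ≤ A1 := hA1.trans hA
  have hlA : 0 ≤ Real.log A1 := Real.log_nonneg hA1'
  obtain ⟨C', hC'⟩ : ∃ C' : ℝ, C' = 2900 * ((1 + c0) / c0) + 4 := ⟨_, rfl⟩
  have hC1' : 1 ≤ C' := by
    have : 0 < (1 + c0) / c0 := by positivity
    rw [hC']
    linarith
  have hlC : 0 ≤ Real.log C' := Real.log_nonneg hC1'
  refine (wo_ev (b1 := b1) (b2 := b2) (pf := pf) K Q (W0 := W) (L0 := L0) (by linarith)
    (fun P c1 => ∀ e, 0 < e → e ≤ P.es → e ^ (1 / 2 : ℝ) ≤ 1 / 100 ∧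
      400 + 6 * Real.log A1 + Real.log C' ≤ P.thp / 800 * Real.log (1 / e) ∧
      30 ≤ e ^ (-c1) ∧ Real.log (1 / e) ≤ e ^ (-c1)) ?_).mono ?_
  · intro thp c1 hthp hc1 hc1t
    obtain ⟨E1, hE1, f1⟩ := sm_rpow (s := 1 / 2) (A := 1) (B := 1 / 100) (by norm_num) (by norm_num)
    obtain ⟨E2, hE2, f2⟩ := sm_rpow (s := c1) (A := 30) (B := 1) hc1 one_pos
    obtain ⟨E3, hE3, f3⟩ := sm_rpow (s := c1 / 2) (A := 1 / (c1 / 2)) (B := 1) (by positivity)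
      one_pos
    obtain ⟨KK, hKK⟩ : ∃ KK : ℝ, KK = (400 + 6 * Real.log A1 + Real.log C') * (800 / thp) :=
      ⟨_, rfl⟩
    refine ⟨min (min E1 E2) (min E3 (Real.exp (-KK))), by positivity, ?_⟩
    intro P pthp hes e he hee
    have hle := hee.trans hes
    have g1 := f1 e he (hle.trans ((min_le_left _ _).trans (min_le_left _ _)))
    have g2 := f2 e he (hle.trans ((min_le_left _ _).trans (min_le_right _ _)))
    have g3 := f3 e he (hle.trans ((min_le_right _ _).trans (min_le_left _ _)))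
    have g4 := log_ge_of he (hle.trans ((min_le_right _ _).trans (min_le_right _ _)))
    have hp : e ^ (-c1) = (e ^ c1)⁻¹ := Real.rpow_neg he.le _
    have hpp : 0 < e ^ c1 := Real.rpow_pos_of_pos he _
    refine ⟨by linarith, ?_, ?_, ?_⟩
    · rw [pthp]
      have h5 := mul_le_mul_of_nonneg_left g4 (by positivity : 0 ≤ thp / 800)
      have h6 : thp / 800 * KK = 400 + 6 * Real.log A1 + Real.log C' := by
        rw [hKK]
        field_simp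
      linarith
    · rw [hp, le_inv_comm₀ (by norm_num) hpp]
      rw [inv_eq_one_div, le_div_iff₀ (by norm_num)]
      linarith
    · have h7 := H889.log_le_rpow (c := c1 / 2) (by positivity) he
      refine h7.trans ?_
      have h8 : e ^ (-(c1 / 2)) = e ^ (c1 / 2) * e ^ (-c1) := by
        rw [← Real.rpow_add he]
        congr 1
        ring
      rw [h8]
      calc e ^ (c1 / 2) * e ^ (-c1) / (c1 / 2) = (1 / (c1 / 2) * e ^ (c1 / 2)) * e ^ (-c1) := by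
            ring
        _ ≤ 1 * e ^ (-c1) := mul_le_mul_of_nonneg_right g3 (Real.rpow_nonneg he.le _)
        _ = _ := one_mul _
  · intro P c1 _ ⟨hF, hc1, hcb, hWo⟩ C1 hC1 hC1K b a n m s e e' y hx ha ha' hw r r3 hTT hr _ _ h hB
    have he0 := hx.e0
    obtain ⟨g1, g2, g3, g4⟩ := hF e he0 hx.es
    have hwo := hWo C1 hC1 hC1K b n m s r e e' y hx hw hTT hr
    have hl0 : 0 < e ^ (1 / 2 : ℝ) := Real.rpow_pos_of_pos he0 _
    have hL4 := hwo.L4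
    have hul := hwo.ul
    have huM := hwo.uM
    have hLp : 0 < Lg n s := by linarith
    have he4 : (30 : ℝ) ≤ Real.exp (Lg n s) := by
      have h3 : Real.exp 4 ≤ Real.exp (Lg n s) := Real.exp_le_exp.2 hL4
      have h5 : Real.exp 4 = Real.exp 1 ^ 4 := by rw [← Real.exp_nat_mul]; norm_num
      have h7 : (2.7182818283 : ℝ) ^ 4 ≤ Real.exp 1 ^ 4 :=
        pow_le_pow_left₀ (by norm_num) Real.exp_one_gt_d9.le 4
      rw [h5] at h3
      norm_num at h7 ⊢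
      linarith
    obtain ⟨mm, hmm⟩ : ∃ mm : ℝ, mm = max 30 (Real.log (Mw n m)) := ⟨_, rfl⟩
    have hm1 : 30 ≤ mm := hmm ▸ le_max_left _ _
    have hm2 : Real.log (Mw n m) ≤ mm := hmm ▸ le_max_right _ _
    have hm3 : mm ≤ Real.exp (Lg n s) := by
      rw [hmm]
      refine max_le he4 ?_
      have := Real.add_one_le_exp (Lg n s)
      linarith
    have hm4 : mm ≤ e ^ (-c1) := by
      rw [hmm]
      exact max_le g3 (huM.trans g4)
    have hm5 : Real.log mm ≤ c1 * Real.log (1 / e) := by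
      have h5 := Real.log_le_log (by linarith) hm4
      rw [Real.log_rpow he0] at h5
      rw [one_div, Real.log_inv]
      linarith
    have hbig : 400 + 6 * Real.log (A1 * Lg n s * mm)
        + Real.log (2900 * ((1 + c0) / c0) + 4) ≤ Real.log ((2 : ℝ) ^ m / 2 ^ n) / 20 := by
      rw [Real.log_mul (by positivity) (by linarith), Real.log_mul (by positivity) hLp.ne', ← hC']
      have h5 := hwo.lM
      have h6 := hwo.uL
      have h7 : Real.log ((2 : ℝ) ^ m / 2 ^ n) = Real.log (Mw n m) := rfl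
      rw [h7]
      have hl1 : 0 ≤ Real.log (1 / e) := by
        have := hx.e1
        refine Real.log_nonneg ?_
        rw [le_div_iff₀ he0]
        linarith
      have h8 := mul_le_mul_of_nonneg_right hcb hl1
      linarith
    obtain ⟨CC, γr, hG⟩ := win_lev (hT W (Lg n s) le_rfl hwo.L0) hwo.wd hB.two
      (a := a + e ^ (1 / 2 : ℝ)) (by linarith) (by linarith) hB.ha hA hm1 hm2 hm3 hbig
    exact ⟨CC, γr, hG.par, hG.CC0, hG.γ0, hG.p1, hG.size, hG.tail, hG.g1, hG.g2⟩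

/-- **(P2) (i), exponent of the cells inside the order of constants** -/
theorem pcWC {b1 b2 pf : ℝ} (K : ℝ) (Q : ℕ) {k0 c0 Cm : ℝ} (hk : 0 < k0) (hc : 0 < c0)
    (hCm : 0 ≤ Cm) : ∃ A : ℝ, 1 ≤ A ∧ ∀ A1, A ≤ A1 →
    Ev b1 b2 pf Q fun P c1 => ∀ C1, 1 ≤ C1 → C1 ≤ K * P.C0 →
    ∀ (b a : ℝ) (n m s : ℕ) (e e' y : ℝ), Cx P b C1 c1 n s e y → 1 ≤ a → a ≤ 8 / 5 →
    Cw P n m e e' → ∀ r r3, P.TT n e r → m + P.kE e' ≤ r →
    ∀ [NeZero (2 ^ r / 2 ^ s)] [NeZero (2 ^ r3 / 2 ^ s)]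
      (h : 2 ^ r / 2 ^ s ∣ 2 ^ r3 / 2 ^ s), BR b n s r r3 e a k0 c0 Cm h →
      ∃ CC γr, WPar (2 ^ r) (2 ^ s) b (tn n) (tn m) (Mw n m) (Bq b n s r r3 h)
        (Dc A1 n s) CC γr (t0 n s) := by
  obtain ⟨A, hA, h⟩ := pcWA hk hc hCm
  exact ⟨A, hA, fun A1 h1 => h A1 h1 b1 b2 pf K Q⟩

/-! ### (P2) (ii) -/

/-- **(P2) (ii), exponent of the cells inside the order of constants**; `A'` absolute -/
theorem pcTA {k0 c0 Cm A0 : ℝ} (hk : 0 < k0) (hc : 0 < c0)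
    (hCm : 0 ≤ Cm) (hA0 : 0 ≤ A0) : ∃ A' : ℝ, 1 ≤ A' ∧ ∀ (b1 b2 pf K : ℝ) (Q : ℕ),
    Ev b1 b2 pf Q fun P c1 => ∀ C1, 1 ≤ C1 → C1 ≤ K * P.C0 →
    ∀ (b a : ℝ) (n m s : ℕ) (e e' y : ℝ), Cx P b C1 c1 n s e y →
    Cw P n m e e' → ∀ r r' r3, P.TT n e r → m + P.kE e' ≤ r → P.TT n e r' → m + P.kE e' ≤ r' →
    ∀ [NeZero (2 ^ r / 2 ^ s)] [NeZero (2 ^ r' / 2 ^ s)] [NeZero (2 ^ r3 / 2 ^ s)]
      (h : 2 ^ r / 2 ^ s ∣ 2 ^ r3 / 2 ^ s) (h' : 2 ^ r' / 2 ^ s ∣ 2 ^ r3 / 2 ^ s),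
      BR b n s r r3 e a k0 c0 Cm h → BR b n s r' r3 e a k0 c0 Cm h' →
      ∀ D0 : ℕ, (D0 : ℝ) ≤ A0 * Lg n s / lam n s →
      MuR b n s r r' D0 4 (Bq b n s r r3 h) (Bq b n s r' r3 h') →
      ∃ D1 R : ℕ, TorIn (2 ^ r) (2 ^ r') (2 ^ s) b (tn n) (tn m) (t0 n s)
        (Bq b n s r r3 h) (Bq b n s r' r3 h') R D0 D1 R ∧
        (D1 : ℝ) * lam n s ≤ A' * (Mw n m * Lg n s) := by
  obtain ⟨aa, AA, YY, W, L0, ha1, hA1, hW1, hL0, hT⟩ := TNc.exists (A0 := A0) (q := 2) (B := 4)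
    hk hc hCm hA0 (by norm_num) (by norm_num)
  refine ⟨2 * AA + 2 + A0, by linarith, fun b1 b2 pf K Q => ?_⟩
  refine (wo_ev (b1 := b1) (b2 := b2) (pf := pf) K Q (W0 := W) (L0 := L0) (by linarith)
    (fun _ _ => True) (fun _ _ _ _ _ => ⟨1, one_pos, fun _ _ _ => trivial⟩)).mono ?_
  intro P c1 _ ⟨_, hc1, hcb, hWo⟩ C1 hC1 hC1K b a n m s e e' y hx hw r r' r3 hTT hr hTT' hr' _ _ _
    h h' hB hB' D0 hD0 hmu
  have hwo := hWo C1 hC1 hC1K b n m s r e e' y hx hw hTT hr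
  have hwo' := hWo C1 hC1 hC1K b n m s r' e e' y hx hw hTT' hr'
  obtain ⟨mu, l1, lb, l2⟩ := hmu.ex
  rw [show (3 : ℝ) * 4 * Lg n s = 12 * Lg n s by ring] at l1 l2
  obtain ⟨R, D1, q1, q2⟩ := tor_lev (hT W (Lg n s) le_rfl hwo.L0) hwo.wd hwo'.wd hB.two hB'.two hD0
    l1 lb l2
  exact ⟨D1, R, q1, q2⟩

/-- **(P2) (ii), exponent of the cells inside the order of constants** -/
theorem pcTC {b1 b2 pf : ℝ} (K : ℝ) (Q : ℕ) {k0 c0 Cm A0 : ℝ} (hk : 0 < k0) (hc : 0 < c0)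
    (hCm : 0 ≤ Cm) (hA0 : 0 ≤ A0) : ∃ A' : ℝ, 1 ≤ A' ∧
    Ev b1 b2 pf Q fun P c1 => ∀ C1, 1 ≤ C1 → C1 ≤ K * P.C0 →
    ∀ (b a : ℝ) (n m s : ℕ) (e e' y : ℝ), Cx P b C1 c1 n s e y →
    Cw P n m e e' → ∀ r r' r3, P.TT n e r → m + P.kE e' ≤ r → P.TT n e r' → m + P.kE e' ≤ r' →
    ∀ [NeZero (2 ^ r / 2 ^ s)] [NeZero (2 ^ r' / 2 ^ s)] [NeZero (2 ^ r3 / 2 ^ s)]
      (h : 2 ^ r / 2 ^ s ∣ 2 ^ r3 / 2 ^ s) (h' : 2 ^ r' / 2 ^ s ∣ 2 ^ r3 / 2 ^ s),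
      BR b n s r r3 e a k0 c0 Cm h → BR b n s r' r3 e a k0 c0 Cm h' →
      ∀ D0 : ℕ, (D0 : ℝ) ≤ A0 * Lg n s / lam n s →
      MuR b n s r r' D0 4 (Bq b n s r r3 h) (Bq b n s r' r3 h') →
      ∃ D1 R : ℕ, TorIn (2 ^ r) (2 ^ r') (2 ^ s) b (tn n) (tn m) (t0 n s)
        (Bq b n s r r3 h) (Bq b n s r' r3 h') R D0 D1 R ∧
        (D1 : ℝ) * lam n s ≤ A' * (Mw n m * Lg n s) := by
  obtain ⟨A', hA, h⟩ := pcTA hk hc hCm hA0
  exact ⟨A', hA, h b1 b2 pf K Q⟩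

/-! ### helper889's forms -/

lemma c0_ev {b1 b2 pf : ℝ} (Q : ℕ) : Ev b1 b2 pf Q fun P _ => 1 ≤ P.C0 := by
  refine Ev.of ⟨0, fun W _ => ⟨1, one_pos, fun ys _ _ => ⟨0, fun X0 _ => ⟨1, one_pos,
    fun x1 _ _ => ⟨1, one_pos, fun thp _ _ => ⟨1, one_pos, fun th _ _ => ⟨1,
    fun C0 hC0 => ⟨1, one_pos, fun c1 _ _ => ⟨1, one_pos, fun P hP => ?_⟩⟩⟩⟩⟩⟩⟩⟩⟩
  rw [hP.eC0]
  exact hC0

/-- **(P2) (i) = `PcW`** -/
theorem pcW {b1 b2 pf C1 k0 c0 Cm : ℝ} (Q : ℕ) (hC1 : 1 ≤ C1) (hk : 0 < k0) (hc : 0 < c0)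
    (hCm : 0 ≤ Cm) : ∃ A : ℝ, 1 ≤ A ∧ ∀ A1, A ≤ A1 → PcW b1 b2 pf Q C1 k0 c0 Cm A1 := by
  obtain ⟨A, hA, h⟩ := pcWC (b1 := b1) (b2 := b2) (pf := pf) C1 Q hk hc hCm
  refine ⟨A, hA, fun A1 hA1 => ?_⟩
  refine ((h A1 hA1).and (c0_ev Q)).mono fun P c1 _ ⟨H, hc0⟩ => ?_
  intro b a n m s e e' y hx hw r hTT hr _ _ hd hB
  exact H C1 hC1 (le_mul_of_one_le_right (by linarith) hc0) b a n m s e e' y hx.cx hx.a1 hx.a2 hw r
    _ hTT hr hd hB

/-- **(P2) (ii) = `PcT`** -/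
theorem pcT {b1 b2 pf C1 k0 c0 Cm A0 : ℝ} (Q : ℕ) (hC1 : 1 ≤ C1) (hk : 0 < k0) (hc : 0 < c0)
    (hCm : 0 ≤ Cm) (hA0 : 0 ≤ A0) : ∃ A' : ℝ, 1 ≤ A' ∧ PcT b1 b2 pf Q C1 k0 c0 Cm A0 A' := by
  obtain ⟨A', hA, h⟩ := pcTC (b1 := b1) (b2 := b2) (pf := pf) C1 Q hk hc hCm hA0
  refine ⟨A', hA, ?_⟩
  refine (h.and (c0_ev Q)).mono fun P c1 _ ⟨H, hc0⟩ => ?_
  intro b a n m s e e' y hx hw r r' hTT hr hTT' hr' _ _ _ hd hd' hB hB' hmu
  refine H C1 hC1 (le_mul_of_one_le_right (by linarith) hc0) b a n m s e e' y hx.cx hw r r'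
    _ hTT hr hTT' hr' hd hd' hB hB' _ (Nat.floor_le ?_) hmu
  have h1 := H889.lam_pos n s
  have h2 := hx.cx.Lg_lo
  have h3 : 0 ≤ -Real.log (e * y) := by
    have h4 : e * y ≤ 1 := hx.cx.xle.trans (by linarith [hx.cx.e1])
    have := Real.log_nonpos hx.cx.x0.le h4
    linarith
  have h5 : 0 ≤ Lg n s := le_trans (by positivity) h2
  positivity

end

end Vale.Agent.P159.H733.Vt
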