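import Vale.Agent.P159.H733.Vp3
import Vale.Agent.P159.H889.Vpd

/-!
P159 / V GLUE, item (P2) of helper889's row 6471 (helper733), part 4: `BdW`, `BdT` (helper889).
-/

namespace Vale.Agent.P159.H733.Vt

open Vale.Agent.P159.H889 (EvC BdW BdT Cx Lg lam)

/-- **`BdW`**, `A` absolute -/
theorem bdWA {k0 c0 Cm : ℝ} (hk : 0 < k0) (hc : 0 < c0)
    (hCm : 0 ≤ Cm) : ∃ A : ℝ, 1 ≤ A ∧ ∀ A1, A ≤ A1 → ∀ (b1 b2 pf b K : ℝ) (Q : ℕ),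
      EvC b1 b2 pf Q K (BdW b k0 c0 Cm A1) := by
  obtain ⟨A, hA, h⟩ := pcWA hk hc hCm
  refine ⟨A, hA, fun A1 hA1 b1 b2 pf b K Q => ?_⟩
  refine (h A1 hA1 b1 b2 pf K Q).mono fun P c1 _ H C1 hC1 _ hC1K => ?_
  intro a n m s e e' y hx hw r hTT hr _ _ hd hB
  exact H C1 hC1 hC1K b a n m s e e' y hx.cx hx.a1 hx.a2 hw r _ hTT hr hd hB

/-- **`BdT`**, `A'` absolute -/
theorem bdTA {k0 c0 Cm A0 : ℝ} (hk : 0 < k0) (hc : 0 < c0)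
    (hCm : 0 ≤ Cm) (hA0 : 0 ≤ A0) : ∃ A' : ℝ, 1 ≤ A' ∧ ∀ (b1 b2 pf b K : ℝ) (Q : ℕ),
      EvC b1 b2 pf Q K (BdT b k0 c0 Cm A0 A') := by
  obtain ⟨A', hA, h⟩ := pcTA hk hc hCm hA0
  refine ⟨A', hA, fun b1 b2 pf b K Q => ?_⟩
  refine (h b1 b2 pf K Q).mono fun P c1 _ H C1 hC1 _ hC1K => ?_
  intro a n m s e e' y hx hw r r' hTT hr hTT' hr' _ _ _ hd hd' hB hB' hmu
  refine H C1 hC1 hC1K b a n m s e e' y hx.cx hw r r' _ hTT hr hTT' hr' hd hd' hB hB' _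
    (Nat.floor_le ?_) hmu
  have h1 := H889.lam_pos n s
  have h2 := hx.cx.Lg_lo
  have h3 : 0 ≤ -Real.log (e * y) := by
    have h4 : e * y ≤ 1 := hx.cx.xle.trans (by linarith [hx.cx.e1])
    have := Real.log_nonpos hx.cx.x0.le h4
    linarith
  have h5 : 0 ≤ Lg n s := le_trans (by positivity) h2
  positivity

/-- **`BdW`** -/
theorem bdW {b1 b2 pf b k0 c0 Cm : ℝ} (K : ℝ) (Q : ℕ) (hk : 0 < k0) (hc : 0 < c0)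
    (hCm : 0 ≤ Cm) : ∃ A : ℝ, 1 ≤ A ∧ ∀ A1, A ≤ A1 → EvC b1 b2 pf Q K (BdW b k0 c0 Cm A1) := by
  obtain ⟨A, hA, h⟩ := bdWA hk hc hCm
  exact ⟨A, hA, fun A1 hA1 => h A1 hA1 b1 b2 pf b K Q⟩

/-- **`BdT`** -/
theorem bdT {b1 b2 pf b k0 c0 Cm A0 : ℝ} (K : ℝ) (Q : ℕ) (hk : 0 < k0) (hc : 0 < c0)
    (hCm : 0 ≤ Cm) (hA0 : 0 ≤ A0) :
    ∃ A' : ℝ, 1 ≤ A' ∧ EvC b1 b2 pf Q K (BdT b k0 c0 Cm A0 A') := by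
  obtain ⟨A', hA, h⟩ := bdTA hk hc hCm hA0
  exact ⟨A', hA, h b1 b2 pf b K Q⟩

end Vale.Agent.P159.H733.Vt
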