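import Vale.Agent.P159.H733.Vt9

/-!
P159 / VTOR instance (helper733), part 10: (TN), the final inequalities.
-/

set_option linter.unusedSectionVars false

namespace Vale.Agent.P159.H733.Vt

open MeasureTheory ProbabilityTheory Finset Matrix
open Vale.Agent.P159.TM.Spec (V)
open Vale.Agent.P159.H37 (gau qf)
open Vale.Agent.P159.H363
open Vale.Agent.P159.H864 (TI sym fc mlt)
open Vale.Agent.P159.H462 (Dom ahat Gam ti_ahat ti_Gam sym_ahat)
open Vale.Agent.P159.H889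
open Vale.Agent.P159.TM.H459 (sn)
open Vale.Agent.P159.H733.Torg (av ip prj pz Two Near Cv Stb)
open scoped Real

noncomputable section

variable {n n1 n2 n3 : ℕ} [NeZero n] [NeZero n1] [NeZero n2] [NeZero n3]

section main

variable {h1 : n1 ∣ n3} {h2 : n2 ∣ n3} {B1 : Matrix (V n1) (V n1) ℝ}
  {B2 : Matrix (V n2) (V n2) ℝ} {A3 : Matrix (V n3) (V n3) ℝ}
  {ν c κ C1 s lam M L k0 c0 q W A0 B a A Y : ℝ}

/-- the small number: tails and entries -/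
def tt (a L : ℝ) : ℝ := Real.exp (-((a - 1) * L))

/-- the large number: squares of windows and sizes of the field -/
def ss (q L : ℝ) : ℝ := Real.exp ((4 + 2 * q) * L)

lemma TNh.nup (H : TNh h1 h2 B1 B2 A3 ν c κ C1 s lam M L k0 c0 q W) : 0 < ν := by
  rw [← H.lam2]
  exact pow_pos H.lamp 2

lemma TNh.g (H : TNh h1 h2 B1 B2 A3 ν c κ C1 s lam M L k0 c0 q W) : 1 + s * ν = M ^ 2 := by
  rw [H.sM]
  ring

lemma TNh.sqg (H : TNh h1 h2 B1 B2 A3 ν c κ C1 s lam M L k0 c0 q W) : √(1 + s * ν) = M := by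
  rw [H.g]
  exact Real.sqrt_sq (by linarith [H.M2])

lemma TNh.symm (H : TNh h1 h2 B1 B2 A3 ν c κ C1 s lam M L k0 c0 q W) :
    TNh h2 h1 B2 B1 A3 ν c κ C1 s lam M L k0 c0 q W :=
  ⟨H.T2, H.T1, H.lamp, H.lam1, H.lam2, H.kl, H.cc, H.sp, H.sM, H.M2, H.lamL, H.ML, H.n2L, H.n1L,
    H.w2, H.w1⟩

/-- the torus against the windows -/
lemma TN_n (h : TNc k0 c0 C1 A0 q B a A Y W L)
    (H : TNh h1 h2 B1 B2 A3 ν c κ C1 s lam M L k0 c0 q W) :
    2 * (3 * (2 * A + 2 + A0) * (M * L / lam)) < n1 := by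
  have hL := h.L3
  have hM := H.M2
  have hl := H.lamp
  have h3 : 0 < M * L / lam := by positivity
  have h4 : W * (M * L / lam) ≤ n1 := by
    have h5 : W * M * L ≤ W * M * L ^ 4 := by
      have hW : 0 ≤ W := by
        have := h.W3
        have h6 := h.A1
        have h7 := h.A0p
        linarith
      have h8 : L ≤ L ^ 4 := by
        have : (1 : ℝ) ≤ L ^ 3 := one_le_pow₀ (by linarith)
        calc L = L * 1 := (mul_one L).symm
          _ ≤ L * L ^ 3 := mul_le_mul_of_nonneg_left this (by linarith)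
          _ = _ := by ring
      exact mul_le_mul_of_nonneg_left h8 (by positivity)
    have h6 := h5.trans H.w1
    rw [mul_div_assoc', div_le_iff₀ hl]
    linarith
  have h5 := mul_lt_mul_of_pos_right h.W3 h3
  linarith

/-- tails of `ahat` -/
lemma TN_tl (h : TNc k0 c0 C1 A0 q B a A Y W L)
    (H : TNh h1 h2 B1 B2 A3 ν c κ C1 s lam M L k0 c0 q W) {R : ℕ}
    (hR : A * M * L / lam ≤ R) : tl (ahat s B1) R ≤ tt a L := by
  have hL := h.L3
  have ha := h.a1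
  have hM := H.M2
  have hl := H.lamp
  have hk := h.k0p
  have hC := h.C1p
  have hκ := H.T1.kp
  have h1 := tl_ahat_pz H.T1 H.sp (a := a) (L := L) (Λ := 4 * a * C1 + 2 * a) ha (by linarith)
    (R := R) (by
      rw [H.sqg]
      refine le_trans ?_ hR
      have e1 : M / κ ≤ M / (k0 * lam) := div_le_div_of_nonneg_left (by linarith) (by positivity) H.kl
      have e2 : (4 * a * C1 + 2 * a) * L * (M / κ) ≤ (4 * a * C1 + 2 * a) * L * (M / (k0 * lam)) :=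
        mul_le_mul_of_nonneg_left e1 (by positivity)
      refine e2.trans ?_
      have e3 : (4 * a * C1 + 2 * a) * L * (M / (k0 * lam))
          = ((4 * a * C1 + 2 * a) / k0) * (M * L / lam) := by
        field_simp
      have e4 : A * M * L / lam = A * (M * L / lam) := by ring
      rw [e3, e4]
      refine mul_le_mul_of_nonneg_right ?_ (by positivity)
      rw [h.Aeq]
      have e5 : (4 * a * C1 + 2 * a) / k0 ≤ (4 * a * C1 + 4 * a) / k0 :=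
        div_le_div_of_nonneg_right (by linarith) hk.le
      linarith)
  refine h1.trans ?_
  have e1 : (2 * a * C1 - (4 * a * C1 + 2 * a) / 2) * L = -(a * L) := by ring
  rw [e1]
  unfold tt
  have e2 : Real.exp (-((a - 1) * L)) = Real.exp L * Real.exp (-(a * L)) := by
    rw [← Real.exp_add]
    congr 1
    ring
  rw [e2]
  have e3 : (5 : ℝ) ≤ Real.exp L := by
    have h5 := Real.quadratic_le_exp_of_nonneg (by linarith : 0 ≤ L)
    nlinarith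
  have e4 := Real.exp_pos (-(a * L))
  nlinarith

/-- the rate in the smallness conditions of the walks -/
lemma TN_kn (h : TNc k0 c0 C1 A0 q B a A Y W L)
    (H : TNh h1 h2 B1 B2 A3 ν c κ C1 s lam M L k0 c0 q W) :
    k0 * W * (M * L ^ 4) ≤ κ * n1 := by
  have hk := h.k0p
  have hn : (0 : ℝ) < n1 := by exact_mod_cast NeZero.pos n1
  have h3 := mul_le_mul_of_nonneg_left H.w1 hk.le
  have h4 := mul_le_mul_of_nonneg_right H.kl hn.le
  calc k0 * W * (M * L ^ 4) = k0 * (W * M * L ^ 4) := by ring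
    _ ≤ k0 * (n1 * lam) := h3
    _ = k0 * lam * n1 := by ring
    _ ≤ _ := h4

lemma TN_eA (h : TNc k0 c0 C1 A0 q B a A Y W L)
    (H : TNh h1 h2 B1 B2 A3 ν c κ C1 s lam M L k0 c0 q W) :
    eA s ν κ C1 0 1 n1 ⌈a * (1 + s * ν) * L⌉₊
      ≤ 2 * Real.exp (-(a * L)) + 1 / 2 * Real.exp (-(a * L)) := by
  have hL := h.L3
  have ha := h.a1
  have hM := H.M2
  have hW : 0 ≤ W := by
    have := h.W3
    have h6 := h.A1
    have h7 := h.A0p
    linarith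
  have hk := h.k0p
  have h3 := eA_gen (N := n1) (C1 := C1) (κ := κ) (L := L) (Q := 2 * a * L) H.sp H.nup ha
    (by linarith)
    (by positivity) (by
      refine le_trans ?_ (TN_kn h H)
      rw [H.g]
      have e1 : √(2 * (a * M ^ 2 * L)) ≤ √(2 * a) * (M * L) := by
        rw [show √(2 * a) * (M * L) = √((2 * a) * (M * L) ^ 2) by
          rw [Real.sqrt_mul (by positivity : (0 : ℝ) ≤ 2 * a) ((M * L) ^ 2),
            Real.sqrt_sq (by positivity)]]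
        refine Real.sqrt_le_sqrt ?_
        have : L ≤ L ^ 2 := by nlinarith
        calc 2 * (a * M ^ 2 * L) = 2 * a * M ^ 2 * L := by ring
          _ ≤ 2 * a * M ^ 2 * L ^ 2 := mul_le_mul_of_nonneg_left this (by positivity)
          _ = _ := by ring
      calc 4 * (2 * a * L) * √(2 * (a * M ^ 2 * L))
          ≤ 4 * (2 * a * L) * (√(2 * a) * (M * L)) :=
            mul_le_mul_of_nonneg_left e1 (by positivity)
        _ = (8 * a * √(2 * a)) * (M * L ^ 2) := by ring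
        _ ≤ (k0 * W) * (M * L ^ 2) := mul_le_mul_of_nonneg_right h.W2 (by positivity)
        _ ≤ (k0 * W) * (M * L ^ 4) := by
          refine mul_le_mul_of_nonneg_left (mul_le_mul_of_nonneg_left ?_ (by linarith))
            (by positivity)
          exact pow_le_pow_right₀ (by linarith) (by norm_num))
  refine h3.trans (add_le_add le_rfl ?_)
  have e1 : Real.exp (-(2 * a * L)) = Real.exp (-(a * L)) * Real.exp (-(a * L)) := by
    rw [← Real.exp_add]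
    congr 1
    ring
  have e2 : Real.exp (-(a * L)) * Real.exp L ≤ 1 := by
    rw [← Real.exp_add, ← Real.exp_zero]
    exact Real.exp_le_exp.2 (by nlinarith)
  have e3 := Real.exp_pos (-(a * L))
  have e4 := mul_le_mul_of_nonneg_right h.F3 e3.le
  calc 8 * a * L * Real.exp C1 * Real.exp (-(2 * a * L))
      = 1 / 2 * (16 * a * Real.exp C1 * L * Real.exp (-(a * L))) * Real.exp (-(a * L)) := by
        rw [e1]
        ring
    _ ≤ 1 / 2 * 1 * Real.exp (-(a * L)) := by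
        refine mul_le_mul_of_nonneg_right (mul_le_mul_of_nonneg_left ?_ (by norm_num)) e3.le
        linarith
    _ = _ := by ring

/-- the pair -/
lemma TNh.pr (H : TNh h1 h2 B1 B2 A3 ν c κ C1 s lam M L k0 c0 q W) :
    Pr h1 h2 B1 B2 A3 ν c κ C1 0 1 0 1 := ⟨H.T1.near, H.T2.near⟩

/-- entries of `ahat` -/
lemma TN_ent (h : TNc k0 c0 C1 A0 q B a A Y W L)
    (H : TNh h1 h2 B1 B2 A3 ν c κ C1 s lam M L k0 c0 q W) {D : ℕ} (hD1 : 2 * D ≤ n1)
    (hD2 : 2 * D ≤ n2) {ζ : ℤ × ℤ} (hζ : ζ ∈ zb D) :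
    |ahat s B2 0 (ip n2 ζ) - ahat s B1 0 (ip n1 ζ)| ≤ tt a L := by
  have hL := h.L3
  have ha := h.a1
  have h3 := TN_eA h H
  have h4 := TN_eA h H.symm
  have hg : 1 ≤ 1 + s * ν := by
    have := H.nup
    have := H.sp
    have : 0 < s * ν := by positivity
    linarith
  refine (H.pr.ahat_ent H.sp (T := ⌈a * (1 + s * ν) * L⌉₊) (Nat.one_le_ceil_iff.2 (by
    have : 0 < 1 + s * ν := by linarith
    positivity)) hD1 hD2 hζ).trans ((add_le_add h3 h4).trans ?_)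
  unfold tt
  have e2 : Real.exp (-((a - 1) * L)) = Real.exp L * Real.exp (-(a * L)) := by
    rw [← Real.exp_add]
    congr 1
    ring
  rw [e2]
  have e3 : (5 : ℝ) ≤ Real.exp L := by
    have h5 := Real.quadratic_le_exp_of_nonneg (by linarith : 0 ≤ L)
    nlinarith
  have e4 := Real.exp_pos (-(a * L))
  nlinarith

lemma TN_eE (h : TNc k0 c0 C1 A0 q B a A Y W L)
    (H : TNh h1 h2 B1 B2 A3 ν c κ C1 s lam M L k0 c0 q W) (D : ℕ) :
    Torg.eE ν c κ C1 0 1 0 n1 ⌈Y * M ^ 2 * L ^ 5⌉₊ D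
      ≤ 5 * ν * D ^ 2 / (Y * M ^ 2 * L ^ 5 * c0 ^ 2)
        + 20 * (Y * M ^ 2 * L ^ 5) * Real.exp C1 * Real.exp (-(2 * a * L)) / ν := by
  have hL := h.L3
  have ha := h.a1
  have hM := H.M2
  have hY := h.Y1
  have hk := h.k0p
  have hc0 := h.c0p
  have hc : 0 < c := hc0.trans_le H.cc
  have hν := H.nup
  have hM2 : 1 ≤ M ^ 2 := one_le_pow₀ (by linarith)
  have hL5 : 1 ≤ L ^ 5 := one_le_pow₀ (by linarith)
  have hW : 0 ≤ W := by
    have := h.W3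
    have h6 := h.A1
    have h7 := h.A0p
    linarith
  have h3 := eE_gen (N := n1) (κ := κ) (C1 := C1) (y := Y * M ^ 2 * L ^ 5) (Q := 2 * a * L) hν hc
    (by nlinarith [mul_le_mul hY hM2 (by norm_num) (by linarith)]) (by positivity) (by
      refine le_trans ?_ (TN_kn h H)
      have e1 : √(5 * (Y * M ^ 2 * L ^ 5)) ≤ √(5 * Y) * (M * L ^ 3) := by
        rw [show √(5 * Y) * (M * L ^ 3) = √((5 * Y) * (M * L ^ 3) ^ 2) by
          rw [Real.sqrt_mul (by positivity : (0 : ℝ) ≤ 5 * Y) ((M * L ^ 3) ^ 2),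
            Real.sqrt_sq (by positivity)]]
        refine Real.sqrt_le_sqrt ?_
        have : L ^ 5 ≤ L ^ 6 := pow_le_pow_right₀ (by linarith) (by norm_num)
        calc 5 * (Y * M ^ 2 * L ^ 5) = 5 * Y * M ^ 2 * L ^ 5 := by ring
          _ ≤ 5 * Y * M ^ 2 * L ^ 6 := mul_le_mul_of_nonneg_left this (by positivity)
          _ = _ := by ring
      calc 4 * (2 * a * L) * √(5 * (Y * M ^ 2 * L ^ 5))
          ≤ 4 * (2 * a * L) * (√(5 * Y) * (M * L ^ 3)) :=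
            mul_le_mul_of_nonneg_left e1 (by positivity)
        _ = (8 * a * √(5 * Y)) * (M * L ^ 4) := by ring
        _ ≤ (k0 * W) * (M * L ^ 4) := mul_le_mul_of_nonneg_right h.W1 (by positivity)) D
  refine h3.trans (add_le_add ?_ le_rfl)
  have : c0 ^ 2 ≤ c ^ 2 := pow_le_pow_left₀ hc0.le H.cc 2
  gcongr

/-- first part of `eK`, real numbers -/
lemma real1 {ν M P d Y L c0 B Z X lam : ℝ} (hν : 0 < ν) (hM : 0 < M) (hP : 0 < P) (hd0 : 0 ≤ d)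
    (hd : d ≤ P ^ 2) (hY : 0 < Y) (hL : 0 < L) (hc : 0 < c0) (hB : 0 < B + 1) (hZ : 0 < Z)
    (hlam : 0 < lam) (hl : lam ^ 2 = ν) (hX : X = M * L / lam) (hPX : P ≤ Z * X)
    (hYe : 240 * (B + 1) * Z ^ 4 ≤ Y * c0 ^ 2) :
    3 * (ν / M ^ 2) * P ^ 2 * (2 * (5 * ν * d / (Y * M ^ 2 * L ^ 5 * c0 ^ 2)))
      ≤ 1 / (8 * (B + 1) * L) := by
  have hX0 : 0 < X := by rw [hX]; positivity
  have g1 : P ^ 4 ≤ Z ^ 4 * X ^ 4 := by
    rw [← mul_pow]
    exact pow_le_pow_left₀ hP.le hPX 4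
  have e0 : 3 * (ν / M ^ 2) * P ^ 2 * (2 * (5 * ν * d / (Y * M ^ 2 * L ^ 5 * c0 ^ 2)))
      = 30 * ν ^ 2 * (P ^ 2 * d) / (M ^ 4 * Y * L ^ 5 * c0 ^ 2) := by
    field_simp
    ring
  have e1 : P ^ 2 * d ≤ Z ^ 4 * X ^ 4 := by
    refine le_trans ?_ g1
    calc P ^ 2 * d ≤ P ^ 2 * P ^ 2 := mul_le_mul_of_nonneg_left hd (by positivity)
      _ = _ := by ring
  have e2 : 30 * ν ^ 2 * (P ^ 2 * d) / (M ^ 4 * Y * L ^ 5 * c0 ^ 2)
      ≤ 30 * ν ^ 2 * (Z ^ 4 * X ^ 4) / (M ^ 4 * Y * L ^ 5 * c0 ^ 2) :=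
    div_le_div_of_nonneg_right (mul_le_mul_of_nonneg_left e1 (by positivity)) (by positivity)
  have e3 : ν ^ 2 * X ^ 4 = M ^ 4 * L ^ 4 := by
    rw [hX, ← hl]
    field_simp
  have e4 : 30 * ν ^ 2 * (Z ^ 4 * X ^ 4) / (M ^ 4 * Y * L ^ 5 * c0 ^ 2)
      = 30 * Z ^ 4 / (Y * L * c0 ^ 2) := by
    have e5 : 30 * ν ^ 2 * (Z ^ 4 * X ^ 4) = 30 * Z ^ 4 * (M ^ 4 * L ^ 4) := by
      rw [← e3]
      ring
    rw [e5]
    field_simp
  rw [e0]
  refine e2.trans ?_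
  rw [e4, div_le_div_iff₀ (by positivity) (by positivity)]
  have g8 := mul_le_mul_of_nonneg_right hYe hL.le
  linarith

/-- second part of `eK`, real numbers -/
lemma real2 {ν M P Y L B E1 E2 : ℝ} (hν : 0 < ν) (hM : 0 < M) (hY : 0 < Y)
    (hL : 0 < L) (hB : 0 < B + 1) (hE1 : 0 < E1) {E3 : ℝ} (hPE : P ^ 2 * E2 ≤ E3)
    (hF : 960 * (B + 1) * Y * E1 * L ^ 6 * E3 ≤ 1) :
    3 * (ν / M ^ 2) * P ^ 2 * (2 * (20 * (Y * M ^ 2 * L ^ 5) * E1 * E2 / ν))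
      ≤ 1 / (8 * (B + 1) * L) := by
  have g1 : 3 * (ν / M ^ 2) * P ^ 2 * (2 * (20 * (Y * M ^ 2 * L ^ 5) * E1 * E2 / ν))
      = 120 * Y * L ^ 5 * E1 * (P ^ 2 * E2) := by
    field_simp
    ring
  rw [g1, le_div_iff₀ (by positivity)]
  have g2 : 120 * Y * L ^ 5 * E1 * (P ^ 2 * E2) ≤ 120 * Y * L ^ 5 * E1 * E3 :=
    mul_le_mul_of_nonneg_left hPE (by positivity)
  have g3 := mul_le_mul_of_nonneg_right g2 (by positivity : 0 ≤ 8 * (B + 1) * L)
  refine g3.trans (le_trans (le_of_eq ?_) hF)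
  ring

/-- **(E)**: the number `eK` -/
lemma TN_eK (h : TNc k0 c0 C1 A0 q B a A Y W L)
    (H : TNh h1 h2 B1 B2 A3 ν c κ C1 s lam M L k0 c0 q W) {D : ℕ}
    (hD : 2 * (D : ℝ) + 1 ≤ 3 * (2 * A + 2 + A0) * (M * L / lam)) :
    3 * (ν⁻¹ + s)⁻¹ * (2 * D + 1) ^ 2 *
        (Torg.eE ν c κ C1 0 1 0 n1 ⌈Y * M ^ 2 * L ^ 5⌉₊ (2 * D)
          + Torg.eE ν c κ C1 0 1 0 n2 ⌈Y * M ^ 2 * L ^ 5⌉₊ (2 * D))
      ≤ 1 / (4 * (B + 1) * L) := by
  have hL := h.L3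
  have hM := H.M2
  have hY := h.Y1
  have hc0 := h.c0p
  have hν := H.nup
  have hl := H.lamp
  have hB := h.B1
  have hA1 := h.A1
  have hA0 := h.A0p
  have hq := h.q0
  have q1 := TN_eE h H (2 * D)
  have q2 := TN_eE h H.symm (2 * D)
  have hP0 : 0 < 2 * (D : ℝ) + 1 := by positivity
  have hPe := h.P_exp hl hM H.lamL H.ML hP0.le hD
  have hZ0 : 0 < 3 * (2 * A + 2 + A0) := by positivity
  have hνn : (ν⁻¹ + s)⁻¹ = ν / M ^ 2 := by
    have e1 : M ^ 2 ≠ 0 := by positivity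
    have e2 := H.g
    rw [inv_eq_iff_eq_inv, inv_div, ← e2]
    field_simp
  rw [hνn]
  have h2D : (((2 * D : ℕ) : ℝ)) ^ 2 ≤ (2 * (D : ℝ) + 1) ^ 2 := by
    refine pow_le_pow_left₀ (by positivity) ?_ 2
    push_cast
    linarith
  have hYe : 240 * (B + 1) * (3 * (2 * A + 2 + A0)) ^ 4 ≤ Y * c0 ^ 2 := by
    have h9 : 240 * (B + 1) * (3 * (2 * A + 2 + A0)) ^ 4 / c0 ^ 2 ≤ Y := by
      rw [h.Yeq]
      linarith
    rwa [div_le_iff₀ (by positivity)] at h9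
  have f1 := real1 (ν := ν) (M := M) (P := 2 * (D : ℝ) + 1) (d := (((2 * D : ℕ) : ℝ)) ^ 2) (Y := Y)
    (L := L) (c0 := c0) (B := B) (Z := 3 * (2 * A + 2 + A0)) (X := M * L / lam) (lam := lam) hν
    (by linarith) hP0 (by positivity) h2D (by linarith) (by linarith) hc0 (by linarith) hZ0 hl
    H.lam2 rfl hD hYe
  have g2 : (2 * (D : ℝ) + 1) ^ 2 * Real.exp (-(2 * a * L)) ≤ Real.exp (-L) := by
    refine (mul_le_mul_of_nonneg_right hPe (Real.exp_pos _).le).trans ?_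
    rw [← Real.exp_add]
    refine Real.exp_le_exp.2 ?_
    rw [h.aeq]
    nlinarith [mul_nonneg hq (by linarith : 0 ≤ L)]
  have g3 : 960 * (B + 1) * Y * Real.exp C1 * L ^ 6 * Real.exp (-L) ≤ 1 := by
    have := mul_le_mul_of_nonneg_right h.F4 (Real.exp_pos (-L)).le
    rwa [← Real.exp_add, add_neg_cancel, Real.exp_zero] at this
  have f2 := real2 (ν := ν) (M := M) (P := 2 * (D : ℝ) + 1) (Y := Y) (L := L) (B := B)
    (E1 := Real.exp C1) (E2 := Real.exp (-(2 * a * L))) (E3 := Real.exp (-L)) hν (by linarith)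
    (by linarith) (by linarith) (by linarith) (Real.exp_pos _) g2 g3
  have hsum := add_le_add q1 q2
  refine (mul_le_mul_of_nonneg_left hsum (by positivity)).trans ?_
  have e8 : (1 : ℝ) / (4 * (B + 1) * L) = 1 / (8 * (B + 1) * L) + 1 / (8 * (B + 1) * L) := by
    field_simp
    norm_num
  rw [e8]
  refine le_trans (le_of_eq ?_) (add_le_add f1 f2)
  ring

/-- all numbers, the conclusion of (TN) -/
structure TNr (B1 : Matrix (V n1) (V n1) ℝ) (B2 : Matrix (V n2) (V n2) ℝ) (ν s B L : ℝ)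
    (R D0 D1 : ℕ) (x : ℝ) : Prop where
  hD1 : 4 * D1 < n1
  hD2 : 4 * D1 < n2
  num : ∃ ee eK ηn η' : ℝ,
    (∀ ζ ∈ zb (2 * D1), |ahat s B2 0 (ip n2 ζ) - ahat s B1 0 (ip n1 ζ)| ≤ ee) ∧
    (∀ ζ ∈ zb (2 * D1), |((pin B2 * (pin B2)ᵀ) 0 (ip n2 ζ) - (pin B2 * (pin B2)ᵀ) 0 0)
      - ((pin B1 * (pin B1)ᵀ) 0 (ip n1 ζ) - (pin B1 * (pin B1)ᵀ) 0 0)| ≤ eK) ∧
    ηn ≤ 1 / 2 ∧ (1 + s * ν) * (2 * D0 + 1) ^ 2 * ee ≤ ηn ∧
    0 < η' ∧ η' ≤ 1 / 2 ∧ 3 * (ν⁻¹ + s)⁻¹ * (2 * D1 + 1) ^ 2 * eK ≤ η' ∧ tk 4 η' ≤ x ∧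
    (∀ η1, η1 ≤ Real.exp (-(3 * B * L)) →
      η1 + tl (ahat s B1) R * ((2 * π)⁻¹ * ν)
        + (π⁻¹ * ν) * ((2 * ((R + D0 : ℕ) : ℝ) + 1) ^ 2 * tl (ahat s B1) R
          * (2 * H889.sg (B1 * ahat s B1))) ≤ x) ∧
    (∀ r2, r2 ≤ Real.exp (-(3 * B * L)) →
      rT s B2 R D0 D1 R ((2 * π)⁻¹ * ν) (π⁻¹ * ν) (π⁻¹ * ν) r2 ee ηn ≤ x) ∧
    mT (ν⁻¹ + s)⁻¹ (B1 * ahat s B1) (B2 * ahat s B2) R D1 ((1 + (s * ν)⁻¹) * ee) ≤ x
  tS : tl (St (ν⁻¹ + s)⁻¹ (B1 * ahat s B1) * St (ν⁻¹ + s)⁻¹ (B1 * ahat s B1)) D1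
    * (2 * H889.sg (B1 * ahat s B1)) ≤ x

/-- the killing of the powers of the window -/
lemma TNc.GG (h : TNc k0 c0 C1 A0 q B a A Y W L) :
    ss q L * tt a L * ss q L = Real.exp (-((B + 11) * L)) := by
  unfold ss tt
  rw [← Real.exp_add, ← Real.exp_add]
  congr 1
  rw [h.aeq]
  ring

lemma TNc.ss1 (h : TNc k0 c0 C1 A0 q B a A Y W L) : 1 ≤ ss q L := by
  have hL := h.L3
  have hq := h.q0
  exact Real.one_le_exp (by positivity)

/-- `e^{3L}` times the small number is small -/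
lemma TNc.fin (h : TNc k0 c0 C1 A0 q B a A Y W L) {K : ℝ} (hK : K ≤ 900) :
    K * (Real.exp (2 * L) * Real.exp (-((B + 11) * L))) ≤ 1 / 2 * Real.exp (-(B * L)) := by
  have hL := h.L3
  have e1 : Real.exp (2 * L) * Real.exp (-((B + 11) * L))
      = Real.exp (-(9 * L)) * Real.exp (-(B * L)) := by
    rw [← Real.exp_add, ← Real.exp_add]
    congr 1
    ring
  have e2 : (2000 : ℝ) ≤ Real.exp (9 * L) := by
    have h3 : (20 : ℝ) ≤ Real.exp (3 * L) := by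
      have := Real.quadratic_le_exp_of_nonneg (by linarith : 0 ≤ 3 * L)
      nlinarith
    have h4 : Real.exp (9 * L) = Real.exp (3 * L) ^ 3 := by
      rw [← Real.exp_nat_mul]
      congr 1
      push_cast
      ring
    rw [h4]
    calc (2000 : ℝ) ≤ 20 ^ 3 := by norm_num
      _ ≤ _ := pow_le_pow_left₀ (by norm_num) h3 3
  have e3 : Real.exp (-(9 * L)) * Real.exp (9 * L) = 1 := by
    rw [← Real.exp_add, neg_add_cancel, Real.exp_zero]
  have e4 := Real.exp_pos (-(9 * L))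
  have e5 : K * Real.exp (-(9 * L)) ≤ 1 / 2 := by nlinarith
  rw [e1, ← mul_assoc]
  exact mul_le_mul_of_nonneg_right e5 (Real.exp_pos _).le

lemma TNc.half (h : TNc k0 c0 C1 A0 q B a A Y W L) :
    Real.exp (-(3 * B * L)) ≤ 1 / 2 * Real.exp (-(B * L)) := by
  have hL := h.L3
  have hB := h.B1
  have e1 : Real.exp (-(3 * B * L)) = Real.exp (-(2 * B * L)) * Real.exp (-(B * L)) := by
    rw [← Real.exp_add]
    congr 1
    ring
  rw [e1]
  refine mul_le_mul_of_nonneg_right ?_ (Real.exp_pos _).le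
  have e2 : (2 : ℝ) ≤ Real.exp (2 * B * L) := by
    have := Real.add_one_le_exp (2 * B * L)
    nlinarith
  have e3 : Real.exp (-(2 * B * L)) * Real.exp (2 * B * L) = 1 := by
    rw [← Real.exp_add, neg_add_cancel, Real.exp_zero]
  have e4 := Real.exp_pos (-(2 * B * L))
  nlinarith

/-- real arithmetic of the sums -/
lemma sum_le_G {t S u E : ℝ} (ht : 0 ≤ t) (hS : 1 ≤ S) (hu : 0 ≤ u) (huS : u ≤ S) {P : ℝ}
    (hP : P ≤ S) (hE : 1 ≤ E) :
    P * t * u ≤ E * (S * t * S) ∧ P * t ≤ E * (S * t * S) ∧ t ≤ E * (S * t * S) ∧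
      t * u ≤ E * (S * t * S) ∧ 0 ≤ E * (S * t * S) := by
  have hS0 : 0 ≤ S := by linarith
  have h1 : P * t ≤ S * t := mul_le_mul_of_nonneg_right hP ht
  have h0 : t ≤ S * t := by nlinarith
  have h2 : S * t * 1 ≤ S * t * S := mul_le_mul_of_nonneg_left hS (by positivity)
  have h3 : S * t * u ≤ S * t * S := mul_le_mul_of_nonneg_left huS (by positivity)
  have h4 : 0 ≤ S * t * S := by positivity
  have h5 : S * t * S ≤ E * (S * t * S) := by nlinarith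
  have h6 : P * t * u ≤ S * t * u := mul_le_mul_of_nonneg_right h1 hu
  have h7 : t * u ≤ S * t * u := mul_le_mul_of_nonneg_right h0 hu
  refine ⟨by linarith, by linarith, by linarith, by linarith, by linarith⟩

lemma tk_four {η L B : ℝ} (hL : 1 ≤ L) (hB : 1 ≤ B) (hη : η = 1 / (4 * (B + 1) * L)) :
    tk 4 η ≤ Real.exp (-(B * L)) := by
  have e1 : -(1 / (2 * η)) = -(2 * (B + 1) * L) := by
    rw [hη]
    field_simp
    norm_num
  unfold tk
  rw [e1]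
  have e2 : (4 : ℝ) ^ (-(2 * (B + 1) * L)) ≤ Real.exp (-((B + 1) * L)) ^ 2 := by
    rw [Real.rpow_def_of_pos (by norm_num), ← Real.exp_nat_mul]
    refine Real.exp_le_exp.2 ?_
    have h4 : (1 : ℝ) ≤ Real.log 4 := by
      rw [Real.le_log_iff_exp_le (by norm_num)]
      have := Real.exp_one_lt_d9
      linarith
    have h5 : 0 ≤ 2 * (B + 1) * L := by positivity
    push_cast
    nlinarith [mul_le_mul_of_nonneg_right h4 h5]
  have e3 : √((4 : ℝ) ^ (-(2 * (B + 1) * L))) ≤ Real.exp (-((B + 1) * L)) := by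
    rw [Real.sqrt_le_left (Real.exp_pos _).le]
    exact e2
  have e4 : √(2 : ℝ) ≤ Real.exp L := by
    have h5 : √(2 : ℝ) ≤ 2 := by
      rw [Real.sqrt_le_left (by norm_num)]
      norm_num
    have := Real.add_one_le_exp L
    linarith
  calc √(2 : ℝ) * √((4 : ℝ) ^ (-(2 * (B + 1) * L)))
      ≤ Real.exp L * Real.exp (-((B + 1) * L)) :=
        mul_le_mul e4 e3 (Real.sqrt_nonneg _) (Real.exp_pos _).le
    _ = _ := by
      rw [← Real.exp_add]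
      congr 1
      ring

/-- rows of the step kernel after the window: tails -/
lemma TN_tlS (h : TNc k0 c0 C1 A0 q B a A Y W L)
    (H : TNh h1 h2 B1 B2 A3 ν c κ C1 s lam M L k0 c0 q W) {R : ℕ}
    (hR : A * M * L / lam ≤ R) : tl (St (ν⁻¹ + s)⁻¹ (B1 * ahat s B1)) R ≤ 2 * tt a L := by
  have h3 := tl_step_win H.T1.dom H.sp R
  have h4 := TN_tl h H hR
  have h5 : (s * ν)⁻¹ ≤ 1 := by
    rw [H.sM]
    refine inv_le_one_of_one_le₀ ?_
    have := H.M2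
    nlinarith
  have h6 := tl_nonneg (ahat s B1) R
  have h7 : (1 + (s * ν)⁻¹) * tl (ahat s B1) R ≤ 2 * tl (ahat s B1) R :=
    mul_le_mul_of_nonneg_right (by linarith) h6
  linarith

lemma TN_tlSS (h : TNc k0 c0 C1 A0 q B a A Y W L)
    (H : TNh h1 h2 B1 B2 A3 ν c κ C1 s lam M L k0 c0 q W) {R D1 : ℕ}
    (hR : A * M * L / lam ≤ R) (hD1 : R + R ≤ D1) :
    tl (St (ν⁻¹ + s)⁻¹ (B1 * ahat s B1) * St (ν⁻¹ + s)⁻¹ (B1 * ahat s B1)) D1 ≤ 4 * tt a L := by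
  have h3 := TN_tlS h H hR
  have hν := H.nup
  have o1 := off_of_nn hν H.T1.h0
  have d1 := dom_win H.T1.dom H.sp
  have n1' : ∀ x y, 0 ≤ St (ν⁻¹ + s)⁻¹ (B1 * ahat s B1) x y :=
    step_win_nonneg H.T1.dom H.sp o1 H.T1.h0
  have r1 : ∀ x, ∑ y, St (ν⁻¹ + s)⁻¹ (B1 * ahat s B1) x y = 1 := Torg.step_row d1
  have h4 := tl_mul (M := St (ν⁻¹ + s)⁻¹ (B1 * ahat s B1)) (M' := St (ν⁻¹ + s)⁻¹ (B1 * ahat s B1))
    (Torg.ti_step d1.ti _) n1' r1 n1' r1 R R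
  have h5 := tl_mono (St (ν⁻¹ + s)⁻¹ (B1 * ahat s B1) * St (ν⁻¹ + s)⁻¹ (B1 * ahat s B1)) hD1
  linarith

lemma TN_sg (h : TNc k0 c0 C1 A0 q B a A Y W L)
    (H : TNh h1 h2 B1 B2 A3 ν c κ C1 s lam M L k0 c0 q W) :
    2 * H889.sg (B1 * ahat s B1) ≤ ss q L := by
  have hL := h.L3
  have hq := h.q0
  refine h.sg_exp (dom_win H.T1.dom H.sp) H.cc ?_ H.n1L
  have hν := H.nup
  have hl := H.lamp
  rw [inv_inv]
  have e1 : ν⁻¹ + s = M ^ 2 * (lam⁻¹) ^ 2 := by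
    rw [← H.g, inv_pow, H.lam2]
    field_simp
  rw [e1]
  have e2 : lam⁻¹ ≤ Real.exp (q * L) := by
    rw [inv_le_comm₀ hl (Real.exp_pos _), ← Real.exp_neg]
    exact H.lamL
  have hM := H.M2
  calc M ^ 2 * (lam⁻¹) ^ 2 ≤ Real.exp L ^ 2 * Real.exp (q * L) ^ 2 := by
        refine mul_le_mul (pow_le_pow_left₀ (by linarith) H.ML 2)
          (pow_le_pow_left₀ (by positivity) e2 2) (by positivity) (by positivity)
    _ = _ := by
      rw [← Real.exp_nat_mul, ← Real.exp_nat_mul, ← Real.exp_add]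
      congr 1
      push_cast
      ring

/-- the sum of the local error, one torus -/
lemma real3 {η1 τ K Lp Q1 t u EG x : ℝ} (hr : η1 ≤ x) (K0 : 0 ≤ K) (K1 : K ≤ 1)
    (L0 : 0 ≤ Lp) (L1 : Lp ≤ 1) (τ0 : 0 ≤ τ) (hτ : τ ≤ t) (ht : t ≤ EG) (Q10 : 0 ≤ Q1)
    (u0 : 0 ≤ u) (h1 : Q1 * t * u ≤ EG) (hf : 2 * EG ≤ x) :
    η1 + τ * K + Lp * (Q1 * τ * u) ≤ 2 * x := by
  have e1 : τ * K ≤ EG * 1 := mul_le_mul (hτ.trans ht) K1 K0 (τ0.trans (hτ.trans ht))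
  have e2 : Q1 * τ * u ≤ EG :=
    (mul_le_mul_of_nonneg_right (mul_le_mul_of_nonneg_left hτ Q10) u0).trans h1
  have e3 : Lp * (Q1 * τ * u) ≤ 1 * EG := mul_le_mul L1 e2 (by positivity) (by norm_num)
  linarith

/-- the sum of the local error, two tori -/
lemma real4 {r2 τ K Lp Q1 Q2 Q3 t u ηn EG x : ℝ} (hr : r2 ≤ x) (K0 : 0 ≤ K) (K1 : K ≤ 1)
    (L0 : 0 ≤ Lp) (L1 : Lp ≤ 1) (τ0 : 0 ≤ τ) (hτ : τ ≤ t) (ht : t ≤ EG) (Q10 : 0 ≤ Q1)
    (u0 : 0 ≤ u) (h1 : Q1 * t * u ≤ EG) (h2 : Q2 * t ≤ EG) (Q20 : 0 ≤ Q2)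
    (h3 : Q3 * t * u ≤ EG) (Q30 : 0 ≤ Q3) (hη : ηn ≤ EG) (hη0 : 0 ≤ ηn) (hf : 9 * EG ≤ x) :
    r2 + τ * K + Lp * (Q1 * τ * u) + (Lp * (Q2 * t) + 4 * ηn * Lp + Lp * t * (Q3 * u))
      ≤ 2 * x := by
  have t0 : 0 ≤ t := τ0.trans hτ
  have EG0 : 0 ≤ EG := t0.trans ht
  have e0 := real3 (η1 := r2) (x := x) hr K0 K1 L0 L1 τ0 hτ ht Q10 u0 h1 (by linarith)
  have e1 : τ * K ≤ EG * 1 := mul_le_mul (hτ.trans ht) K1 K0 EG0
  have e2 : Q1 * τ * u ≤ EG :=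
    (mul_le_mul_of_nonneg_right (mul_le_mul_of_nonneg_left hτ Q10) u0).trans h1
  have e3 : Lp * (Q1 * τ * u) ≤ 1 * EG := mul_le_mul L1 e2 (by positivity) (by norm_num)
  have e4 : Lp * (Q2 * t) ≤ 1 * EG := mul_le_mul L1 h2 (by positivity) (by norm_num)
  have e5 : 4 * ηn * Lp ≤ 4 * EG * 1 := mul_le_mul (by linarith) L1 L0 (by positivity)
  have e6 : Lp * t * (Q3 * u) ≤ 1 * EG := by
    rw [show Lp * t * (Q3 * u) = Lp * (Q3 * t * u) by ring]
    exact mul_le_mul L1 h3 (by positivity) (by norm_num)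
  linarith

/-- the sum of the error of the main functions -/
lemma real5 {t1 t2 Q2 Q3 t u eS tSS EG x p : ℝ} (h1 : t1 ≤ 2 * t) (h2 : t2 ≤ 2 * t)
    (eS0 : 0 ≤ eS) (heS : eS ≤ 2 * t) (Q20 : 0 ≤ Q2) (Q30 : 0 ≤ Q3) (u0 : 0 ≤ u) (hp0 : 0 ≤ p)
    (hp : p ≤ 4) (k1 : Q2 * t ≤ EG) (k2 : Q3 * t * u ≤ EG) (k3 : t * u ≤ EG) (k4 : t ≤ EG)
    (hSS0 : 0 ≤ tSS) (hSS : tSS ≤ 4 * t) (hf : 60 * EG ≤ x) :
    (t1 + t2 + Q2 * eS + 2 * p * eS * (Q3 * u)) + 2 * p * (tSS * u) ≤ x := by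
  have t0 : 0 ≤ t := by linarith
  have e1 : Q2 * eS ≤ 2 * EG := by
    have := mul_le_mul_of_nonneg_left heS Q20
    linarith
  have e2 : 2 * p * eS * (Q3 * u) ≤ 16 * EG := by
    have g1 : 2 * p * eS ≤ 8 * (2 * t) := mul_le_mul (by linarith) heS eS0 (by norm_num)
    have g2 := mul_le_mul_of_nonneg_right g1 (mul_nonneg Q30 u0)
    refine g2.trans ?_
    rw [show 8 * (2 * t) * (Q3 * u) = 16 * (Q3 * t * u) by ring]
    linarith
  have e3 : 2 * p * (tSS * u) ≤ 32 * EG := by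
    have g1 := mul_le_mul_of_nonneg_right hSS u0
    have g3 : 2 * p * (tSS * u) ≤ 8 * (4 * t * u) :=
      mul_le_mul (by linarith) g1 (mul_nonneg hSS0 u0) (by norm_num)
    linarith
  have EG0 : 0 ≤ EG := t0.trans k4
  linarith

/-- common sizes -/
structure Sz (B1 : Matrix (V n1) (V n1) ℝ) (B2 : Matrix (V n2) (V n2) ℝ) (ν s B L : ℝ)
    (R D0 D1 : ℕ) (t u1 u2 EG x : ℝ) : Prop where
  t0 : 0 ≤ t
  tl1 : tl (ahat s B1) R ≤ t
  tl2 : tl (ahat s B2) R ≤ t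
  u10 : 0 ≤ u1
  u20 : 0 ≤ u2
  tE : t ≤ EG
  tu1 : t * u1 ≤ EG
  tu2 : t * u2 ≤ EG
  RD1 : (2 * ((R + D0 : ℕ) : ℝ) + 1) ^ 2 * t * u1 ≤ EG
  RD2 : (2 * ((R + D0 : ℕ) : ℝ) + 1) ^ 2 * t * u2 ≤ EG
  RR : (2 * (R : ℝ) + 1) ^ 2 * t ≤ EG
  DD2 : (2 * (D1 : ℝ) + 1) ^ 2 * t * u2 ≤ EG
  fin : ∀ K : ℝ, K ≤ 900 → K * EG ≤ x

lemma TN_sz (h : TNc k0 c0 C1 A0 q B a A Y W L)
    (H : TNh h1 h2 B1 B2 A3 ν c κ C1 s lam M L k0 c0 q W) {R D0 D1 : ℕ}
    (hR : R = ⌈A * M * L / lam⌉₊) (hD0 : (D0 : ℝ) ≤ A0 * L / lam) (hD1 : D1 = R + D0 + R) :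
    Sz B1 B2 ν s B L R D0 D1 (tt a L) (2 * H889.sg (B1 * ahat s B1))
      (2 * H889.sg (B2 * ahat s B2)) (Real.exp (2 * L) * (ss q L * tt a L * ss q L))
      (1 / 2 * Real.exp (-(B * L))) := by
  have hL := h.L3
  have hM := H.M2
  have hl := H.lamp
  have hR1 : A * M * L / lam ≤ R := by
    rw [hR]
    exact Nat.le_ceil _
  have hP := h.P_le hl H.lam1 hM hR hD0
  rw [← hD1] at hP
  have hP0 : 0 ≤ 2 * (D1 : ℝ) + 1 := by positivity
  have hP2 : (2 * (D1 : ℝ) + 1) ^ 2 ≤ ss q L := h.P_exp hl hM H.lamL H.ML hP0 hP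
  have hR0 : (2 * (R : ℝ) + 1) ^ 2 ≤ ss q L := by
    refine le_trans (pow_le_pow_left₀ (by positivity) ?_ 2) hP2
    have : (R : ℝ) ≤ D1 := by exact_mod_cast (by omega : R ≤ D1)
    linarith
  have hRD : (2 * ((R + D0 : ℕ) : ℝ) + 1) ^ 2 ≤ ss q L := by
    refine le_trans (pow_le_pow_left₀ (by positivity) ?_ 2) hP2
    have : ((R + D0 : ℕ) : ℝ) ≤ D1 := by exact_mod_cast (by omega : R + D0 ≤ D1)
    linarith
  have t0 : 0 ≤ tt a L := (Real.exp_pos _).le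
  have sg1 := TN_sg h H
  have sg2 := TN_sg h H.symm
  have sg10 : 0 ≤ 2 * H889.sg (B1 * ahat s B1) := by
    have := H889.sg_nonneg (B1 * ahat s B1)
    positivity
  have sg20 : 0 ≤ 2 * H889.sg (B2 * ahat s B2) := by
    have := H889.sg_nonneg (B2 * ahat s B2)
    positivity
  have hE1 : 1 ≤ Real.exp (2 * L) := Real.one_le_exp (by positivity)
  have hS1 := h.ss1
  obtain ⟨g1, -, g3, g4, -⟩ := sum_le_G t0 hS1 sg10 sg1 hRD hE1
  obtain ⟨i1, -, -, i4, -⟩ := sum_le_G t0 hS1 sg20 sg2 hRD hE1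
  obtain ⟨-, k2, -, -, -⟩ := sum_le_G t0 hS1 sg20 sg2 hR0 hE1
  obtain ⟨l1, -, -, -, -⟩ := sum_le_G t0 hS1 sg20 sg2 hP2 hE1
  refine ⟨t0, TN_tl h H hR1, TN_tl h H.symm hR1, sg10, sg20, g3, g4, i4, g1, i1, k2, l1,
    fun K hK => ?_⟩
  rw [h.GG]
  exact h.fin hK

/-- **(TN)** -/
theorem TN_main (h : TNc k0 c0 C1 A0 q B a A Y W L)
    (H : TNh h1 h2 B1 B2 A3 ν c κ C1 s lam M L k0 c0 q W) {R D0 D1 : ℕ}
    (hR : R = ⌈A * M * L / lam⌉₊) (hD0 : (D0 : ℝ) ≤ A0 * L / lam) (hD1 : D1 = R + D0 + R) :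
    TNr B1 B2 ν s B L R D0 D1 (Real.exp (-(B * L))) := by
  have hL := h.L3
  have hM := H.M2
  have hl := H.lamp
  have hν := H.nup
  have hs := H.sp
  have hB := h.B1
  have Z := TN_sz h H hR hD0 hD1
  have hR1 : A * M * L / lam ≤ R := by
    rw [hR]
    exact Nat.le_ceil _
  -- the windows
  have hP := h.P_le hl H.lam1 hM hR hD0
  rw [← hD1] at hP
  have hP0 : 0 ≤ 2 * (D1 : ℝ) + 1 := by positivity
  have hP2 : (2 * (D1 : ℝ) + 1) ^ 2 ≤ ss q L := h.P_exp hl hM H.lamL H.ML hP0 hP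
  have a1 : 4 * D1 < n1 := by
    have := TN_n h H
    have : (4 * (D1 : ℝ)) < n1 := by linarith
    exact_mod_cast this
  have a2 : 4 * D1 < n2 := by
    have := TN_n h H.symm
    have : (4 * (D1 : ℝ)) < n2 := by linarith
    exact_mod_cast this
  have hD02 : (2 * (D0 : ℝ) + 1) ^ 2 ≤ ss q L := by
    refine le_trans (pow_le_pow_left₀ (by positivity) ?_ 2) hP2
    have : (D0 : ℝ) ≤ D1 := by exact_mod_cast (by omega : D0 ≤ D1)
    linarith
  have hν1 : ν ≤ 1 := by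
    rw [← H.lam2]
    exact pow_le_one₀ hl.le H.lam1
  have hπ : (π⁻¹ : ℝ) ≤ 1 := inv_le_one_of_one_le₀ (by linarith [Real.pi_gt_three])
  have hK0 : 0 ≤ (2 * π)⁻¹ * ν := by positivity
  have hL0 : 0 ≤ π⁻¹ * ν := by positivity
  have hL1 : π⁻¹ * ν ≤ 1 := by
    calc π⁻¹ * ν ≤ 1 * 1 := mul_le_mul hπ hν1 hν.le (by norm_num)
      _ = 1 := one_mul 1
  have hK1 : (2 * π)⁻¹ * ν ≤ 1 := by
    have h9 : (2 * π)⁻¹ ≤ π⁻¹ := inv_anti₀ Real.pi_pos (by linarith [Real.pi_pos])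
    exact (mul_le_mul_of_nonneg_right h9 hν.le).trans hL1
  have hM2 : M ^ 2 ≤ Real.exp (2 * L) := by
    calc M ^ 2 ≤ Real.exp L ^ 2 := pow_le_pow_left₀ (by linarith) H.ML 2
      _ = Real.exp (2 * L) := by
        rw [← Real.exp_nat_mul]
        push_cast
        rfl
  have hx2 : (2 : ℝ) * (1 / 2 * Real.exp (-(B * L))) = Real.exp (-(B * L)) := by ring
  -- entries
  have he : ∀ ζ ∈ zb (2 * D1), |ahat s B2 0 (ip n2 ζ) - ahat s B1 0 (ip n1 ζ)| ≤ tt a L :=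
    fun ζ hζ => TN_ent h H (by omega) (by omega) hζ
  -- covariance
  have hy : 1 ≤ ⌈Y * M ^ 2 * L ^ 5⌉₊ := by
    have := h.Y1
    refine Nat.one_le_ceil_iff.2 ?_
    positivity
  have hK := fun ζ (hζ : ζ ∈ zb (2 * D1)) => H.pr.ent (le_refl (0 : ℝ)) hy
    (cv_pin H.T1.dom.ti H.T1.dom.nn) (cv_pin H.T2.dom.ti H.T2.dom.nn)
    (by omega : 2 * (2 * D1) ≤ n1) (by omega : 2 * (2 * D1) ≤ n2) hζ
  have hKe := TN_eK h H hP
  -- the number `ηn`
  have hS0 : 0 ≤ ss q L := (Real.exp_pos _).le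
  have hηn1 : Real.exp (2 * L) * (ss q L * tt a L)
      ≤ Real.exp (2 * L) * (ss q L * tt a L * ss q L) := by
    refine mul_le_mul_of_nonneg_left ?_ (Real.exp_pos _).le
    exact le_mul_of_one_le_right (mul_nonneg hS0 Z.t0) h.ss1
  have hηn0 : 0 ≤ Real.exp (2 * L) * (ss q L * tt a L) :=
    mul_nonneg (Real.exp_pos _).le (mul_nonneg hS0 Z.t0)
  have hEGs : Real.exp (2 * L) * (ss q L * tt a L * ss q L) ≤ 1 / 2 := by
    have h9 := Z.fin 1 (by norm_num)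
    have h10 : Real.exp (-(B * L)) ≤ 1 := by
      rw [← Real.exp_zero]
      refine Real.exp_le_exp.2 ?_
      have : 0 ≤ B * L := by positivity
      linarith
    linarith
  have hη' : 0 < 1 / (4 * (B + 1) * L) := by positivity
  refine ⟨a1, a2, ⟨tt a L, _, Real.exp (2 * L) * (ss q L * tt a L), 1 / (4 * (B + 1) * L), he, hK,
    hηn1.trans hEGs, ?_, hη', ?_, hKe, tk_four (by linarith) hB rfl, fun η1 h11 => ?_,
    fun r2 h22 => ?_, ?_⟩, ?_⟩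
  · rw [H.g, mul_assoc]
    refine mul_le_mul hM2 ?_ (mul_nonneg (by positivity) Z.t0) (Real.exp_pos _).le
    exact mul_le_mul_of_nonneg_right hD02 Z.t0
  · rw [div_le_iff₀ (by positivity)]
    nlinarith
  · rw [← hx2]
    exact real3 (h11.trans h.half) hK0 hK1 hL0 hL1 (tl_nonneg _ _) Z.tl1 Z.tE (by positivity)
      Z.u10 Z.RD1 (Z.fin 2 (by norm_num))
  · rw [← hx2]
    unfold rT
    exact real4 (h22.trans h.half) hK0 hK1 hL0 hL1 (tl_nonneg _ _) Z.tl2 Z.tE (by positivity)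
      Z.u20 Z.RD2 Z.RR (by positivity) Z.DD2 (by positivity) hηn1 hηn0 (Z.fin 9 (by norm_num))
  · have h5 : (s * ν)⁻¹ ≤ 1 := by
      rw [H.sM]
      refine inv_le_one_of_one_le₀ ?_
      nlinarith
    have h6 : 0 < s * ν := by positivity
    have e9 : 1 / 2 * Real.exp (-(B * L)) ≤ Real.exp (-(B * L)) := by
      have := Real.exp_pos (-(B * L))
      linarith
    refine le_trans ?_ e9
    unfold mT
    exact real5 (TN_tlS h H hR1) (TN_tlS h H.symm hR1) (mul_nonneg (by positivity) Z.t0)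
      (mul_le_mul_of_nonneg_right (by linarith) Z.t0) (by positivity) (by positivity) Z.u20
      Real.pi_pos.le Real.pi_le_four Z.RR Z.DD2 Z.tu2 Z.tE (tl_nonneg _ _)
      (TN_tlSS h H.symm hR1 (by omega : R + R ≤ D1)) (Z.fin 60 (by norm_num))
  · have g1 := mul_le_mul_of_nonneg_right (TN_tlSS h H hR1 (by omega : R + R ≤ D1)) Z.u10
    have e4 := Z.fin 4 (by norm_num)
    have e5 := Real.exp_pos (-(B * L))
    have e6 := Z.tu1
    linarith

/-- **(b)**: the tail of the main function at the level before the window -/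
theorem TN_b (h : TNc k0 c0 C1 A0 q B a A Y W L)
    (H : TNh h1 h2 B1 B2 A3 ν c κ C1 s lam M L k0 c0 q W) {D : ℕ} (hD : A * L / lam ≤ D)
    (x : V n1) : tn2 B1 (fun F => mainf (1 - ν⁻¹ • B1) x F
      - mainf (1 - ν⁻¹ • B1) x (cutx D x F)) ≤ Real.exp (-(B * L)) := by
  have hL := h.L3
  have hl := H.lamp
  have hk := h.k0p
  have hq := h.q0
  have hB := h.B1
  have ha := h.a1
  have hC := h.C1p
  have h3 := mainf_tail (Torg.ti_step H.T1.dom.ti ν) H.T1.h0 B1 D x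
  refine h3.trans ?_
  have h4 := tl_SS H.T1.dom H.T1.h0 H.T1.kp
    (mom_pz H.T1.step H.T1.h02 H.T1.kp.le H.T1.mom) D
  have h5 : a * L ≤ κ / 2 * D := by
    have e1 : k0 * lam * (A * L / lam) ≤ κ * D :=
      mul_le_mul H.kl hD (by have := h.A1; positivity) H.T1.kp.le
    have e2 : k0 * lam * (A * L / lam) = k0 * A * L := by field_simp
    have e3 : 4 * a ≤ k0 * A := by
      have e4 : (4 * a * C1 + 4 * a) / k0 ≤ A := by rw [h.Aeq]; linarith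
      rw [div_le_iff₀ hk] at e4
      have : 0 ≤ 4 * a * C1 := by positivity
      linarith
    have e4 := mul_le_mul_of_nonneg_right e3 (by linarith : 0 ≤ L)
    nlinarith
  have h6 : tl ((1 - ν⁻¹ • B1) * (1 - ν⁻¹ • B1)) D ≤ tt a L := by
    refine h4.trans ?_
    unfold tt
    have e2 : Real.exp (-((a - 1) * L)) = Real.exp L * Real.exp (-(a * L)) := by
      rw [← Real.exp_add]
      congr 1
      ring
    rw [e2]
    exact mul_le_mul h.F5 (Real.exp_le_exp.2 (neg_le_neg h5)) (Real.exp_pos _).le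
      (Real.exp_pos _).le
  have h7 : 2 * H889.sg B1 ≤ ss q L := by
    refine h.sg_exp H.T1.dom H.cc ?_ H.n1L
    rw [← H.lam2, ← inv_pow]
    have e2 : lam⁻¹ ≤ Real.exp (q * L) := by
      rw [inv_le_comm₀ hl (Real.exp_pos _), ← Real.exp_neg]
      exact H.lamL
    calc (lam⁻¹) ^ 2 ≤ Real.exp (q * L) ^ 2 := pow_le_pow_left₀ (by positivity) e2 2
      _ = Real.exp (2 * q * L) := by
        rw [← Real.exp_nat_mul]
        congr 1
        push_cast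
        ring
      _ ≤ _ := Real.exp_le_exp.2 (by nlinarith)
  have sg0 : 0 ≤ 2 * H889.sg B1 := by
    have := H889.sg_nonneg B1
    positivity
  have t0 : 0 ≤ tt a L := (Real.exp_pos _).le
  obtain ⟨-, -, -, l4, -⟩ := sum_le_G (t := tt a L) (E := Real.exp (2 * L)) t0 h.ss1 sg0 h7
    (le_refl (ss q L)) (Real.one_le_exp (by positivity))
  rw [h.GG] at l4
  have e4 := h.fin (K := 8) (by norm_num)
  have e5 := Real.exp_pos (-(B * L))
  have g1 := mul_le_mul_of_nonneg_right h6 sg0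
  have g2 : 0 ≤ tl ((1 - ν⁻¹ • B1) * (1 - ν⁻¹ • B1)) D * (2 * H889.sg B1) :=
    mul_nonneg (tl_nonneg _ _) sg0
  have g3 := mul_le_mul_of_nonneg_right (by linarith [Real.pi_le_four] : 2 * π ≤ 8) g2
  linarith

end main

end

end Vale.Agent.P159.H733.Vt
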