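import Vale.Agent.P159.H733.Vt3

/-!
P159 / VTOR instance (helper733), part 4: the change of the torus at the level after one window
(`A' = A ahat`, `ν' = (ν⁻¹ + s)⁻¹`), everything in the numbers of the level before the window.
-/

set_option linter.unusedSectionVars false

namespace Vale.Agent.P159.H733.Vt

open MeasureTheory ProbabilityTheory Finset Matrix
open Vale.Agent.P159.TM.Spec (V)
open Vale.Agent.P159.TM.H764 (cN dt EE)
open Vale.Agent.P159.H37 (gau qf)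
open Vale.Agent.P159.H363
open Vale.Agent.P159.H864 (TI sym fc mlt)
open Vale.Agent.P159.H462 (Dom ahat Gam ti_ahat ti_Gam sym_ahat)
open Vale.Agent.P159.H889
open Vale.Agent.P159.H733.Torg (ip ip_sub ip_neg ip_zero Cv ip_inj)
open scoped Real

noncomputable section

variable {N N1 N2 : ℕ} [NeZero N] [NeZero N1] [NeZero N2]

/-! ### the level after the window -/

section win

variable {A : Matrix (V N) (V N) ℝ} {ν c s : ℝ}

/-- the level after the window satisfies `Dom` with the same constant `c` -/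
theorem dom_win (h : Dom A ν c) (hs : 0 < s) : Dom (A * ahat s A) (ν⁻¹ + s)⁻¹ c := by
  have hν := h.hν
  have hc := h.hc
  have e : ∀ k, sym (A * ahat s A) k = sym A k * (1 + s * sym A k)⁻¹ := fun k => by
    rw [H864.sym_mul h.ti (ti_ahat s A), sym_ahat]
  refine ⟨h.ti.mul (ti_ahat s A), by positivity, hc, fun k => ?_, fun k => ?_, ?_, fun k => ?_⟩
  · rw [e]
    have := h.nn k
    positivity
  · rw [e]
    have h0 := h.nn k
    have h1 := h.le k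
    rw [← div_eq_mul_inv, div_le_iff₀ (by positivity)]
    have h2 : (ν⁻¹ + s)⁻¹ * (1 + s * sym A k) = (ν + s * ν * sym A k) / (1 + s * ν) := by
      field_simp
    rw [h2, le_div_iff₀ (by positivity)]
    nlinarith
  · rw [e, h.zero, zero_mul]
  · rw [e]
    have hE := TM.H764.EE_nonneg k
    have h0 := h.nn k
    have h1 := h.ge k
    rcases eq_or_lt_of_le hE with hE0 | hE0
    · rw [← hE0]
      simp only [mul_zero, zero_div]
      positivity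
    · have hcE : 0 < c * EE k := mul_pos hc hE0
      have h2 : (ν⁻¹ + s)⁻¹ * (c * EE k) / ((ν⁻¹ + s)⁻¹ + c * EE k)
          = (ν * (c * EE k) / (ν + c * EE k))
            * (1 + s * (ν * (c * EE k) / (ν + c * EE k)))⁻¹ := by
        field_simp
        ring
      rw [h2, ← div_eq_mul_inv, ← div_eq_mul_inv]
      have h3 : 0 ≤ ν * (c * EE k) / (ν + c * EE k) := by positivity
      rw [div_le_div_iff₀ (by positivity) (by positivity)]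
      nlinarith

/-- the smoothing matrix after the window -/
lemma step_win (h : Dom A ν c) (hs : 0 < s) :
    (1 - (((ν⁻¹ + s)⁻¹ : ℝ)⁻¹) • (A * ahat s A))
      = (1 + (s * ν)⁻¹) • ahat s A - (s * ν)⁻¹ • (1 : Matrix (V N) (V N) ℝ) := by
  have hν := h.hν
  refine H864.sym_inj (TI.one.sub ((h.ti.mul (ti_ahat s A)).smul _))
    (((ti_ahat s A).smul _).sub (TI.one.smul _)) fun k => ?_
  rw [H864.sym_sub, H864.sym_one, H864.sym_smul, H864.sym_mul h.ti (ti_ahat s A), H864.sym_sub,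
    H864.sym_smul, H864.sym_smul, H864.sym_one, sym_ahat, inv_inv]
  have h0 := h.nn k
  have h1 : 0 < 1 + s * sym A k := by positivity
  field_simp
  ring

lemma step_win_nonneg (h : Dom A ν c) (hs : 0 < s) (o : ∀ x y, x ≠ y → A x y ≤ 0)
    (p : ∀ x y, 0 ≤ (1 - ν⁻¹ • A) x y) (x y : V N) :
    0 ≤ (1 - (((ν⁻¹ + s)⁻¹ : ℝ)⁻¹) • (A * ahat s A)) x y := by
  have hν := h.hν
  have e : (1 - (((ν⁻¹ + s)⁻¹ : ℝ)⁻¹) • (A * ahat s A)) = (1 - ν⁻¹ • A) * ahat s A := by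
    refine H864.sym_inj (TI.one.sub ((h.ti.mul (ti_ahat s A)).smul _))
      ((ti_S h).mul (ti_ahat s A)) fun k => ?_
    rw [H864.sym_sub, H864.sym_one, H864.sym_smul, H864.sym_mul h.ti (ti_ahat s A),
      H864.sym_mul (ti_S h) (ti_ahat s A), H864.sym_sub, H864.sym_smul, H864.sym_one, sym_ahat,
      inv_inv]
    have h0 := h.nn k
    have h1 : 0 < 1 + s * sym A k := by positivity
    field_simp
    ring
  rw [e, Matrix.mul_apply]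
  exact Finset.sum_nonneg fun w _ => mul_nonneg (p x w) (ahat_nonneg h hs o w y)

/-- the covariance after the window, relative to its value at `0` -/
lemma ker_win (h : Dom A ν c) (hs : 0 < s) {K K' : Matrix (V N) (V N) ℝ} (hK : Cv 0 A K)
    (hK' : Cv 0 (A * ahat s A) K') (a : V N) :
    K' 0 a - K' 0 0 = (K 0 a - K 0 0) + s * ((1 : Matrix (V N) (V N) ℝ) 0 a - 1) := by
  have h1 : (1 : Matrix (V N) (V N) ℝ) 0 a - 1 = (1 : Matrix (V N) (V N) ℝ) 0 a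
      - (1 : Matrix (V N) (V N) ℝ) 0 0 := by
    rw [Matrix.one_apply_eq]
  rw [h1, Torg.ker_sym hK'.ti, Torg.ker_sym hK.ti, Torg.ker_sym TI.one, ← mul_assoc s,
    mul_comm s, mul_assoc, ← mul_add]
  congr 1
  rw [Finset.mul_sum, ← Finset.sum_add_distrib]
  refine Finset.sum_congr rfl fun k _ => ?_
  by_cases hk : k = 0
  · rw [hk, H864.dt_zero_left, TM.H764.cN_zero]
    ring
  · rw [hK'.sy k hk, hK.sy k hk, H864.sym_one, H864.sym_mul h.ti (ti_ahat s A), sym_ahat]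
    have h0 := Torg.sym_pos h hk
    have h2 : 0 < 1 + s * sym A k := by positivity
    field_simp
    ring

end win

/-- sup bound of the local approximant after the window -/
lemma norm_lamw {A : Matrix (V N) (V N) ℝ} {ν c s : ℝ} (h : Dom A ν c) (hs : 0 < s)
    (o : ∀ x y, x ≠ y → A x y ≤ 0) {R0 D1 : ℕ} {mu : V N → (V N → ℝ) → ℂ} {K : ℝ}
    (hK : ∀ x F, ‖mu x F‖ ≤ K) (x : V N) (f : V N → ℝ) : ‖lamw s A R0 D1 mu x f‖ ≤ K := by
  have hK0 : 0 ≤ K := (norm_nonneg _).trans (hK 0 0)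
  have h0 : ∀ x y, 0 ≤ ahat s A x y := ahat_nonneg h hs o
  have h1 : ∑ y ∈ H462.box x R0, ahat s A y x ≤ 1 := by
    rw [← ahat_row A h.zero x (s := s)]
    refine (Finset.sum_le_sum_of_subset_of_nonneg (Finset.subset_univ _)
      fun y _ _ => h0 y x).trans (le_of_eq ?_)
    exact Finset.sum_congr rfl fun y _ => (ti_ahat s A).sy y x
  unfold lamw
  refine (norm_sum_le _ _).trans ?_
  calc ∑ y ∈ H462.box x R0, ‖(ahat s A y x : ℂ) * Pg (ahat s A) (gm s A) (mu y) (cutx D1 x f)‖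
      ≤ ∑ y ∈ H462.box x R0, ahat s A y x * K := by
        refine Finset.sum_le_sum fun y _ => ?_
        rw [norm_mul, Complex.norm_real, Real.norm_eq_abs, abs_of_nonneg (h0 y x)]
        exact mul_le_mul_of_nonneg_left (norm_Pg_le (hK y) _) (h0 y x)
    _ = (∑ y ∈ H462.box x R0, ahat s A y x) * K := by rw [Finset.sum_mul]
    _ ≤ 1 * K := mul_le_mul_of_nonneg_right h1 hK0
    _ = K := one_mul _

/-! ### the numbers -/

/-- error of the local approximant on the other torus after the window -/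
def rT (s : ℝ) (A2 : Matrix (V N2) (V N2) ℝ) (R0 D0 D1 R : ℕ) (K Km Lp r e η : ℝ) : ℝ :=
  r + tl (ahat s A2) R0 * K
    + Lp * ((2 * ((R0 + D0 : ℕ) : ℝ) + 1) ^ 2 * tl (ahat s A2) R * (2 * H889.sg (A2 * ahat s A2)))
    + (Km * ((2 * R0 + 1) ^ 2 * e) + 4 * η * Km
      + Lp * e * ((2 * D1 + 1) ^ 2 * (2 * H889.sg (A2 * ahat s A2))))

/-- the smoothing matrix of the level `(A, ν)` -/
def St (ν : ℝ) (A : Matrix (V N) (V N) ℝ) : Matrix (V N) (V N) ℝ := 1 - ν⁻¹ • A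

/-- error of the main function between two tori -/
def mT (ν : ℝ) (A1 : Matrix (V N1) (V N1) ℝ) (A2 : Matrix (V N2) (V N2) ℝ) (R0 D : ℕ) (eS : ℝ) :
    ℝ :=
  (tl (St ν A1) R0 + tl (St ν A2) R0 + (2 * R0 + 1) ^ 2 * eS
      + 2 * π * eS * ((2 * D + 1) ^ 2 * (2 * H889.sg A2)))
    + 2 * π * (tl (St ν A2 * St ν A2) D * (2 * H889.sg A2))

/-- the deviation on the other torus -/
def dT (ν : ℝ) (A1 : Matrix (V N1) (V N1) ℝ) (A2 : Matrix (V N2) (V N2) ℝ) (R0 D : ℕ)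
    (κ η nz B d ηa r eS : ℝ) : ℝ :=
  r + (√κ * (d + ηa + nz * (2 * π * (tl (St ν A1 * St ν A1) D * (2 * H889.sg A1))))
    + B * tk κ η) + nz * mT ν A1 A2 R0 D eS

/-- `Den.tor` with the tail of the main function inserted -/
theorem Den.tor' {A1 : Matrix (V N1) (V N1) ℝ} {A2 : Matrix (V N2) (V N2) ℝ} {ν c1 c2 : ℝ}
    (h1 : Dom A1 ν c1) (h2 : Dom A2 ν c2) (p1 : ∀ x y, 0 ≤ (1 - ν⁻¹ • A1) x y)
    (p2 : ∀ x y, 0 ≤ (1 - ν⁻¹ • A2) x y) {D R0 : ℕ} (hR : R0 ≤ D) (hN1 : 2 * D < N1)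
    (hN2 : 2 * D < N2) {e eS : ℝ}
    (hent : ∀ ζ ∈ zb (2 * D), |((pin A2 * (pin A2)ᵀ) 0 (ip N2 ζ) - (pin A2 * (pin A2)ᵀ) 0 0)
      - ((pin A1 * (pin A1)ᵀ) 0 (ip N1 ζ) - (pin A1 * (pin A1)ᵀ) 0 0)| ≤ e)
    (hS : ∀ ζ ∈ zb (2 * D), |(1 - ν⁻¹ • A2) 0 (ip N2 ζ) - (1 - ν⁻¹ • A1) 0 (ip N1 ζ)| ≤ eS)
    {η κ K : ℝ} (hη : 0 < η) (hη2 : η ≤ 1 / 2) (hκ : 1 ≤ κ)
    (he : 3 * ν * (2 * D + 1) ^ 2 * e ≤ η) {z : ℂ} {d η1 Lp r : ℝ}
    {ψ1 lam : V N1 → (V N1 → ℝ) → ℂ} (hd : Den A1 ν z d ψ1) (hl : Lcl A1 D η1 Lp ψ1 lam)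
    (hK : ∀ F, ‖lam 0 F‖ ≤ K)
    {ψ2 : V N2 → (V N2 → ℝ) → ℂ} (m2 : ∀ x, Measurable (ψ2 x)) (b2 : ∃ K : ℝ, ∀ x F, ‖ψ2 x F‖ ≤ K)
    (ch2 : ∀ x, Ch (ψ2 x)) (cov2 : Cov ψ2) (hL : Lcl A2 D r Lp ψ2 (lft D lam)) :
    Den A2 ν z (dT ν A1 A2 R0 D κ η ‖z‖ (K + ‖z‖) d η1 r eS) ψ2 := by
  have r1 : ∀ x, ∑ y, (1 - ν⁻¹ • A1) x y = 1 := fun y => by
    rw [row_sum (ti_S h1), H864.sym_sub, H864.sym_smul, H864.sym_one, h1.zero]
    ring
  have hm := mainf_tail (ti_S h1) p1 A1 D 0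
  have h := Den.tor h1 h2 p1 p2 hR hN1 hN2 hent hS hη hη2 hκ he hd hl hm (B := K + ‖z‖)
    (fun F => (norm_sub_le _ _).trans (add_le_add (hK F) (by
      rw [norm_mul]
      have := H552.norm_mainf_le_one p1 r1 0 F
      exact (mul_le_mul_of_nonneg_left this (norm_nonneg z)).trans (mul_one _).le))) m2 b2 ch2
    cov2 hL
  exact h

section main

variable {A1 : Matrix (V N1) (V N1) ℝ} {A2 : Matrix (V N2) (V N2) ℝ} {ν c1 c2 s : ℝ}

lemma one_ip {ζ : ℤ × ℤ} {D : ℕ} (hζ : ζ ∈ zb D) (hN : 2 * D < N) :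
    (1 : Matrix (V N) (V N) ℝ) 0 (ip N ζ) = if ζ = 0 then 1 else 0 := by
  rw [Matrix.one_apply]
  have hz := mem_zb.1 hζ
  by_cases h : ζ = 0
  · rw [if_pos h, h, ip_zero, if_pos rfl]
  · rw [if_neg h, if_neg]
    intro h2
    refine h (ip_inj (D := D) hN hz.1 hz.2 (by simp) (by simp) ?_)
    rw [← h2, ip_zero]

/-- **THE CHANGE OF THE TORUS AFTER A WINDOW** -/
theorem den_win_tor (h1 : Dom A1 ν c1) (h2 : Dom A2 ν c2) (hs : 0 < s)
    (o1 : ∀ x y, x ≠ y → A1 x y ≤ 0) (o2 : ∀ x y, x ≠ y → A2 x y ≤ 0)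
    (p1 : ∀ x y, 0 ≤ (1 - ν⁻¹ • A1) x y) (p2 : ∀ x y, 0 ≤ (1 - ν⁻¹ • A2) x y)
    {R0 D0 D1 R : ℕ} (hD : R0 + D0 + R ≤ D1) (hN1 : 4 * D1 < N1) (hN2 : 4 * D1 < N2)
    {e eK η η' κ K Km Lp r d ηa : ℝ}
    (he : ∀ ζ ∈ zb (2 * D1), |ahat s A2 0 (ip N2 ζ) - ahat s A1 0 (ip N1 ζ)| ≤ e)
    (hK : ∀ ζ ∈ zb (2 * D1), |((pin A2 * (pin A2)ᵀ) 0 (ip N2 ζ) - (pin A2 * (pin A2)ᵀ) 0 0)
      - ((pin A1 * (pin A1)ᵀ) 0 (ip N1 ζ) - (pin A1 * (pin A1)ᵀ) 0 0)| ≤ eK)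
    (hη2 : η ≤ 1 / 2) (hηe : (1 + s * ν) * (2 * D0 + 1) ^ 2 * e ≤ η)
    (hη' : 0 < η') (hη'2 : η' ≤ 1 / 2) (hκ : 1 ≤ κ)
    (hη'e : 3 * (ν⁻¹ + s)⁻¹ * (2 * D1 + 1) ^ 2 * eK ≤ η') {z : ℂ}
    {mu ψ1 : V N1 → (V N1 → ℝ) → ℂ} (hmu : Lcl A1 D0 0 Lp mu mu) (hKm : ∀ x F, ‖mu x F‖ ≤ Km)
    (hd : Den (A1 * ahat s A1) (ν⁻¹ + s)⁻¹ z d ψ1)
    (hl : Lcl (A1 * ahat s A1) D1 ηa Lp ψ1 (lamw s A1 R0 D1 mu))
    {u2 : V N2 → (V N2 → ℝ) → ℂ} (hm2 : ∀ x, Measurable (u2 x)) (hK2 : ∀ x F, ‖u2 x F‖ ≤ K)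
    (hch2 : ∀ x, Ch (u2 x)) (hcov2 : Cov u2) (hS : Lcl A2 D0 r Lp u2 (lft D0 mu)) :
    Den (A2 * ahat s A2) (ν⁻¹ + s)⁻¹ z
        (dT (ν⁻¹ + s)⁻¹ (A1 * ahat s A1) (A2 * ahat s A2) R0 D1 κ η' ‖z‖ (Km + ‖z‖) d ηa
          (rT s A2 R0 D0 D1 R K Km Lp r e η) ((1 + (s * ν)⁻¹) * e))
        (dn (ahat s A2) (gm s A2) u2) ∧
      Lcl (A2 * ahat s A2) D1 (rT s A2 R0 D0 D1 R K Km Lp r e η) Lp
        (dn (ahat s A2) (gm s A2) u2) (lft D1 (lamw s A1 R0 D1 mu)) := by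
  have hν := h1.hν
  have hK0 : 0 ≤ K := (norm_nonneg _).trans (hK2 0 0)
  have L := lcl_same h1 h2 hs o1 o2 hD (by omega) (by omega) he hη2 hηe hmu hKm hm2 hK2 hch2 hS
  refine ⟨?_, L⟩
  have d1 := dom_win h1 hs
  have d2 := dom_win h2 hs
  have q1 : ∀ x y, 0 ≤ (1 - (((ν⁻¹ + s)⁻¹ : ℝ)⁻¹) • (A1 * ahat s A1)) x y :=
    step_win_nonneg h1 hs o1 p1
  have q2 : ∀ x y, 0 ≤ (1 - (((ν⁻¹ + s)⁻¹ : ℝ)⁻¹) • (A2 * ahat s A2)) x y :=
    step_win_nonneg h2 hs o2 p2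
  have hrow : ∀ x, ∑ y, ahat s A2 x y = 1 := ahat_row A2 h2.zero
  refine Den.tor' d1 d2 q1 q2 (R0 := R0) (by omega) (by omega) (by omega) (e := eK) ?_ ?_ hη'
    hη'2 hκ hη'e hd hl (fun F => norm_lamw h1 hs o1 hKm 0 F) (fun x => measurable_dn hm2 x)
    ⟨1 * K, fun x F => ?_⟩ ?_ (cov_dn (ti_ahat s A2) (ti_gm s A2) hcov2) L
  · intro ζ hζ
    rw [ker_win h2 hs (cv_pin h2.ti h2.nn) (cv_pin d2.ti d2.nn),
      ker_win h1 hs (cv_pin h1.ti h1.nn) (cv_pin d1.ti d1.nn), one_ip hζ (by omega),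
      one_ip hζ (by omega), add_sub_add_right_eq_sub]
    exact hK ζ hζ
  · intro ζ hζ
    rw [step_win h1 hs, step_win h2 hs, Matrix.sub_apply, Matrix.sub_apply, Matrix.smul_apply,
      Matrix.smul_apply, Matrix.smul_apply, Matrix.smul_apply, smul_eq_mul, smul_eq_mul,
      smul_eq_mul, smul_eq_mul, one_ip hζ (by omega), one_ip hζ (by omega),
      sub_sub_sub_cancel_right, ← mul_sub, abs_mul, abs_of_pos (by positivity)]
    exact mul_le_mul_of_nonneg_left (he ζ hζ) (by positivity)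
  · have h3 := norm_dn_le (F0 := ahat s A2) (A := gm s A2) hK2 x F
    have h4 : ∑ y, |ahat s A2 y x| = 1 := by
      rw [← hrow x]
      refine Finset.sum_congr rfl fun y _ => ?_
      rw [abs_of_nonneg (ahat_nonneg h2 hs o2 y x), (ti_ahat s A2).sy]
    rw [h4] at h3
    exact h3
  · intro x f t
    unfold dn
    rw [Finset.mul_sum]
    refine Finset.sum_congr rfl fun y _ => ?_
    rw [ch_Pg hrow (hch2 y) f t]
    ring

end main

end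

end Vale.Agent.P159.H733.Vt
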