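import Vale.Agent.P159.H733.Vt5

/-!
P159 / VTOR instance (helper733), part 6: the change of the torus with square mean noise factors
(TORL2).
-/

set_option linter.unusedSectionVars false

namespace Vale.Agent.P159.H733.Vt

open MeasureTheory ProbabilityTheory Finset Matrix
open Vale.Agent.P159.TM.Spec (V)
open Vale.Agent.P159.H37 (gau qf)
open Vale.Agent.P159.H363
open Vale.Agent.P159.H864 (TI sym fc mlt)
open Vale.Agent.P159.H462 (Dom ahat Gam ti_ahat ti_Gam sym_ahat)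
open Vale.Agent.P159.H889
open Vale.Agent.P159.H733.Torg (ip ip_sub ip_neg ip_zero Cv)
open scoped Real

noncomputable section

variable {N N1 N2 : ℕ} [NeZero N] [NeZero N1] [NeZero N2]

/-! ### the linear form of the window -/

/-- the coefficients: difference of the rows of two kernels at the window point `ω` -/
def dl (M1 : Matrix (V N1) (V N1) ℝ) (M2 : Matrix (V N2) (V N2) ℝ) (ω ζ : ℤ × ℤ) : ℝ :=
  M2 0 (ip N2 (ζ - ω)) - M1 0 (ip N1 (ζ - ω))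

/-- the linear form -/
def lin (M1 : Matrix (V N1) (V N1) ℝ) (M2 : Matrix (V N2) (V N2) ℝ) (D : ℕ) (x : V N2)
    (ω : ℤ × ℤ) (F : V N2 → ℝ) : ℝ :=
  ∑ ζ ∈ zb D, dl M1 M2 ω ζ * (F (x + ip N2 ζ) - F x)

/-- smoothed window fields on two tori, exact -/
lemma mul_trp_lin {M1 : Matrix (V N1) (V N1) ℝ} {M2 : Matrix (V N2) (V N2) ℝ} (t1 : TI M1)
    (t2 : TI M2) (r1 : ∀ x, ∑ y, M1 x y = 1) (r2 : ∀ x, ∑ y, M2 x y = 1) {D : ℕ}
    (hD1 : 2 * D < N1) (hD2 : 2 * D < N2) (b1 : V N1) (x : V N2) (F : V N2 → ℝ) (ω : ℤ × ℤ) :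
    (M2 *ᵥ cutx D x F) (x + ip N2 ω) - (M1 *ᵥ trp D b1 x F) (b1 + ip N1 ω) = lin M1 M2 D x ω F := by
  rw [← trp_self, mul_trp t2 r2 hD2, mul_trp t1 r1 hD1, add_sub_add_left_eq_sub,
    ← Finset.sum_sub_distrib]
  unfold lin dl
  exact Finset.sum_congr rfl fun ζ _ => by ring

lemma memLp_lin' {I : Type*} [Fintype I] (B : Matrix (V N2) I ℝ) (M1 : Matrix (V N1) (V N1) ℝ)
    (M2 : Matrix (V N2) (V N2) ℝ) (D : ℕ) (x : V N2) (ω : ℤ × ℤ) :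
    MemLp (fun g : I → ℝ => ((lin M1 M2 D x ω (B *ᵥ g) : ℝ) : ℂ)) 2 (gau I) := by
  have e : (fun g : I → ℝ => ((lin M1 M2 D x ω (B *ᵥ g) : ℝ) : ℂ)) = fun g =>
      ∑ ζ ∈ zb D, (dl M1 M2 ω ζ : ℂ) * (((B (x + ip N2 ζ) ⬝ᵥ g : ℝ) : ℂ) - ((B x ⬝ᵥ g : ℝ) : ℂ)) := by
    funext g
    unfold lin
    push_cast
    rfl
  rw [e]
  exact memLp_sum _ fun ζ _ => ((memLp_lin _).sub (memLp_lin _)).const_mul _

lemma sum_sq_dl_le {M1 : Matrix (V N1) (V N1) ℝ} {M2 : Matrix (V N2) (V N2) ℝ} {D : ℕ} {e : ℝ}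
    (he : ∀ ζ ∈ zb (2 * D), |M2 0 (ip N2 ζ) - M1 0 (ip N1 ζ)| ≤ e) {ω : ℤ × ℤ} (hω : ω ∈ zb D) :
    √(∑ ζ ∈ zb D, dl M1 M2 ω ζ ^ 2) ≤ (2 * D + 1) * e := by
  have he0 : 0 ≤ e := (abs_nonneg _).trans (he 0 (zero_mem_zb _))
  rw [Real.sqrt_le_left (by positivity)]
  calc ∑ ζ ∈ zb D, dl M1 M2 ω ζ ^ 2 ≤ ∑ ζ ∈ zb D, e ^ 2 := by
        refine Finset.sum_le_sum fun ζ hζ => ?_
        rw [← sq_abs]
        refine pow_le_pow_left₀ (abs_nonneg _) (he _ ?_) 2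
        rw [two_mul]
        exact sub_mem_zb hζ hω
    _ = _ := by
      rw [Finset.sum_const, nsmul_eq_mul, card_zb]
      ring

lemma sum_abs_dl_le {M1 : Matrix (V N1) (V N1) ℝ} {M2 : Matrix (V N2) (V N2) ℝ} {D : ℕ} {e : ℝ}
    (he : ∀ ζ ∈ zb (2 * D), |M2 0 (ip N2 ζ) - M1 0 (ip N1 ζ)| ≤ e) {ω : ℤ × ℤ} (hω : ω ∈ zb D) :
    ∑ ζ ∈ zb D, |dl M1 M2 ω ζ| ≤ (2 * D + 1) ^ 2 * e := by
  calc ∑ ζ ∈ zb D, |dl M1 M2 ω ζ| ≤ ∑ ζ ∈ zb D, e := by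
        refine Finset.sum_le_sum fun ζ hζ => he _ ?_
        rw [two_mul]
        exact sub_mem_zb hζ hω
    _ = _ := by rw [Finset.sum_const, nsmul_eq_mul, card_zb]

/-- the row sum over a shifted box is one up to the tail -/
lemma sum_shift_box {M : Matrix (V N) (V N) ℝ} (r : ∀ x, ∑ y, M x y = 1) {D R' R : ℕ}
    (hD : 2 * D < N) (hR : R' + R ≤ D) {ω : ℤ × ℤ} (hω : ω ∈ zb R') (t : TI M) :
    |∑ ζ ∈ zb D, M 0 (ip N (ζ - ω)) - 1| ≤ tl M R := by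
  have e1 : ∑ ζ ∈ zb D, M 0 (ip N (ζ - ω)) = ∑ v ∈ H462.box (0 : V N) D, M (ip N ω) v := by
    rw [sum_box hD (0 : V N)]
    refine Finset.sum_congr rfl fun ζ _ => ?_
    rw [t.eq (ip N ω), zero_add, ip_sub]
  rw [e1, ← r (ip N ω), ← Finset.sum_add_sum_compl (H462.box (0 : V N) D) (fun v => M (ip N ω) v),
    sub_add_cancel_left, abs_neg]
  refine (Finset.abs_sum_le_sum_abs _ _).trans ?_
  have hb : ip N ω ∈ H462.box (0 : V N) R' := by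
    have := ip_mem_box hω (0 : V N)
    rwa [zero_add] at this
  exact sum_compl_le t hb hR

/-- the sum of the coefficients of the linear form -/
lemma sum_dl_le {M1 : Matrix (V N1) (V N1) ℝ} {M2 : Matrix (V N2) (V N2) ℝ} (t1 : TI M1)
    (t2 : TI M2) (r1 : ∀ x, ∑ y, M1 x y = 1) (r2 : ∀ x, ∑ y, M2 x y = 1) {D R' R : ℕ}
    (hD1 : 2 * D < N1) (hD2 : 2 * D < N2) (hR : R' + R ≤ D) {ω : ℤ × ℤ} (hω : ω ∈ zb R') :
    |∑ ζ ∈ zb D, dl M1 M2 ω ζ| ≤ tl M1 R + tl M2 R := by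
  have h1 := sum_shift_box r1 hD1 hR hω t1
  have h2 := sum_shift_box r2 hD2 hR hω t2
  unfold dl
  rw [Finset.sum_sub_distrib]
  rw [abs_le] at h1 h2 ⊢
  constructor <;> linarith [h1.1, h1.2, h2.1, h2.2]

/-! ### the main functions -/

/-- the main functions on two tori, by linear forms -/
theorem mainf_lft_lin {S1 : Matrix (V N1) (V N1) ℝ} {S2 : Matrix (V N2) (V N2) ℝ} (t1 : TI S1)
    (t2 : TI S2) (n1 : ∀ x y, 0 ≤ S1 x y) (r1 : ∀ x, ∑ y, S1 x y = 1)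
    (r2 : ∀ x, ∑ y, S2 x y = 1) {D R0 : ℕ} (hR : R0 ≤ D) (hN1 : 2 * D < N1) (hN2 : 2 * D < N2)
    {e : ℝ} (he : ∀ ζ ∈ zb (2 * D), |S2 0 (ip N2 ζ) - S1 0 (ip N1 ζ)| ≤ e) (x : V N2)
    (F : V N2 → ℝ) :
    ‖lft D (mainf S1) x F - mainf S2 x (cutx D x F)‖
      ≤ (tl S1 R0 + tl S2 R0 + (2 * R0 + 1) ^ 2 * e)
        + 2 * π * ∑ ω ∈ zb R0, S1 0 (ip N1 ω) * |lin S1 S2 D x ω F| := by
  have he0 : 0 ≤ e := (abs_nonneg _).trans (he 0 (zero_mem_zb _))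
  set a2 : ℤ × ℤ → ℂ := fun ζ => ee ((S2 *ᵥ cutx D x F) (x + ip N2 ζ)) with ha2
  set a1 : ℤ × ℤ → ℂ := fun ζ => ee ((S1 *ᵥ trp D 0 x F) (0 + ip N1 ζ)) with ha1
  have h2 := mainf_split t2 (R := R0) (by omega) x (cutx D x F)
  have h1 := mainf_split t1 (R := R0) (by omega) 0 (trp D (0 : V N1) x F)
  set X1 := ∑ ζ ∈ zb R0, (S1 0 (ip N1 ζ) : ℂ) * a1 ζ with hX1
  set X2 := ∑ ζ ∈ zb R0, (S2 0 (ip N2 ζ) : ℂ) * a2 ζ with hX2
  have h3 : ‖X1 - X2‖ ≤ (2 * R0 + 1) ^ 2 * e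
      + 2 * π * ∑ ω ∈ zb R0, S1 0 (ip N1 ω) * |lin S1 S2 D x ω F| := by
    have es : X1 - X2 = (∑ ζ ∈ zb R0, ((S1 0 (ip N1 ζ) - S2 0 (ip N2 ζ) : ℝ) : ℂ) * a2 ζ)
        + ∑ ζ ∈ zb R0, (S1 0 (ip N1 ζ) : ℂ) * (a1 ζ - a2 ζ) := by
      rw [hX1, hX2, ← Finset.sum_sub_distrib, ← Finset.sum_add_distrib]
      refine Finset.sum_congr rfl fun ζ _ => ?_
      push_cast
      ring
    rw [es]
    refine (norm_add_le _ _).trans (add_le_add ?_ ?_)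
    · refine (norm_sum_le _ _).trans ?_
      calc ∑ ζ ∈ zb R0, ‖((S1 0 (ip N1 ζ) - S2 0 (ip N2 ζ) : ℝ) : ℂ) * a2 ζ‖
          ≤ ∑ ζ ∈ zb R0, e := by
            refine Finset.sum_le_sum fun ζ hζ => ?_
            rw [norm_mul, Complex.norm_real, Real.norm_eq_abs, norm_ee, mul_one, abs_sub_comm]
            exact he ζ (zb_mono (by omega) hζ)
        _ = _ := by rw [Finset.sum_const, nsmul_eq_mul, card_zb]
    · refine (norm_sum_le _ _).trans ?_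
      rw [Finset.mul_sum]
      refine Finset.sum_le_sum fun ζ hζ => ?_
      rw [norm_mul, Complex.norm_real, Real.norm_eq_abs, abs_of_nonneg (n1 _ _)]
      refine (mul_le_mul_of_nonneg_left (H552.norm_ee_sub_le _ _) (n1 _ _)).trans
        (le_of_eq ?_)
      rw [abs_sub_comm, mul_trp_lin t1 t2 r1 r2 hN1 hN2]
      ring
  have e0 : lft D (mainf S1) x F - mainf S2 x (cutx D x F)
      = (mainf S1 0 (trp D (0 : V N1) x F) - X1) + (X1 - X2) - (mainf S2 x (cutx D x F) - X2) := by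
    unfold lft
    ring
  rw [e0]
  have q1 := norm_sub_le ((mainf S1 0 (trp D (0 : V N1) x F) - X1) + (X1 - X2))
    (mainf S2 x (cutx D x F) - X2)
  have q2 := norm_add_le (mainf S1 0 (trp D (0 : V N1) x F) - X1) (X1 - X2)
  linarith

/-- **the main functions on two tori, in square mean, any law** -/
theorem mainf_lft_l2 {I : Type*} [Fintype I] {S1 : Matrix (V N1) (V N1) ℝ}
    {S2 : Matrix (V N2) (V N2) ℝ} (t1 : TI S1)
    (t2 : TI S2) (n1 : ∀ x y, 0 ≤ S1 x y) (r1 : ∀ x, ∑ y, S1 x y = 1)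
    (r2 : ∀ x, ∑ y, S2 x y = 1) {D R0 : ℕ} (hR : R0 ≤ D) (hN1 : 2 * D < N1) (hN2 : 2 * D < N2)
    {e q : ℝ} (he : ∀ ζ ∈ zb (2 * D), |S2 0 (ip N2 ζ) - S1 0 (ip N1 ζ)| ≤ e) (x : V N2)
    (B : Matrix (V N2) I ℝ)
    (hq : ∀ ω ∈ zb R0, n2 (gau I) (fun g => ((lin S1 S2 D x ω (B *ᵥ g) : ℝ) : ℂ)) ≤ q) :
    n2 (gau I) (fun g => lft D (mainf S1) x (B *ᵥ g) - mainf S2 x (cutx D x (B *ᵥ g)))
      ≤ (tl S1 R0 + tl S2 R0 + (2 * R0 + 1) ^ 2 * e) + 2 * π * q := by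
  have he0 : 0 ≤ e := (abs_nonneg _).trans (he 0 (zero_mem_zb _))
  have hq0 : 0 ≤ q := (n2_nonneg _).trans (hq 0 (zero_mem_zb _))
  have ha : 0 ≤ tl S1 R0 + tl S2 R0 + (2 * R0 + 1) ^ 2 * e := by
    have q1 := tl_nonneg S1 R0
    have q2 := tl_nonneg S2 R0
    positivity
  set a : ℝ := tl S1 R0 + tl S2 R0 + (2 * R0 + 1) ^ 2 * e with hae
  -- absolute values of the linear forms
  have mabs : ∀ ω, MemLp (fun g : I → ℝ => ((|lin S1 S2 D x ω (B *ᵥ g)| : ℝ) : ℂ)) 2 (gau I) := by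
    intro ω
    refine (memLp_lin' B S1 S2 D x ω).of_le ?_ (Filter.Eventually.of_forall fun g => ?_)
    · have h := (memLp_lin' B S1 S2 D x ω).1.norm
      refine (Complex.continuous_ofReal.comp_aestronglyMeasurable h).congr
        (Filter.Eventually.of_forall fun g => ?_)
      simp only
      rw [Complex.norm_real, Real.norm_eq_abs]
    · rw [Complex.norm_real, Complex.norm_real, Real.norm_eq_abs, Real.norm_eq_abs, abs_abs]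
  have nabs : ∀ ω ∈ zb R0, n2 (gau I) (fun g => ((|lin S1 S2 D x ω (B *ᵥ g)| : ℝ) : ℂ)) ≤ q := by
    intro ω hω
    refine (n2_mono (memLp_lin' B S1 S2 D x ω) fun g => ?_).trans (hq ω hω)
    rw [Complex.norm_real, Complex.norm_real, Real.norm_eq_abs, Real.norm_eq_abs, abs_abs]
  set U : (I → ℝ) → ℂ := fun g => ∑ ω ∈ zb R0, (S1 0 (ip N1 ω) : ℂ)
    * ((|lin S1 S2 D x ω (B *ᵥ g)| : ℝ) : ℂ) with hU
  have mU : MemLp U 2 (gau I) := memLp_sum _ fun ω _ => (mabs ω).const_mul _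
  have nU : n2 (gau I) U ≤ q := by
    have h := n2_comb_le (μ := gau I) (zb R0)
      (u := fun ω g => ((|lin S1 S2 D x ω (B *ᵥ g)| : ℝ) : ℂ)) (fun ω _ => mabs ω)
      (fun ω => (S1 0 (ip N1 ω) : ℂ)) (K := q) nabs
    refine h.trans ?_
    have e1 : ∑ ω ∈ zb R0, ‖(S1 0 (ip N1 ω) : ℂ)‖ = ∑ ω ∈ zb R0, S1 0 (ip N1 ω) :=
      Finset.sum_congr rfl fun ω _ => by
        rw [Complex.norm_real, Real.norm_eq_abs, abs_of_nonneg (n1 _ _)]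
    rw [e1]
    exact (mul_le_mul_of_nonneg_right (sum_ker_le n1 r1 (by omega)) hq0).trans (one_mul q).le
  have m0 : MemLp (fun _ : I → ℝ => (a : ℂ)) 2 (gau I) := memLp_const _
  have m1 : MemLp (fun g : I → ℝ => ((2 * π : ℝ) : ℂ) * U g) 2 (gau I) := mU.const_mul _
  have h1 : n2 (gau I) (fun g => lft D (mainf S1) x (B *ᵥ g) - mainf S2 x (cutx D x (B *ᵥ g)))
      ≤ n2 (gau I) (fun g => (a : ℂ) + ((2 * π : ℝ) : ℂ) * U g) := by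
    refine n2_mono (m0.add m1) fun g => ?_
    refine (mainf_lft_lin t1 t2 n1 r1 r2 hR hN1 hN2 he x (B *ᵥ g)).trans (le_of_eq ?_)
    have e1 : U g = ((∑ ω ∈ zb R0, S1 0 (ip N1 ω) * |lin S1 S2 D x ω (B *ᵥ g)| : ℝ) : ℂ) := by
      rw [hU]
      push_cast
      rfl
    rw [e1, ← Complex.ofReal_mul, ← Complex.ofReal_add, Complex.norm_real, Real.norm_eq_abs,
      abs_of_nonneg]
    have : 0 ≤ ∑ ω ∈ zb R0, S1 0 (ip N1 ω) * |lin S1 S2 D x ω (B *ᵥ g)| :=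
      Finset.sum_nonneg fun ω _ => mul_nonneg (n1 _ _) (abs_nonneg _)
    positivity
  refine h1.trans ((n2_add_le m0 m1).trans (add_le_add ?_ ?_))
  · refine n2_le_const m0.aestronglyMeasurable ha fun _ => ?_
    rw [Complex.norm_real, Real.norm_eq_abs, abs_of_nonneg ha]
  · rw [n2_const_mul, Complex.norm_real, Real.norm_eq_abs, abs_of_pos (by positivity)]
    exact mul_le_mul_of_nonneg_left nU (by positivity)

/-! ### one window, the window error as an abstract number -/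

section window

variable {A1 : Matrix (V N1) (V N1) ℝ} {A2 : Matrix (V N2) (V N2) ℝ} {ν c1 c2 s : ℝ}

/-- `lcl_same` with the error `E` of the window of the functional -/
theorem lcl_same_E (h1 : Dom A1 ν c1) (h2 : Dom A2 ν c2) (hs : 0 < s)
    (o1 : ∀ x y, x ≠ y → A1 x y ≤ 0) (o2 : ∀ x y, x ≠ y → A2 x y ≤ 0) {R0 D0 D1 R : ℕ}
    (hD : R0 + D0 + R ≤ D1) {E K Km Lp r : ℝ}
    {mu : V N1 → (V N1 → ℝ) → ℂ} (hmu : Lcl A1 D0 0 Lp mu mu) (hKm : ∀ x F, ‖mu x F‖ ≤ Km)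
    {u2 : V N2 → (V N2 → ℝ) → ℂ} (hm2 : ∀ x, Measurable (u2 x)) (hK : ∀ x F, ‖u2 x F‖ ≤ K)
    (hch2 : ∀ x, Ch (u2 x)) (hS : Lcl A2 D0 r Lp u2 (lft D0 mu))
    (hE : ∀ x, tn2 (A2 * ahat s A2) (fun F =>
      lamw s A2 R0 D1 (lft D0 mu) x F - lft D1 (lamw s A1 R0 D1 mu) x F) ≤ E) :
    Lcl (A2 * ahat s A2) D1 (r + tl (ahat s A2) R0 * K
      + Lp * ((2 * ((R0 + D0 : ℕ) : ℝ) + 1) ^ 2 * tl (ahat s A2) R * (2 * H889.sg (A2 * ahat s A2)))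
      + E) Lp
      (dn (ahat s A2) (gm s A2) u2) (lft D1 (lamw s A1 R0 D1 mu)) := by
  have L1 := lcl_window h1 hs o1 hD hmu.m hKm hmu.ch hmu
  have L2 := lcl_window h2 hs o2 hD hm2 hK hch2 hS
  refine lcl_lft L1 fun x => ?_
  obtain ⟨Kl, hKl⟩ := L2.bd
  obtain ⟨Kl', hKl'⟩ := L1.bd
  obtain ⟨Kd, hKd⟩ : ∃ Kd : ℝ, ∀ F, ‖dn (ahat s A2) (gm s A2) u2 x F‖ ≤ Kd :=
    ⟨_, fun F => norm_dn_le hK x F⟩
  have md : Measurable (dn (ahat s A2) (gm s A2) u2 x) := measurable_dn hm2 x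
  have e1 : ∀ F, dn (ahat s A2) (gm s A2) u2 x F - lft D1 (lamw s A1 R0 D1 mu) x F
      = (dn (ahat s A2) (gm s A2) u2 x F - lamw s A2 R0 D1 (lft D0 mu) x F)
        + (lamw s A2 R0 D1 (lft D0 mu) x F - lft D1 (lamw s A1 R0 D1 mu) x F) := fun F => by ring
  rw [tn2_congr e1]
  exact (tn2_add_le (md.sub (L2.m x)) ((L2.m x).sub (measurable_lft L1.m x))
    (fun F => (norm_sub_le _ _).trans (add_le_add (hKd F) (hKl x F)))
    (fun F => (norm_sub_le _ _).trans (add_le_add (hKl x F) (norm_lft hKl' x F))) _).trans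
    (add_le_add (L2.near x) (hE x))

end window

/-! ### the deviation, the error of the main functions as an abstract number -/

/-- `Den.tor` with the error `mM` of the main functions -/
theorem Den.tor_E {A1 : Matrix (V N1) (V N1) ℝ} {A2 : Matrix (V N2) (V N2) ℝ} {ν c1 c2 : ℝ}
    (h1 : Dom A1 ν c1) (h2 : Dom A2 ν c2)
    (p2 : ∀ x y, 0 ≤ (1 - ν⁻¹ • A2) x y) {D : ℕ} (hN1 : 2 * D < N1) {e mM : ℝ}
    (hent : ∀ ζ ∈ zb (2 * D), |((pin A2 * (pin A2)ᵀ) 0 (ip N2 ζ) - (pin A2 * (pin A2)ᵀ) 0 0)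
      - ((pin A1 * (pin A1)ᵀ) 0 (ip N1 ζ) - (pin A1 * (pin A1)ᵀ) 0 0)| ≤ e)
    (hM : ∀ x, tn2 A2 (fun F => lft D (mainf (1 - ν⁻¹ • A1)) x F
      - mainf (1 - ν⁻¹ • A2) x (cutx D x F)) ≤ mM)
    {η κ B : ℝ} (hη : 0 < η) (hη2 : η ≤ 1 / 2) (hκ : 1 ≤ κ)
    (he : 3 * ν * (2 * D + 1) ^ 2 * e ≤ η) {z : ℂ} {d η1 Lp ηm r : ℝ}
    {ψ1 lam : V N1 → (V N1 → ℝ) → ℂ} (hd : Den A1 ν z d ψ1) (hl : Lcl A1 D η1 Lp ψ1 lam)
    (hm : tn2 A1 (fun F => mainf (1 - ν⁻¹ • A1) 0 F - mainf (1 - ν⁻¹ • A1) 0 (cutx D 0 F)) ≤ ηm)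
    (hB : ∀ F, ‖lam 0 F - z * mainf (1 - ν⁻¹ • A1) 0 F‖ ≤ B)
    {ψ2 : V N2 → (V N2 → ℝ) → ℂ} (m2 : ∀ x, Measurable (ψ2 x)) (b2 : ∃ K : ℝ, ∀ x F, ‖ψ2 x F‖ ≤ K)
    (ch2 : ∀ x, Ch (ψ2 x)) (cov2 : Cov ψ2) (hL : Lcl A2 D r Lp ψ2 (lft D lam)) :
    Den A2 ν z (r + (√κ * (d + η1 + ‖z‖ * ηm) + B * tk κ η)
      + ‖z‖ * (mM + 2 * π * (tl ((1 - ν⁻¹ • A2) * (1 - ν⁻¹ • A2)) D * (2 * H889.sg A2)))) ψ2 := by
  set S1 : Matrix (V N1) (V N1) ℝ := 1 - ν⁻¹ • A1 with hS1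
  set S2 : Matrix (V N2) (V N2) ℝ := 1 - ν⁻¹ • A2 with hS2
  have t1 : TI S1 := ti_S h1
  have t2 : TI S2 := ti_S h2
  have r1 : ∀ x, ∑ y, S1 x y = 1 := fun y => by
    rw [row_sum t1, hS1, H864.sym_sub, H864.sym_smul, H864.sym_one, h1.zero]
    ring
  have c1 : ∀ x, Ch (mainf S1 x) := H552.ch_mainf r1
  obtain ⟨K2, hK2⟩ := b2
  obtain ⟨K1, hK1⟩ := hd.bd
  obtain ⟨Kl, hKl⟩ := hl.bd
  have hzn := norm_nonneg z
  refine ⟨m2, ⟨K2, hK2⟩, ch2, cov2, fun x => ?_⟩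
  -- the transported deviation
  set G : V N1 → (V N1 → ℝ) → ℂ := fun y F => lam y F - z * mainf S1 y F with hG
  have mG : ∀ y, Measurable (G y) := fun y => (hl.m y).sub ((measurable_mainf S1 y).const_mul z)
  have cG : ∀ y, Ch (G y) := by
    intro y F t
    have a1 := hl.ch y F t
    have a2 := c1 y F t
    simp only [hG]
    rw [a1, a2]
    ring
  have hG1 : tn2 A2 (lft D G x) ≤ √κ * (d + η1 + ‖z‖ * ηm) + B * tk κ η := by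
    have q : tn2 A2 (lft D G x) ≤ √κ * tn2 A1 (fun F => G 0 (cutx D 0 F)) + B * tk κ η := by
      unfold tn2 lft
      exact n2_trp (β := 0) (cv_pin h1.ti h1.nn) h1 le_rfl (sym_pin_zero h1.ti h1.nn)
        (cv_pin h2.ti h2.nn).ti hN1 hent hη hη2 hκ (by rwa [add_zero]) (mG 0) (cG 0) hB 0 x
    refine q.trans (add_le_add (mul_le_mul_of_nonneg_left ?_ (Real.sqrt_nonneg _)) le_rfl)
    have m1 : Measurable fun F => ψ1 0 F - z * mainf S1 0 F :=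
      (hd.m 0).sub ((measurable_mainf S1 0).const_mul z)
    have m3 : Measurable fun F => ψ1 0 F - lam 0 F := (hd.m 0).sub (hl.m 0)
    have mc : Measurable (cutx D (0 : V N1) : (V N1 → ℝ) → V N1 → ℝ) :=
      H552.measurable_cutB (H462.box 0 D) 0
    have m4 : Measurable fun F => mainf S1 0 F - mainf S1 0 (cutx D 0 F) :=
      (measurable_mainf S1 0).sub ((measurable_mainf S1 0).comp mc)
    have e1 : ∀ F, G 0 (cutx D 0 F) = ((ψ1 0 F - z * mainf S1 0 F) - (ψ1 0 F - lam 0 F))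
        + z * (mainf S1 0 F - mainf S1 0 (cutx D 0 F)) := by
      intro F
      have e2 : lam 0 (cutx D 0 F) = lam 0 F := hl.loc 0 _ _ fun y hy => by
        rw [cutx_eq, add_ip_zz hy]
      simp only [hG]
      rw [e2]
      ring
    rw [tn2_congr e1]
    have M0 : ∀ F, ‖mainf S1 0 F‖ ≤ ∑ y, ∑ w, |S1 y w| := fun F => norm_mainf_bdd S1 0 F
    have bb : ∀ F, ‖ψ1 0 F - z * mainf S1 0 F‖ ≤ K1 + ‖z‖ * ∑ y, ∑ w, |S1 y w| := fun F =>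
      (norm_sub_le _ _).trans (add_le_add (hK1 0 F) (by
        rw [norm_mul]
        exact mul_le_mul_of_nonneg_left (M0 F) hzn))
    have bc : ∀ F, ‖ψ1 0 F - lam 0 F‖ ≤ K1 + Kl := fun F =>
      (norm_sub_le _ _).trans (add_le_add (hK1 0 F) (hKl 0 F))
    refine (tn2_add_le (m1.sub m3) (m4.const_mul z)
      (fun F => (norm_sub_le _ _).trans (add_le_add (bb F) (bc F)))
      (L := ‖z‖ * ((∑ y, ∑ w, |S1 y w|) + ∑ y, ∑ w, |S1 y w|)) (fun F => by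
        rw [norm_mul]
        exact mul_le_mul_of_nonneg_left ((norm_sub_le _ _).trans (add_le_add (M0 F) (M0 _)))
          hzn) A1).trans ?_
    refine add_le_add ?_ ?_
    · refine (tn2_sub_le m1 m3 bb bc A1).trans (add_le_add (hd.dev 0) (hl.near 0))
    · rw [tn2_const_mul]
      exact mul_le_mul_of_nonneg_left hm hzn
  have hT := mainf_tail t2 p2 A2 D x
  have mc2 : Measurable (cutx D x : (V N2 → ℝ) → V N2 → ℝ) :=
    H552.measurable_cutB (H462.box x D) x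
  have e0 : ∀ F, ψ2 x F - z * mainf S2 x F = ((ψ2 x F - lft D lam x F) + lft D G x F)
      + z * ((lft D (mainf S1) x F - mainf S2 x (cutx D x F))
        - (mainf S2 x F - mainf S2 x (cutx D x F))) := by
    intro F
    have : lft D G x F = lft D lam x F - z * lft D (mainf S1) x F := rfl
    rw [this]
    ring
  rw [tn2_congr e0]
  have M2 : ∀ F, ‖mainf S2 x F‖ ≤ ∑ y, ∑ w, |S2 y w| := fun F => norm_mainf_bdd S2 x F
  have M1 : ∀ F, ‖lft D (mainf S1) x F‖ ≤ ∑ y, ∑ w, |S1 y w| := fun F => norm_mainf_bdd S1 0 _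
  have mm1 : Measurable (lft D (mainf S1) x) := measurable_lft (measurable_mainf S1) x
  have f1 : Measurable fun F => ψ2 x F - lft D lam x F := (m2 x).sub (measurable_lft hl.m x)
  have f2 : Measurable (lft D G x) := measurable_lft mG x
  have f3 : Measurable fun F => lft D (mainf S1) x F - mainf S2 x (cutx D x F) :=
    mm1.sub ((measurable_mainf S2 x).comp mc2)
  have f4 : Measurable fun F => mainf S2 x F - mainf S2 x (cutx D x F) :=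
    (measurable_mainf S2 x).sub ((measurable_mainf S2 x).comp mc2)
  have g1 : ∀ F, ‖ψ2 x F - lft D lam x F‖ ≤ K2 + Kl := fun F =>
    (norm_sub_le _ _).trans (add_le_add (hK2 x F) (norm_lft hKl x F))
  have g2 : ∀ F, ‖lft D G x F‖ ≤ B := fun F => hB _
  have g3 : ∀ F, ‖lft D (mainf S1) x F - mainf S2 x (cutx D x F)‖
      ≤ (∑ y, ∑ w, |S1 y w|) + ∑ y, ∑ w, |S2 y w| := fun F =>
    (norm_sub_le _ _).trans (add_le_add (M1 F) (M2 _))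
  have g4 : ∀ F, ‖mainf S2 x F - mainf S2 x (cutx D x F)‖
      ≤ (∑ y, ∑ w, |S2 y w|) + ∑ y, ∑ w, |S2 y w| := fun F =>
    (norm_sub_le _ _).trans (add_le_add (M2 F) (M2 _))
  refine (tn2_add_le (f1.add f2) ((f3.sub f4).const_mul z)
    (fun F => (norm_add_le _ _).trans (add_le_add (g1 F) (g2 F)))
    (L := ‖z‖ * (((∑ y, ∑ w, |S1 y w|) + ∑ y, ∑ w, |S2 y w|)
      + ((∑ y, ∑ w, |S2 y w|) + ∑ y, ∑ w, |S2 y w|))) (fun F => by
      rw [norm_mul]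
      exact mul_le_mul_of_nonneg_left ((norm_sub_le _ _).trans (add_le_add (g3 F) (g4 F))) hzn)
    A2).trans (add_le_add ?_ ?_)
  · exact (tn2_add_le f1 f2 g1 g2 A2).trans (add_le_add (hL.near x) hG1)
  · rw [tn2_const_mul]
    refine mul_le_mul_of_nonneg_left ?_ hzn
    exact (tn2_sub_le f3 f4 g3 g4 A2).trans (add_le_add (hM x) hT)

/-! ### the numbers -/

/-- error of the local approximant on the other torus after the window, window error `E` -/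
def rE (s : ℝ) (A2 : Matrix (V N2) (V N2) ℝ) (R0 D0 R : ℕ) (K Lp r E : ℝ) : ℝ :=
  r + tl (ahat s A2) R0 * K
    + Lp * ((2 * ((R0 + D0 : ℕ) : ℝ) + 1) ^ 2 * tl (ahat s A2) R * (2 * H889.sg (A2 * ahat s A2)))
    + E

/-- error of the main function between two tori: `q` bounds the linear forms in square mean -/
def mE (ν : ℝ) (A1 : Matrix (V N1) (V N1) ℝ) (A2 : Matrix (V N2) (V N2) ℝ) (R0 D : ℕ)
    (eS q : ℝ) : ℝ :=
  ((tl (St ν A1) R0 + tl (St ν A2) R0 + (2 * R0 + 1) ^ 2 * eS) + 2 * π * q)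
    + 2 * π * (tl (St ν A2 * St ν A2) D * (2 * H889.sg A2))

/-- the deviation on the other torus -/
def dE (ν : ℝ) (A1 : Matrix (V N1) (V N1) ℝ) (A2 : Matrix (V N2) (V N2) ℝ) (R0 D : ℕ)
    (κ η nz B d ηa r eS q : ℝ) : ℝ :=
  r + (√κ * (d + ηa + nz * (2 * π * (tl (St ν A1 * St ν A1) D * (2 * H889.sg A1))))
    + B * tk κ η) + nz * mE ν A1 A2 R0 D eS q

/-- **THE CHANGE OF THE TORUS AFTER A WINDOW, SQUARE MEAN FORM**: `E` bounds the window of the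
functional, `q` the linear forms of the main function -/
theorem den_win_E {A1 : Matrix (V N1) (V N1) ℝ} {A2 : Matrix (V N2) (V N2) ℝ} {ν c1 c2 s : ℝ}
    (h1 : Dom A1 ν c1) (h2 : Dom A2 ν c2) (hs : 0 < s)
    (o1 : ∀ x y, x ≠ y → A1 x y ≤ 0) (o2 : ∀ x y, x ≠ y → A2 x y ≤ 0)
    (p1 : ∀ x y, 0 ≤ (1 - ν⁻¹ • A1) x y) (p2 : ∀ x y, 0 ≤ (1 - ν⁻¹ • A2) x y)
    {R0 D0 D1 R : ℕ} (hD : R0 + D0 + R ≤ D1) (hN1 : 4 * D1 < N1) (hN2 : 4 * D1 < N2)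
    {e eK E q η' κ K Km Lp r d ηa : ℝ}
    (he : ∀ ζ ∈ zb (2 * D1), |ahat s A2 0 (ip N2 ζ) - ahat s A1 0 (ip N1 ζ)| ≤ e)
    (hK : ∀ ζ ∈ zb (2 * D1), |((pin A2 * (pin A2)ᵀ) 0 (ip N2 ζ) - (pin A2 * (pin A2)ᵀ) 0 0)
      - ((pin A1 * (pin A1)ᵀ) 0 (ip N1 ζ) - (pin A1 * (pin A1)ᵀ) 0 0)| ≤ eK)
    (hη' : 0 < η') (hη'2 : η' ≤ 1 / 2) (hκ : 1 ≤ κ)
    (hη'e : 3 * (ν⁻¹ + s)⁻¹ * (2 * D1 + 1) ^ 2 * eK ≤ η') {z : ℂ}
    {mu ψ1 : V N1 → (V N1 → ℝ) → ℂ} (hmu : Lcl A1 D0 0 Lp mu mu) (hKm : ∀ x F, ‖mu x F‖ ≤ Km)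
    (hd : Den (A1 * ahat s A1) (ν⁻¹ + s)⁻¹ z d ψ1)
    (hl : Lcl (A1 * ahat s A1) D1 ηa Lp ψ1 (lamw s A1 R0 D1 mu))
    {u2 : V N2 → (V N2 → ℝ) → ℂ} (hm2 : ∀ x, Measurable (u2 x)) (hK2 : ∀ x F, ‖u2 x F‖ ≤ K)
    (hch2 : ∀ x, Ch (u2 x)) (hcov2 : Cov u2) (hS : Lcl A2 D0 r Lp u2 (lft D0 mu))
    (hE : ∀ x, tn2 (A2 * ahat s A2) (fun F =>
      lamw s A2 R0 D1 (lft D0 mu) x F - lft D1 (lamw s A1 R0 D1 mu) x F) ≤ E)
    (hq : ∀ x, ∀ ω ∈ zb R0, tn2 (A2 * ahat s A2) (fun F =>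
      ((lin (St (ν⁻¹ + s)⁻¹ (A1 * ahat s A1)) (St (ν⁻¹ + s)⁻¹ (A2 * ahat s A2)) D1 x ω F : ℝ) : ℂ))
        ≤ q) :
    Den (A2 * ahat s A2) (ν⁻¹ + s)⁻¹ z
        (dE (ν⁻¹ + s)⁻¹ (A1 * ahat s A1) (A2 * ahat s A2) R0 D1 κ η' ‖z‖ (Km + ‖z‖) d ηa
          (rE s A2 R0 D0 R K Lp r E) ((1 + (s * ν)⁻¹) * e) q)
        (dn (ahat s A2) (gm s A2) u2) ∧
      Lcl (A2 * ahat s A2) D1 (rE s A2 R0 D0 R K Lp r E) Lp
        (dn (ahat s A2) (gm s A2) u2) (lft D1 (lamw s A1 R0 D1 mu)) := by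
  have hν := h1.hν
  have hK0 : 0 ≤ K := (norm_nonneg _).trans (hK2 0 0)
  have L := lcl_same_E h1 h2 hs o1 o2 hD hmu hKm hm2 hK2 hch2 hS hE
  refine ⟨?_, L⟩
  have d1 := dom_win h1 hs
  have d2 := dom_win h2 hs
  have q1 : ∀ x y, 0 ≤ (1 - (((ν⁻¹ + s)⁻¹ : ℝ)⁻¹) • (A1 * ahat s A1)) x y :=
    step_win_nonneg h1 hs o1 p1
  have q2 : ∀ x y, 0 ≤ (1 - (((ν⁻¹ + s)⁻¹ : ℝ)⁻¹) • (A2 * ahat s A2)) x y :=
    step_win_nonneg h2 hs o2 p2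
  have hrow : ∀ x, ∑ y, ahat s A2 x y = 1 := ahat_row A2 h2.zero
  have r1 : ∀ x, ∑ y, (1 - (((ν⁻¹ + s)⁻¹ : ℝ)⁻¹) • (A1 * ahat s A1)) x y = 1 := fun y => by
    rw [row_sum (ti_S d1), H864.sym_sub, H864.sym_smul, H864.sym_one, d1.zero]
    ring
  have r2 : ∀ x, ∑ y, (1 - (((ν⁻¹ + s)⁻¹ : ℝ)⁻¹) • (A2 * ahat s A2)) x y = 1 := fun y => by
    rw [row_sum (ti_S d2), H864.sym_sub, H864.sym_smul, H864.sym_one, d2.zero]
    ring
  have hSe : ∀ ζ ∈ zb (2 * D1), |(1 - (((ν⁻¹ + s)⁻¹ : ℝ)⁻¹) • (A2 * ahat s A2)) 0 (ip N2 ζ)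
      - (1 - (((ν⁻¹ + s)⁻¹ : ℝ)⁻¹) • (A1 * ahat s A1)) 0 (ip N1 ζ)| ≤ (1 + (s * ν)⁻¹) * e := by
    intro ζ hζ
    rw [step_win h1 hs, step_win h2 hs, Matrix.sub_apply, Matrix.sub_apply, Matrix.smul_apply,
      Matrix.smul_apply, Matrix.smul_apply, Matrix.smul_apply, smul_eq_mul, smul_eq_mul,
      smul_eq_mul, smul_eq_mul, one_ip hζ (by omega), one_ip hζ (by omega),
      sub_sub_sub_cancel_right, ← mul_sub, abs_mul, abs_of_pos (by positivity)]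
    exact mul_le_mul_of_nonneg_left (he ζ hζ) (by positivity)
  have hm := mainf_tail (ti_S d1) q1 (A1 * ahat s A1) D1 0
  refine Den.tor_E d1 d2 q2 (D := D1) (by omega) (e := eK) ?_
    (mM := (tl (St (ν⁻¹ + s)⁻¹ (A1 * ahat s A1)) R0 + tl (St (ν⁻¹ + s)⁻¹ (A2 * ahat s A2)) R0
      + (2 * R0 + 1) ^ 2 * ((1 + (s * ν)⁻¹) * e)) + 2 * π * q) ?_ hη'
    hη'2 hκ hη'e hd hl hm (B := Km + ‖z‖) (fun F => (norm_sub_le _ _).trans (add_le_add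
      (norm_lamw h1 hs o1 hKm 0 F) (by
      rw [norm_mul]
      have := H552.norm_mainf_le_one q1 r1 0 F
      exact (mul_le_mul_of_nonneg_left this (norm_nonneg z)).trans (mul_one _).le)))
    (fun x => measurable_dn hm2 x)
    ⟨1 * K, fun x F => ?_⟩ ?_ (cov_dn (ti_ahat s A2) (ti_gm s A2) hcov2) L
  · intro ζ hζ
    rw [ker_win h2 hs (cv_pin h2.ti h2.nn) (cv_pin d2.ti d2.nn),
      ker_win h1 hs (cv_pin h1.ti h1.nn) (cv_pin d1.ti d1.nn), one_ip hζ (by omega),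
      one_ip hζ (by omega), add_sub_add_right_eq_sub]
    exact hK ζ hζ
  · intro x
    exact mainf_lft_l2 (ti_S d1) (ti_S d2) q1 r1 r2 (by omega) (by omega) (by omega) hSe x
      (pin (A2 * ahat s A2)) (hq x)
  · have h3 := norm_dn_le (F0 := ahat s A2) (A := gm s A2) hK2 x F
    have h4 : ∑ y, |ahat s A2 y x| = 1 := by
      rw [← hrow x]
      refine Finset.sum_congr rfl fun y _ => ?_
      rw [abs_of_nonneg (ahat_nonneg h2 hs o2 y x), (ti_ahat s A2).sy]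
    rw [h4] at h3
    exact h3
  · intro x f t
    unfold dn
    rw [Finset.mul_sum]
    refine Finset.sum_congr rfl fun y _ => ?_
    rw [ch_Pg hrow (hch2 y) f t]
    ring

end

end Vale.Agent.P159.H733.Vt
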