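import Vale.Agent.P159.H733.Vt6
import Vale.Agent.P159.H363.Lmw

/-!
P159 / VTOR instance (helper733), part 7: the change of the torus after a window, with the square
mean numbers of H363 (DEVL, LAMW2) inserted.
-/

set_option linter.unusedSectionVars false

namespace Vale.Agent.P159.H733.Vt

open MeasureTheory ProbabilityTheory Finset Matrix
open Vale.Agent.P159.TM.Spec (V)
open Vale.Agent.P159.H37 (gau qf)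
open Vale.Agent.P159.H363
open Vale.Agent.P159.H864 (TI sym fc mlt)
open Vale.Agent.P159.H462 (Dom ahat Gam ti_ahat ti_Gam sym_ahat)
open Vale.Agent.P159.H889
open Vale.Agent.P159.H733.Torg (ip ip_sub ip_neg ip_zero Cv)
open scoped Real

noncomputable section

variable {N N1 N2 : ℕ} [NeZero N] [NeZero N1] [NeZero N2]

section win

variable {A1 : Matrix (V N1) (V N1) ℝ} {A2 : Matrix (V N2) (V N2) ℝ} {ν c1 c2 s : ℝ}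

/-- coefficients of the linear form of the main functions after the window -/
lemma dl_step (h1 : Dom A1 ν c1) (h2 : Dom A2 ν c2) (hs : 0 < s) {D : ℕ} (hN1 : 4 * D < N1)
    (hN2 : 4 * D < N2) {ω ζ : ℤ × ℤ} (hω : ω ∈ zb D) (hζ : ζ ∈ zb D) :
    dl (St (ν⁻¹ + s)⁻¹ (A1 * ahat s A1)) (St (ν⁻¹ + s)⁻¹ (A2 * ahat s A2)) ω ζ
      = (1 + (s * ν)⁻¹) * aw s A1 A2 ω ζ := by
  have hz : ζ - ω ∈ zb (2 * D) := by
    rw [two_mul]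
    exact sub_mem_zb hζ hω
  unfold dl St aw
  rw [step_win h1 hs, step_win h2 hs, Matrix.sub_apply, Matrix.sub_apply, Matrix.smul_apply,
    Matrix.smul_apply, Matrix.smul_apply, Matrix.smul_apply, smul_eq_mul, smul_eq_mul,
    smul_eq_mul, smul_eq_mul, one_ip hz (by omega), one_ip hz (by omega),
    sub_sub_sub_cancel_right, ← mul_sub]

/-- the linear form of the main functions after the window -/
lemma lin_step (h1 : Dom A1 ν c1) (h2 : Dom A2 ν c2) (hs : 0 < s) {D : ℕ} (hN1 : 4 * D < N1)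
    (hN2 : 4 * D < N2) {ω : ℤ × ℤ} (hω : ω ∈ zb D) (x : V N2) (F : V N2 → ℝ) :
    lin (St (ν⁻¹ + s)⁻¹ (A1 * ahat s A1)) (St (ν⁻¹ + s)⁻¹ (A2 * ahat s A2)) D x ω F
      = (1 + (s * ν)⁻¹) * (incv D (aw s A1 A2 ω) x ⬝ᵥ F) := by
  rw [incv_dot]
  unfold lin
  rw [Finset.mul_sum]
  refine Finset.sum_congr rfl fun ζ hζ => ?_
  rw [dl_step h1 h2 hs hN1 hN2 hω hζ]
  ring

/-- square mean of the linear form of the main functions after the window, any law below -/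
lemma n2_lin_step (h1 : Dom A1 ν c1) (h2 : Dom A2 ν c2) (hs : 0 < s) {R1 R D : ℕ}
    (hR : R1 + R ≤ D) (hN1 : 4 * D < N1) (hN2 : 4 * D < N2) {e : ℝ}
    (he : ∀ ζ ∈ zb (2 * D), |ahat s A2 0 (ip N2 ζ) - ahat s A1 0 (ip N1 ζ)| ≤ e)
    {A' : Matrix (V N2) (V N2) ℝ} {ν' c' : ℝ} (h' : Dom A' ν' c') {I : Type*} [Fintype I]
    {B : Matrix (V N2) I ℝ} (hB : Below A' B) {σ : ℝ} (hσ0 : 0 ≤ σ)
    (hσ : vaw ν' c' e (tl (ahat s A1) R + tl (ahat s A2) R) N2 D ≤ σ ^ 2)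
    {ω : ℤ × ℤ} (hω : ω ∈ zb R1) (x : V N2) :
    n2 (gau I) (fun g => ((lin (St (ν⁻¹ + s)⁻¹ (A1 * ahat s A1))
      (St (ν⁻¹ + s)⁻¹ (A2 * ahat s A2)) D x ω (B *ᵥ g) : ℝ) : ℂ)) ≤ (1 + (s * ν)⁻¹) * σ := by
  have hν := h1.hν
  have e1 : ∀ g : I → ℝ, ((lin (St (ν⁻¹ + s)⁻¹ (A1 * ahat s A1))
      (St (ν⁻¹ + s)⁻¹ (A2 * ahat s A2)) D x ω (B *ᵥ g) : ℝ) : ℂ)
      = ((1 + (s * ν)⁻¹ : ℝ) : ℂ) * (((incv D (aw s A1 A2 ω) x ᵥ* B) ⬝ᵥ g : ℝ) : ℂ) := by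
    intro g
    rw [lin_step h1 h2 hs hN1 hN2 (zb_mono (by omega) hω), ← Complex.ofReal_mul,
      Matrix.dotProduct_mulVec]
  rw [n2_congr e1, n2_const_mul, Complex.norm_real, Real.norm_eq_abs, abs_of_pos (by positivity),
    n2_lin]
  refine mul_le_mul_of_nonneg_left ?_ (by positivity)
  rw [Real.sqrt_le_left hσ0]
  exact (var_aw h1.zero h2.zero h' hB hR (by omega) (by omega) he hω x).trans hσ

/-- the error of the window of the functional -/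
def eW (Km Lp e η σ : ℝ) (R0 D0 : ℕ) : ℝ :=
  Km * ((2 * R0 + 1) ^ 2 * e) + 4 * η * Km
    + Lp * (2 * σ * √(Real.log (2 * (2 * ((R0 + D0 : ℕ) : ℝ) + 1) ^ 2)))

/-- **THE CHANGE OF THE TORUS AFTER A WINDOW, SQUARE MEAN NUMBERS** -/
theorem den_win_l2 (h1 : Dom A1 ν c1) (h2 : Dom A2 ν c2) (hs : 0 < s)
    (o1 : ∀ x y, x ≠ y → A1 x y ≤ 0) (o2 : ∀ x y, x ≠ y → A2 x y ≤ 0)
    (p1 : ∀ x y, 0 ≤ (1 - ν⁻¹ • A1) x y) (p2 : ∀ x y, 0 ≤ (1 - ν⁻¹ • A2) x y)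
    {R0 D0 D1 R : ℕ} (hD : R0 + D0 + R ≤ D1) (hN1 : 4 * D1 < N1) (hN2 : 4 * D1 < N2)
    {e eK η η' κ K Km Lp r d ηa σ : ℝ}
    (he : ∀ ζ ∈ zb (2 * D1), |ahat s A2 0 (ip N2 ζ) - ahat s A1 0 (ip N1 ζ)| ≤ e)
    (hK : ∀ ζ ∈ zb (2 * D1), |((pin A2 * (pin A2)ᵀ) 0 (ip N2 ζ) - (pin A2 * (pin A2)ᵀ) 0 0)
      - ((pin A1 * (pin A1)ᵀ) 0 (ip N1 ζ) - (pin A1 * (pin A1)ᵀ) 0 0)| ≤ eK)
    (hη2 : η ≤ 1 / 2) (hηe : (1 + s * ν) * (2 * D0 + 1) ^ 2 * e ≤ η)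
    (hη' : 0 < η') (hη'2 : η' ≤ 1 / 2) (hκ : 1 ≤ κ)
    (hη'e : 3 * (ν⁻¹ + s)⁻¹ * (2 * D1 + 1) ^ 2 * eK ≤ η') (hσ0 : 0 ≤ σ)
    (hσ : vaw (ν⁻¹ + s)⁻¹ c2 e (tl (ahat s A1) R + tl (ahat s A2) R) N2 D1 ≤ σ ^ 2) {z : ℂ}
    {mu ψ1 : V N1 → (V N1 → ℝ) → ℂ} (hmu : Lcl A1 D0 0 Lp mu mu) (hKm : ∀ x F, ‖mu x F‖ ≤ Km)
    (hd : Den (A1 * ahat s A1) (ν⁻¹ + s)⁻¹ z d ψ1)
    (hl : Lcl (A1 * ahat s A1) D1 ηa Lp ψ1 (lamw s A1 R0 D1 mu))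
    {u2 : V N2 → (V N2 → ℝ) → ℂ} (hm2 : ∀ x, Measurable (u2 x)) (hK2 : ∀ x F, ‖u2 x F‖ ≤ K)
    (hch2 : ∀ x, Ch (u2 x)) (hcov2 : Cov u2) (hS : Lcl A2 D0 r Lp u2 (lft D0 mu)) :
    Den (A2 * ahat s A2) (ν⁻¹ + s)⁻¹ z
        (dE (ν⁻¹ + s)⁻¹ (A1 * ahat s A1) (A2 * ahat s A2) R0 D1 κ η' ‖z‖ (Km + ‖z‖) d ηa
          (rE s A2 R0 D0 R K Lp r (eW Km Lp e η σ R0 D0)) ((1 + (s * ν)⁻¹) * e)
          ((1 + (s * ν)⁻¹) * σ))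
        (dn (ahat s A2) (gm s A2) u2) ∧
      Lcl (A2 * ahat s A2) D1 (rE s A2 R0 D0 R K Lp r (eW Km Lp e η σ R0 D0)) Lp
        (dn (ahat s A2) (gm s A2) u2) (lft D1 (lamw s A1 R0 D1 mu)) := by
  have d2 := dom_win h2 hs
  refine den_win_E h1 h2 hs o1 o2 p1 p2 hD hN1 hN2 he hK hη' hη'2 hκ hη'e hmu hKm hd hl hm2 hK2
    hch2 hcov2 hS (fun x => ?_) fun x ω hω => ?_
  · unfold tn2 eW
    exact lamw_two_n2 h1 h2 hs o1 o2 hD (by omega) (by omega) he hη2 hηe hmu hKm d2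
      (below_pin (A2 * ahat s A2)) hσ0 hσ x
  · unfold tn2
    exact n2_lin_step h1 h2 hs (by omega : R0 + R ≤ D1) hN1 hN2 he d2
      (below_pin (A2 * ahat s A2)) hσ0 hσ hω x

end win

end

end Vale.Agent.P159.H733.Vt
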