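import Vale.Agent.P159.H733.Vt8

/-!
P159 / VTOR instance (helper733), part 9: (TN), all numbers of the change of the torus in the laws of
the exact periodizations (H889, row 5683).
-/

set_option linter.unusedSectionVars false

namespace Vale.Agent.P159.H733.Vt

open MeasureTheory ProbabilityTheory Finset Matrix
open Vale.Agent.P159.TM.Spec (V)
open Vale.Agent.P159.H37 (gau qf)
open Vale.Agent.P159.H363
open Vale.Agent.P159.H864 (TI sym fc mlt)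
open Vale.Agent.P159.H462 (Dom ahat Gam ti_ahat ti_Gam sym_ahat)
open Vale.Agent.P159.H889
open Vale.Agent.P159.TM.H459 (sn)
open Vale.Agent.P159.H733.Torg (av ip prj pz Two Near Cv Stb)
open scoped Real

noncomputable section

variable {N n1 n2 n3 : ℕ} [NeZero N] [NeZero n1] [NeZero n2] [NeZero n3]

/-! ### generic numbers -/

lemma absorb (C : ℝ) (k : ℕ) : ∃ L0 : ℝ, 1 ≤ L0 ∧ ∀ L, L0 ≤ L → C * L ^ k ≤ Real.exp L := by
  refine ⟨max 1 (C * (k + 1).factorial), le_max_left _ _, fun L hL => ?_⟩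
  have h1 : 1 ≤ L := (le_max_left _ _).trans hL
  have h2 : C * (k + 1).factorial ≤ L := (le_max_right _ _).trans hL
  have h3 := Real.pow_div_factorial_le_exp (x := L) (by linarith) (k + 1)
  refine le_trans ?_ h3
  have hf : (0 : ℝ) < (k + 1).factorial := by positivity
  rw [le_div_iff₀ hf, pow_succ]
  have h4 : 0 ≤ L ^ k := by positivity
  nlinarith [mul_le_mul_of_nonneg_right h2 h4]

lemma tau_le {κ C1 Q y : ℝ} {T : ℕ} (hT : 0 < T) (hQ0 : 0 ≤ Q) (hy : (T : ℝ) ≤ y)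
    (hQ : 4 * Q * √y ≤ κ * N) : Torg.tau κ C1 N T ≤ 4 * Real.exp C1 * Real.exp (-Q) := by
  unfold Torg.tau
  refine mul_le_mul_of_nonneg_left (Real.exp_le_exp.2 (neg_le_neg ?_)) (by positivity)
  have hT0 : (0 : ℝ) < T := by exact_mod_cast hT
  have hsT : 0 < √(T : ℝ) := Real.sqrt_pos.2 hT0
  rw [le_div_iff₀ (by positivity)]
  have h1 := Real.sqrt_le_sqrt hy
  have h2 : 4 * Q * √(T : ℝ) ≤ 4 * Q * √y := mul_le_mul_of_nonneg_left h1 (by positivity)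
  linarith

lemma eA_gen {s ν κ C1 a L Q : ℝ} (hs : 0 < s) (hν : 0 < ν) (ha : 1 ≤ a) (hL : 1 ≤ L)
    (hQ0 : 0 ≤ Q) (hQ : 4 * Q * √(2 * (a * (1 + s * ν) * L)) ≤ κ * N) :
    eA s ν κ C1 0 1 N ⌈a * (1 + s * ν) * L⌉₊
      ≤ 2 * Real.exp (-(a * L)) + 8 * a * L * Real.exp C1 * Real.exp (-Q) := by
  set g : ℝ := 1 + s * ν with hg
  have hsν : 0 < s * ν := by positivity
  have hg1 : 1 ≤ g := by linarith
  have hg0 : 0 < g := by linarith
  have hagL : 1 ≤ a * g * L := by nlinarith [mul_le_mul ha hg1 (by norm_num) (by linarith)]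
  set T : ℕ := ⌈a * g * L⌉₊ with hT
  have hT1 : a * g * L ≤ T := Nat.le_ceil _
  have hT2 : (T : ℝ) ≤ 2 * (a * g * L) := by
    have := (Nat.ceil_lt_add_one (by linarith : 0 ≤ a * g * L)).le
    linarith
  have hTp : 0 < (T : ℝ) := by linarith
  unfold eA
  refine add_le_add ?_ ?_
  · refine mul_le_mul_of_nonneg_left ?_ (by norm_num)
    refine (lm_pow_le hs hν T).trans (Real.exp_le_exp.2 (neg_le_neg ?_))
    rw [le_div_iff₀ hg0]
    linarith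
  · rw [zero_mul, mul_zero, add_zero]
    have k1 : Torg.tau κ C1 N T ≤ 4 * Real.exp C1 * Real.exp (-Q) :=
      tau_le (by exact_mod_cast hTp) hQ0 hT2 hQ
    calc (T : ℝ) * Torg.tau κ C1 N T / g
        ≤ (2 * (a * g * L)) * (4 * Real.exp C1 * Real.exp (-Q)) / g := by
          gcongr
          exact Torg.tau_nonneg _ _ _ _
      _ = _ := by field_simp; ring

lemma eE_gen {ν c κ C1 y Q : ℝ} (hν : 0 < ν) (hc : 0 < c) (hy : 1 ≤ y) (hQ0 : 0 ≤ Q)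
    (hQ : 4 * Q * √(5 * y) ≤ κ * N) (D : ℕ) :
    Torg.eE ν c κ C1 0 1 0 N ⌈y⌉₊ D
      ≤ 5 * ν * D ^ 2 / (y * c ^ 2) + 20 * y * Real.exp C1 * Real.exp (-Q) / ν := by
  set m : ℕ := ⌈y⌉₊ with hm
  have hm1 : y ≤ m := Nat.le_ceil _
  have hm2 : (m : ℝ) ≤ 2 * y := by
    have := (Nat.ceil_lt_add_one (by linarith : 0 ≤ y)).le
    linarith
  have hm0 : 0 < (m : ℝ) := by linarith
  have hM : ((2 * m + 1 : ℕ) : ℝ) ≤ 5 * y := by
    push_cast
    linarith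
  unfold Torg.eE
  refine add_le_add ?_ ?_
  · gcongr
  · rw [zero_mul, mul_zero, mul_zero, add_zero, add_zero]
    have k1 : Torg.tau κ C1 N (2 * m + 1) ≤ 4 * Real.exp C1 * Real.exp (-Q) :=
      tau_le (by omega) hQ0 hM hQ
    calc ((2 * m + 1 : ℕ) : ℝ) * Torg.tau κ C1 N (2 * m + 1) / ν
        ≤ (5 * y) * (4 * Real.exp C1 * Real.exp (-Q)) / ν := by
          gcongr
          exact Torg.tau_nonneg _ _ _ _
      _ = _ := by ring

lemma box_mono' {x : V N} {D D' : ℕ} (h : D ≤ D') : H462.box x D ⊆ H462.box x D' := by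
  intro y hy
  rw [H462.mem_box] at hy ⊢
  exact ⟨hy.1.trans h, hy.2.trans h⟩

lemma tl_mono (M : Matrix (V N) (V N) ℝ) {R R' : ℕ} (h : R ≤ R') : tl M R' ≤ tl M R :=
  Finset.sum_le_sum_of_subset_of_nonneg (Finset.compl_subset_compl.2 (box_mono' h))
    fun _ _ _ => abs_nonneg _

/-- two steps -/
lemma tl_SS {A : Matrix (V N) (V N) ℝ} {ν c κ C1 : ℝ} (h : Dom A ν c)
    (p : ∀ x y, 0 ≤ (1 - ν⁻¹ • A) x y) (hκ : 0 < κ)
    (hm : ∑ z, (1 - ν⁻¹ • A : Matrix (V N) (V N) ℝ) 0 z * Real.exp (κ * sn z) ≤ C1) (D : ℕ) :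
    tl ((1 - ν⁻¹ • A) * (1 - ν⁻¹ • A)) D ≤ 4 * Real.exp (2 * C1) * Real.exp (-(κ / 2 * D)) := by
  have e2 := tail_th (Torg.ti_step h.ti ν) p (Torg.step_row h) hκ hm (θ := κ / 2) (by positivity)
    (by linarith) 2 D
  have e4 : ((2 : ℕ) : ℝ) * (4 * ((κ / 2) ^ 2 / κ ^ 2) * C1) = 2 * C1 := by
    push_cast
    field_simp
    norm_num
  rw [e4] at e2
  rw [← pow_two]
  refine le_trans ?_ e2
  unfold tl
  refine le_trans (Finset.sum_le_sum_of_subset_of_nonneg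
    (t := univ.filter (fun z : V N => (D : ℝ) ≤ sn z)) ?_ fun z _ _ => abs_nonneg _)
    (le_of_eq ?_)
  · intro z hz
    rw [Finset.mem_filter]
    exact ⟨Finset.mem_univ _, sn_of_not_box (Finset.mem_compl.1 hz)⟩
  · exact Finset.sum_congr rfl fun z _ => abs_of_nonneg (Torg.pow_nonneg' p 2 0 z)

/-! ### the hypotheses -/

/-- hypotheses of (TN) -/
structure TNh (h1 : n1 ∣ n3) (h2 : n2 ∣ n3) (B1 : Matrix (V n1) (V n1) ℝ)
    (B2 : Matrix (V n2) (V n2) ℝ) (A3 : Matrix (V n3) (V n3) ℝ)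
    (ν c κ C1 s lam M L k0 c0 q W : ℝ) : Prop where
  T1 : Two h1 B1 A3 ν c κ C1
  T2 : Two h2 B2 A3 ν c κ C1
  lamp : 0 < lam
  lam1 : lam ≤ 1
  lam2 : lam ^ 2 = ν
  kl : k0 * lam ≤ κ
  cc : c0 ≤ c
  sp : 0 < s
  sM : s * ν = M ^ 2 - 1
  M2 : 2 ≤ M
  lamL : Real.exp (-(q * L)) ≤ lam
  ML : M ≤ Real.exp L
  n1L : (n1 : ℝ) ≤ Real.exp (q * L)
  n2L : (n2 : ℝ) ≤ Real.exp (q * L)
  w1 : W * M * L ^ 4 ≤ n1 * lam
  w2 : W * M * L ^ 4 ≤ n2 * lam

/-- the thresholds -/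
structure TNc (k0 c0 C1 A0 q B a A Y W L : ℝ) : Prop where
  k0p : 0 < k0
  c0p : 0 < c0
  C1p : 0 ≤ C1
  A0p : 0 ≤ A0
  q0 : 0 ≤ q
  B1 : 1 ≤ B
  aeq : a = 2 * (4 + 2 * q) + B + 12
  Aeq : A = (4 * a * C1 + 4 * a) / k0 + 1
  Yeq : Y = 240 * (B + 1) * (3 * (2 * A + 2 + A0)) ^ 4 / c0 ^ 2 + 1
  W1 : 8 * a * √(5 * Y) ≤ k0 * W
  W2 : 8 * a * √(2 * a) ≤ k0 * W
  W3 : 2 * (3 * (2 * A + 2 + A0)) < W
  L3 : 3 ≤ L
  F1 : 3 * (2 * A + 2 + A0) * L ≤ Real.exp L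
  F2 : 1 + 100 / c0 ≤ Real.exp L
  F3 : 16 * a * Real.exp C1 * L ≤ Real.exp L
  F4 : 960 * (B + 1) * Y * Real.exp C1 * L ^ 6 ≤ Real.exp L
  F5 : 4 * Real.exp (2 * C1) ≤ Real.exp L

/-- the thresholds exist -/
theorem TNc.exists {k0 c0 C1 A0 q B : ℝ} (hk : 0 < k0) (hc : 0 < c0) (hC : 0 ≤ C1) (hA : 0 ≤ A0)
    (hq : 0 ≤ q) (hB : 1 ≤ B) : ∃ a A Y W L0 : ℝ, 1 ≤ a ∧ 1 ≤ A ∧ 1 ≤ W ∧ 1 ≤ L0 ∧
      ∀ W' L, W ≤ W' → L0 ≤ L → TNc k0 c0 C1 A0 q B a A Y W' L := by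
  set a : ℝ := 2 * (4 + 2 * q) + B + 12 with ha
  set A : ℝ := (4 * a * C1 + 4 * a) / k0 + 1 with hAe
  set Y : ℝ := 240 * (B + 1) * (3 * (2 * A + 2 + A0)) ^ 4 / c0 ^ 2 + 1 with hY
  have ha1 : 1 ≤ a := by linarith
  have hA1 : 1 ≤ A := by
    have : 0 ≤ (4 * a * C1 + 4 * a) / k0 := by positivity
    linarith
  set W : ℝ := 8 * a * √(5 * Y) / k0 + 8 * a * √(2 * a) / k0 + 2 * (3 * (2 * A + 2 + A0)) + 1 with hW
  have w1 : 0 ≤ 8 * a * √(5 * Y) / k0 := by positivity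
  have w2 : 0 ≤ 8 * a * √(2 * a) / k0 := by positivity
  have hW1 : 1 ≤ W := by
    have : 0 ≤ 2 * (3 * (2 * A + 2 + A0)) := by positivity
    linarith
  obtain ⟨l1, b1, f1⟩ := absorb (3 * (2 * A + 2 + A0)) 1
  obtain ⟨l2, b2, f2⟩ := absorb (1 + 100 / c0) 0
  obtain ⟨l3, b3, f3⟩ := absorb (16 * a * Real.exp C1) 1
  obtain ⟨l4, b4, f4⟩ := absorb (960 * (B + 1) * Y * Real.exp C1) 6
  obtain ⟨l5, b5, f5⟩ := absorb (4 * Real.exp (2 * C1)) 0
  refine ⟨a, A, Y, W, l1 + l2 + l3 + l4 + l5 + 3, ha1, hA1, hW1, by linarith,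
    fun W' L hW' hL => ⟨hk, hc, hC, hA, hq, hB, ha, hAe, hY, ?_, ?_, ?_, by linarith, ?_, ?_, ?_,
      f4 L (by linarith), ?_⟩⟩
  · have : 8 * a * √(5 * Y) / k0 ≤ W' := by
      have : 0 ≤ 2 * (3 * (2 * A + 2 + A0)) := by positivity
      linarith
    rw [div_le_iff₀ hk] at this
    linarith
  · have : 8 * a * √(2 * a) / k0 ≤ W' := by
      have : 0 ≤ 2 * (3 * (2 * A + 2 + A0)) := by positivity
      linarith
    rw [div_le_iff₀ hk] at this
    linarith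
  · linarith
  · simpa using f1 L (by linarith)
  · simpa using f2 L (by linarith)
  · simpa using f3 L (by linarith)
  · simpa using f5 L (by linarith)

/-! ### sizes -/

section sizes

variable {k0 c0 C1 A0 q B a A Y W L : ℝ}

lemma TNc.a1 (h : TNc k0 c0 C1 A0 q B a A Y W L) : 1 ≤ a := by
  have := h.aeq; have := h.q0; have := h.B1; linarith

lemma TNc.A1 (h : TNc k0 c0 C1 A0 q B a A Y W L) : 1 ≤ A := by
  have h1 := h.Aeq
  have h2 := h.a1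
  have h3 := h.k0p
  have h4 := h.C1p
  have : 0 ≤ (4 * a * C1 + 4 * a) / k0 := by positivity
  linarith

lemma TNc.Y1 (h : TNc k0 c0 C1 A0 q B a A Y W L) : 1 ≤ Y := by
  have h1 := h.Yeq
  have h2 := h.B1
  have h3 := h.c0p
  have : 0 ≤ 240 * (B + 1) * (3 * (2 * A + 2 + A0)) ^ 4 / c0 ^ 2 := by positivity
  linarith

/-- the size of the windows -/
lemma TNc.P_le (h : TNc k0 c0 C1 A0 q B a A Y W L) {lam M : ℝ} (hl : 0 < lam) (hl1 : lam ≤ 1)
    (hM : 2 ≤ M) {R D0 : ℕ} (hR : R = ⌈A * M * L / lam⌉₊) (hD0 : (D0 : ℝ) ≤ A0 * L / lam) :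
    (2 * ((R + D0 + R : ℕ) : ℝ) + 1) ≤ 3 * (2 * A + 2 + A0) * (M * L / lam) := by
  have hA1 := h.A1
  have hA0 := h.A0p
  have hL := h.L3
  have hML : 6 ≤ M * L := by nlinarith
  have h1 : 1 ≤ M * L / lam := by
    rw [le_div_iff₀ hl]
    linarith
  set X : ℝ := M * L / lam with hX
  have e1 : A * M * L / lam = A * X := by rw [hX]; ring
  have hR2 : (R : ℝ) ≤ A * X + 1 := by
    rw [hR, e1]
    exact (Nat.ceil_lt_add_one (by positivity)).le
  have hD2 : (D0 : ℝ) ≤ A0 * X := by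
    refine hD0.trans ?_
    rw [hX, mul_div_assoc]
    refine mul_le_mul_of_nonneg_left ?_ hA0
    refine div_le_div_of_nonneg_right ?_ hl.le
    nlinarith
  push_cast
  nlinarith

/-- the size of the windows, exponentially -/
lemma TNc.P_exp (h : TNc k0 c0 C1 A0 q B a A Y W L) {lam M : ℝ} (hl : 0 < lam)
    (hM : 2 ≤ M) (hlL : Real.exp (-(q * L)) ≤ lam) (hML : M ≤ Real.exp L) {P : ℝ} (hP0 : 0 ≤ P)
    (hP : P ≤ 3 * (2 * A + 2 + A0) * (M * L / lam)) : P ^ 2 ≤ Real.exp ((4 + 2 * q) * L) := by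
  have hA1 := h.A1
  have hA0 := h.A0p
  have hL := h.L3
  have h1 : lam⁻¹ ≤ Real.exp (q * L) := by
    rw [inv_le_comm₀ hl (Real.exp_pos _), ← Real.exp_neg]
    exact hlL
  have h2 : P ≤ Real.exp ((2 + q) * L) := by
    refine hP.trans ?_
    have e1 : 3 * (2 * A + 2 + A0) * (M * L / lam)
        = (3 * (2 * A + 2 + A0) * L) * (M * lam⁻¹) := by
      field_simp
    have e2 : Real.exp ((2 + q) * L) = Real.exp L * (Real.exp L * Real.exp (q * L)) := by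
      rw [← Real.exp_add, ← Real.exp_add]
      congr 1
      ring
    rw [e1, e2]
    refine mul_le_mul h.F1 (mul_le_mul hML h1 (by positivity) (by positivity)) (by positivity)
      (by positivity)
  calc P ^ 2 ≤ Real.exp ((2 + q) * L) ^ 2 := pow_le_pow_left₀ hP0 h2 2
    _ = _ := by
      rw [← Real.exp_nat_mul]
      congr 1
      push_cast
      ring

/-- the size of the field -/
lemma TNc.sg_exp (h : TNc k0 c0 C1 A0 q B a A Y W L) {A' : Matrix (V N) (V N) ℝ} {ν' c : ℝ}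
    (hd : Dom A' ν' c) (hc : c0 ≤ c) (hν : ν'⁻¹ ≤ Real.exp ((2 + 2 * q) * L))
    (hN : (N : ℝ) ≤ Real.exp (q * L)) : 2 * H889.sg A' ≤ Real.exp ((4 + 2 * q) * L) := by
  have hc0 := h.c0p
  have hL := h.L3
  have hq := h.q0
  have hN0 : (0 : ℝ) < N := by exact_mod_cast NeZero.pos N
  have h1 := sg_sq_le hd
  have h2 : Real.log (1 + (N : ℝ) ^ 2) ≤ (N : ℝ) ^ 2 := by
    have := Real.log_le_sub_one_of_pos (by positivity : 0 < 1 + (N : ℝ) ^ 2)
    linarith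
  have h3 : (N : ℝ) ^ 2 ≤ Real.exp ((2 + 2 * q) * L) := by
    calc (N : ℝ) ^ 2 ≤ Real.exp (q * L) ^ 2 := pow_le_pow_left₀ hN0.le hN 2
      _ = Real.exp (2 * q * L) := by
        rw [← Real.exp_nat_mul]
        congr 1
        push_cast
        ring
      _ ≤ _ := Real.exp_le_exp.2 (by nlinarith)
  have h4 : 1 ≤ Real.exp ((2 + 2 * q) * L) := Real.one_le_exp (by positivity)
  have h5 : H889.sg A' ^ 2 ≤ Real.exp ((3 + 2 * q) * L) := by
    have h6 : c⁻¹ ≤ c0⁻¹ := inv_anti₀ hc0 hc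
    have hci : 0 < c⁻¹ := inv_pos.2 (hc0.trans_le hc)
    have h7 : c⁻¹ * (50 * (1 + Real.log (1 + (N : ℝ) ^ 2)))
        ≤ c0⁻¹ * (50 * (2 * Real.exp ((2 + 2 * q) * L))) := by
      refine mul_le_mul h6 (by linarith) ?_ (by positivity)
      have := Real.log_nonneg (by nlinarith : 1 ≤ 1 + (N : ℝ) ^ 2)
      positivity
    have h8 : (1 + 100 / c0) * Real.exp ((2 + 2 * q) * L)
        ≤ Real.exp L * Real.exp ((2 + 2 * q) * L) :=
      mul_le_mul_of_nonneg_right h.F2 (Real.exp_pos _).le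
    have h9 : Real.exp L * Real.exp ((2 + 2 * q) * L) = Real.exp ((3 + 2 * q) * L) := by
      rw [← Real.exp_add]
      congr 1
      ring
    rw [h9] at h8
    refine le_trans ?_ h8
    have e1 : (1 + 100 / c0) * Real.exp ((2 + 2 * q) * L)
        = Real.exp ((2 + 2 * q) * L) + c0⁻¹ * (50 * (2 * Real.exp ((2 + 2 * q) * L))) := by
      field_simp
      ring
    rw [e1]
    linarith
  have h0 := H889.sg_nonneg A'
  refine le_of_sq_le_sq ?_ (Real.exp_pos _).le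
  calc (2 * H889.sg A') ^ 2 = 4 * H889.sg A' ^ 2 := by ring
    _ ≤ Real.exp L * Real.exp ((3 + 2 * q) * L) := by
      have : (4 : ℝ) ≤ Real.exp L := by
        have := Real.add_one_le_exp L
        linarith
      exact mul_le_mul this h5 (sq_nonneg _) (Real.exp_pos _).le
    _ = Real.exp ((4 + 2 * q) * L) := by
      rw [← Real.exp_add]
      congr 1
      ring
    _ ≤ Real.exp ((4 + 2 * q) * L) ^ 2 := by
      have : 1 ≤ Real.exp ((4 + 2 * q) * L) := Real.one_le_exp (by positivity)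
      nlinarith

end sizes

end

end Vale.Agent.P159.H733.Vt
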